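import Mathlib.MeasureTheory.Integral.IntervalIntegral.FundThmCalculus
import Mathlib.MeasureTheory.Integral.Prod
import Mathlib.MeasureTheory.Constructions.Pi
import Mathlib.MeasureTheory.Measure.Lebesgue.Basic
import Mathlib.Analysis.Calculus.ParametricIntegral
import Mathlib.Analysis.Calculus.Deriv.MeanValue
import Mathlib.Analysis.SpecialFunctions.ExpDeriv
import Mathlib.Order.Fin.Tuple

/-!
Energy uniqueness for classical solutions of the forced Navier-Stokes system on the flat torus,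
written for lifts to `Fin 3 → ℝ` that are 1-periodic in every coordinate.
-/

namespace P113U

open MeasureTheory Set

/-- derivative along a line at every base point gives the derivative at every parameter -/
theorem hasDerivAt_line_shift {E : Type*} [AddCommGroup E] [Module ℝ E] (e : E) (g g' : E → ℝ)
    (hd : ∀ x, HasDerivAt (fun s : ℝ => g (x + s • e)) (g' x) 0) (x : E) (s₀ : ℝ) :
    HasDerivAt (fun s : ℝ => g (x + s • e)) (g' (x + s₀ • e)) s₀ := by
  have h1 := hd (x + s₀ • e)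
  have h2 : HasDerivAt (fun s : ℝ => s - s₀) 1 s₀ := (hasDerivAt_id s₀).sub_const s₀
  have h3 : HasDerivAt (fun s : ℝ => g (x + s₀ • e + s • e)) (g' (x + s₀ • e)) (s₀ - s₀) := by
    rw [sub_self]; exact h1
  have h4 := HasDerivAt.comp (h := fun s : ℝ => s - s₀) s₀ h3 h2
  rw [mul_one] at h4
  refine h4.congr_of_eventuallyEq (Filter.Eventually.of_forall fun s => ?_)
  simp only [Function.comp]
  congr 1
  rw [add_assoc, ← add_smul]
  congr 2
  ring

/-- The integral over a unit cube of a partial derivative of a periodic function vanishes. -/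
theorem integral_cube_partial {n : ℕ} (i : Fin (n + 1)) (a : Fin (n + 1) → ℝ)
    (g g' : (Fin (n + 1) → ℝ) → ℝ) (hg' : Continuous g')
    (hd : ∀ x, HasDerivAt (fun s : ℝ => g (x + s • (Pi.single i 1 : Fin (n + 1) → ℝ))) (g' x) 0)
    (hper : ∀ x, g (x + Pi.single i 1) = g x) :
    ∫ x in Icc a (a + 1), g' x = 0 := by
  set e : ℝ × (Fin n → ℝ) ≃ᵐ (Fin (n + 1) → ℝ) :=
    (MeasurableEquiv.piFinSuccAbove (fun _ => ℝ) i).symm with he
  have hem : MeasurePreserving e :=
    (volume_preserving_piFinSuccAbove (fun _ : Fin (n + 1) => ℝ) i).symm _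
  have heπ : (e ⁻¹' Icc a (a + 1)) = Icc (a i) (a i + 1) ×ˢ
      Icc (fun j => a (i.succAbove j)) (fun j => a (i.succAbove j) + 1) :=
    ((Fin.insertNthOrderIso (fun _ => ℝ) i).preimage_Icc _ _).trans (Icc_prod_eq _ _)
  have hint : IntegrableOn g' (Icc a (a + 1)) := hg'.continuousOn.integrableOn_compact isCompact_Icc
  have hint2 : IntegrableOn (fun z => g' (e z)) (Icc (a i) (a i + 1) ×ˢ
      Icc (fun j => a (i.succAbove j)) (fun j => a (i.succAbove j) + 1))
      ((volume : Measure ℝ).prod (volume : Measure (Fin n → ℝ))) := by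
    have := (hem.integrableOn_comp_preimage e.measurableEmbedding).2 hint
    rw [heπ] at this
    exact this
  rw [← hem.map_eq, setIntegral_map_equiv, heπ, Measure.volume_eq_prod]
  have hsw : ∫ z in Icc (a i) (a i + 1) ×ˢ
      Icc (fun j => a (i.succAbove j)) (fun j => a (i.succAbove j) + 1), g' (e z)
        ∂((volume : Measure ℝ).prod (volume : Measure (Fin n → ℝ))) =
      ∫ y in Icc (fun j => a (i.succAbove j)) (fun j => a (i.succAbove j) + 1),
        ∫ s in Icc (a i) (a i + 1), g' (e (s, y)) := by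
    simp only [← Measure.prod_restrict, IntegrableOn] at hint2 ⊢
    exact integral_prod_symm _ hint2
  rw [hsw]
  refine setIntegral_eq_zero_of_forall_eq_zero fun y _ => ?_
  have hes : ∀ s : ℝ, e (s, y) = e (0, y) + s • (Pi.single i 1 : Fin (n + 1) → ℝ) := by
    intro s
    funext k
    refine Fin.succAboveCases i ?_ (fun j => ?_) k
    · simp [he, MeasurableEquiv.piFinSuccAbove_symm_apply, Fin.insertNthEquiv]
    · simp [he, MeasurableEquiv.piFinSuccAbove_symm_apply, Fin.insertNthEquiv,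
        Fin.succAbove_ne]
  have hfun : (fun s : ℝ => g' (e (s, y))) =
      fun s : ℝ => g' (e (0, y) + s • (Pi.single i 1 : Fin (n + 1) → ℝ)) := by
    funext s; rw [hes s]
  rw [hfun]
  rw [integral_Icc_eq_integral_Ioc, ← intervalIntegral.integral_of_le (by linarith)]
  rw [intervalIntegral.integral_eq_sub_of_hasDerivAt
    (f := fun s : ℝ => g (e (0, y) + s • (Pi.single i 1 : Fin (n + 1) → ℝ)))
    (fun s _ => hasDerivAt_line_shift _ g g' hd _ s)]
  · rw [add_smul, one_smul, ← add_assoc, hper, sub_self]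
  · exact (hg'.comp (by fun_prop)).intervalIntegrable _ _

/-- Euclidean 3-space (the universal cover of the torus). -/
abbrev E3 := Fin 3 → ℝ

/-- Data of a classical solution on `[0,T]`, in the weakest form that the uniqueness proof uses. -/
structure Sol (ν T : ℝ) (f u : ℝ → E3 → E3) (p : ℝ → E3 → ℝ) where
  ut : ℝ → E3 → E3
  D : Fin 3 → ℝ → E3 → E3
  DD : Fin 3 → ℝ → E3 → E3
  Dp : Fin 3 → ℝ → E3 → ℝ
  per_u : ∀ t ∈ Icc 0 T, ∀ (i : Fin 3) (x : E3), u t (x + Pi.single i 1) = u t x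
  per_p : ∀ t ∈ Icc 0 T, ∀ (i : Fin 3) (x : E3), p t (x + Pi.single i 1) = p t x
  c_u : ContinuousOn (fun z : ℝ × E3 => u z.1 z.2) (Icc 0 T ×ˢ univ)
  c_ut : ContinuousOn (fun z : ℝ × E3 => ut z.1 z.2) (Icc 0 T ×ˢ univ)
  c_D : ∀ i, ContinuousOn (fun z : ℝ × E3 => D i z.1 z.2) (Icc 0 T ×ˢ univ)
  c_DD : ∀ i, ContinuousOn (fun z : ℝ × E3 => DD i z.1 z.2) (Icc 0 T ×ˢ univ)
  c_p : ContinuousOn (fun z : ℝ × E3 => p z.1 z.2) (Icc 0 T ×ˢ univ)
  c_Dp : ∀ i, ContinuousOn (fun z : ℝ × E3 => Dp i z.1 z.2) (Icc 0 T ×ˢ univ)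
  d_t : ∀ t ∈ Ioo 0 T, ∀ (x : E3) (k : Fin 3), HasDerivAt (fun s => u s x k) (ut t x k) t
  d_x : ∀ t ∈ Icc 0 T, ∀ (i : Fin 3) (x : E3) (k : Fin 3),
    HasDerivAt (fun s : ℝ => u t (x + s • (Pi.single i 1 : E3)) k) (D i t x k) 0
  d_xx : ∀ t ∈ Icc 0 T, ∀ (i : Fin 3) (x : E3) (k : Fin 3),
    HasDerivAt (fun s : ℝ => D i t (x + s • (Pi.single i 1 : E3)) k) (DD i t x k) 0
  d_p : ∀ t ∈ Icc 0 T, ∀ (i : Fin 3) (x : E3),
    HasDerivAt (fun s : ℝ => p t (x + s • (Pi.single i 1 : E3))) (Dp i t x) 0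
  eqn : ∀ t ∈ Ioo 0 T, ∀ (x : E3) (k : Fin 3),
    ut t x k + ∑ j, u t x j * D j t x k = - Dp k t x + ν * ∑ j, DD j t x k + f t x k
  div : ∀ t ∈ Ioo 0 T, ∀ x : E3, ∑ j, D j t x j = 0
  init : ∀ x : E3, u 0 x = 0
  mean : ∀ t ∈ Icc 0 T, ∫ x in Icc (0 : E3) 1, p t x = 0

theorem slice_cont {F : Type*} [TopologicalSpace F] {T : ℝ} {g : ℝ → E3 → F}
    (h : ContinuousOn (fun z : ℝ × E3 => g z.1 z.2) (Icc 0 T ×ˢ univ)) {t : ℝ}
    (ht : t ∈ Icc 0 T) : Continuous (g t) := by
  have h2 : Continuous (fun x : E3 => ((t, x) : ℝ × E3)) := by fun_prop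
  exact h.comp_continuous h2 (fun x => ⟨ht, mem_univ x⟩)

theorem time_cont {F : Type*} [TopologicalSpace F] {T : ℝ} {g : ℝ → E3 → F}
    (h : ContinuousOn (fun z : ℝ × E3 => g z.1 z.2) (Icc 0 T ×ˢ univ)) (x : E3) :
    ContinuousOn (fun t => g t x) (Icc 0 T) := by
  have h2 : Continuous (fun t : ℝ => ((t, x) : ℝ × E3)) := by fun_prop
  exact h.comp h2.continuousOn (fun t ht => ⟨ht, mem_univ x⟩)

theorem Sol.per_D {ν T : ℝ} {f u : ℝ → E3 → E3} {p : ℝ → E3 → ℝ} (S : Sol ν T f u p)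
    {t : ℝ} (ht : t ∈ Icc 0 T) (i j : Fin 3) (x : E3) (k : Fin 3) :
    S.D j t (x + Pi.single i 1) k = S.D j t x k := by
  have h1 := S.d_x t ht j (x + Pi.single i 1) k
  have h2 := S.d_x t ht j x k
  refine h1.unique (h2.congr_of_eventuallyEq (Filter.Eventually.of_forall fun s => ?_))
  simp only
  rw [add_right_comm, S.per_u t ht]

/-- the pointwise algebra behind the energy inequality -/
theorem energy_alg (ν M r : ℝ) (hν : 0 ≤ ν) (u v ut vt f Dp Dq : Fin 3 → ℝ)
    (D D' DD DD' : Fin 3 → Fin 3 → ℝ)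
    (hu : ∀ k, ut k + ∑ j, u j * D j k = - Dp k + ν * ∑ j, DD j k + f k)
    (hv : ∀ k, vt k + ∑ j, v j * D' j k = - Dq k + ν * ∑ j, DD' j k + f k)
    (du : ∑ j, D j j = 0) (dv : ∑ j, D' j j = 0) (hM : ∀ j k, |D j k| ≤ M) :
    ∑ k, 2 * ((u k - v k) * (ut k - vt k)) ≤ 18 * M * ∑ k, (u k - v k) ^ 2 +
      ∑ j, (-(D' j j * ∑ k, (u k - v k) ^ 2
              + v j * ∑ k, 2 * ((u k - v k) * (D j k - D' j k)))
          - 2 * ((D j j - D' j j) * r + (u j - v j) * (Dp j - Dq j))
          + 2 * ν * ∑ k, ((D j k - D' j k) * (D j k - D' j k)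
              + (u k - v k) * (DD j k - DD' j k))) := by
  have hM0 : 0 ≤ M := (abs_nonneg _).trans (hM 0 0)
  have hw : ∀ j k, -(2 * ((u k - v k) * (u j - v j) * D j k)) ≤
      2 * M * ∑ k, (u k - v k) ^ 2 := by
    intro j k
    have h1 : |(u k - v k) * (u j - v j)| ≤ ∑ k, (u k - v k) ^ 2 := by
      have a1 : (u k - v k) ^ 2 ≤ ∑ k, (u k - v k) ^ 2 :=
        Finset.single_le_sum (f := fun k => (u k - v k) ^ 2) (fun _ _ => sq_nonneg _)
          (Finset.mem_univ k)
      have a2 : (u j - v j) ^ 2 ≤ ∑ k, (u k - v k) ^ 2 :=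
        Finset.single_le_sum (f := fun k => (u k - v k) ^ 2) (fun _ _ => sq_nonneg _)
          (Finset.mem_univ j)
      rw [abs_le]
      constructor
      · nlinarith [sq_nonneg ((u k - v k) + (u j - v j))]
      · nlinarith [sq_nonneg ((u k - v k) - (u j - v j))]
    have h2 : |(u k - v k) * (u j - v j) * D j k| ≤ (∑ k, (u k - v k) ^ 2) * M := by
      rw [abs_mul]
      exact mul_le_mul h1 (hM j k) (abs_nonneg _) ((abs_nonneg _).trans h1)
    have h3 := neg_abs_le ((u k - v k) * (u j - v j) * D j k)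
    nlinarith
  have hsq : 0 ≤ ν * ∑ j, ∑ k, (D j k - D' j k) * (D j k - D' j k) :=
    mul_nonneg hν (Finset.sum_nonneg fun _ _ => Finset.sum_nonneg fun _ _ => mul_self_nonneg _)
  have e0 := hu 0
  have e1 := hu 1
  have e2 := hu 2
  have g0 := hv 0
  have g1 := hv 1
  have g2 := hv 2
  have w00 := hw 0 0
  have w01 := hw 0 1
  have w02 := hw 0 2
  have w10 := hw 1 0
  have w11 := hw 1 1
  have w12 := hw 1 2
  have w20 := hw 2 0
  have w21 := hw 2 1
  have w22 := hw 2 2
  simp only [Fin.sum_univ_three] at *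
  have t0 : ut 0 = - Dp 0 + ν * (DD 0 0 + DD 1 0 + DD 2 0) + f 0
      - (u 0 * D 0 0 + u 1 * D 1 0 + u 2 * D 2 0) := by linarith
  have t1 : ut 1 = - Dp 1 + ν * (DD 0 1 + DD 1 1 + DD 2 1) + f 1
      - (u 0 * D 0 1 + u 1 * D 1 1 + u 2 * D 2 1) := by linarith
  have t2 : ut 2 = - Dp 2 + ν * (DD 0 2 + DD 1 2 + DD 2 2) + f 2
      - (u 0 * D 0 2 + u 1 * D 1 2 + u 2 * D 2 2) := by linarith
  have s0 : vt 0 = - Dq 0 + ν * (DD' 0 0 + DD' 1 0 + DD' 2 0) + f 0
      - (v 0 * D' 0 0 + v 1 * D' 1 0 + v 2 * D' 2 0) := by linarith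
  have s1 : vt 1 = - Dq 1 + ν * (DD' 0 1 + DD' 1 1 + DD' 2 1) + f 1
      - (v 0 * D' 0 1 + v 1 * D' 1 1 + v 2 * D' 2 1) := by linarith
  have s2 : vt 2 = - Dq 2 + ν * (DD' 0 2 + DD' 1 2 + DD' 2 2) + f 2
      - (v 0 * D' 0 2 + v 1 * D' 1 2 + v 2 * D' 2 2) := by linarith
  have du' : D 2 2 = - D 0 0 - D 1 1 := by linarith
  have dv' : D' 2 2 = - D' 0 0 - D' 1 1 := by linarith
  rw [t0, t1, t2, s0, s1, s2]
  rw [du'] at w22 hsq ⊢
  rw [dv'] at hsq ⊢
  linarith

section Pair

variable {ν T : ℝ} {f u v : ℝ → E3 → E3} {p q : ℝ → E3 → ℝ}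

/-- the flux in direction `j` -/
def flux (S : Sol ν T f u p) (S' : Sol ν T f v q) (t : ℝ) (j : Fin 3) (x : E3) : ℝ :=
  -(v t x j * ∑ k, (u t x k - v t x k) ^ 2) - 2 * ((u t x j - v t x j) * (p t x - q t x))
    + 2 * ν * ∑ k, (u t x k - v t x k) * (S.D j t x k - S'.D j t x k)

/-- its derivative in direction `j` -/
def dflux (S : Sol ν T f u p) (S' : Sol ν T f v q) (t : ℝ) (j : Fin 3) (x : E3) : ℝ :=
  -(S'.D j t x j * ∑ k, (u t x k - v t x k) ^ 2
      + v t x j * ∑ k, 2 * ((u t x k - v t x k) * (S.D j t x k - S'.D j t x k)))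
    - 2 * ((S.D j t x j - S'.D j t x j) * (p t x - q t x)
      + (u t x j - v t x j) * (S.Dp j t x - S'.Dp j t x))
    + 2 * ν * ∑ k, ((S.D j t x k - S'.D j t x k) * (S.D j t x k - S'.D j t x k)
      + (u t x k - v t x k) * (S.DD j t x k - S'.DD j t x k))

theorem flux_deriv (S : Sol ν T f u p) (S' : Sol ν T f v q) {t : ℝ} (ht : t ∈ Icc 0 T)
    (j : Fin 3) (x : E3) :
    HasDerivAt (fun s : ℝ => flux S S' t j (x + s • (Pi.single j 1 : E3))) (dflux S S' t j x) 0 := by
  have hw : ∀ k, HasDerivAt (fun s : ℝ => u t (x + s • (Pi.single j 1 : E3)) k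
      - v t (x + s • (Pi.single j 1 : E3)) k) (S.D j t x k - S'.D j t x k) 0 :=
    fun k => (S.d_x t ht j x k).sub (S'.d_x t ht j x k)
  have hD : ∀ k, HasDerivAt (fun s : ℝ => S.D j t (x + s • (Pi.single j 1 : E3)) k
      - S'.D j t (x + s • (Pi.single j 1 : E3)) k) (S.DD j t x k - S'.DD j t x k) 0 :=
    fun k => (S.d_xx t ht j x k).sub (S'.d_xx t ht j x k)
  have hr : HasDerivAt (fun s : ℝ => p t (x + s • (Pi.single j 1 : E3))
      - q t (x + s • (Pi.single j 1 : E3))) (S.Dp j t x - S'.Dp j t x) 0 :=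
    (S.d_p t ht j x).sub (S'.d_p t ht j x)
  have hsq : HasDerivAt (fun s : ℝ => ∑ k, (u t (x + s • (Pi.single j 1 : E3)) k
      - v t (x + s • (Pi.single j 1 : E3)) k) ^ 2)
      (∑ k, 2 * ((u t x k - v t x k) * (S.D j t x k - S'.D j t x k))) 0 := by
    refine HasDerivAt.fun_sum fun k _ => ?_
    have := (hw k).fun_mul (hw k)
    simp only [zero_smul, add_zero] at this
    simp only [pow_two]
    refine this.congr_deriv ?_
    ring
  have h1 := (S'.d_x t ht j x j).fun_mul hsq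
  have h2 := ((hw j).fun_mul hr).const_mul 2
  have h3 := (HasDerivAt.fun_sum (u := Finset.univ)
    (fun k _ => (hw k).fun_mul (hD k))).const_mul (2 * ν)
  have h4 := (h1.fun_neg.fun_sub h2).fun_add h3
  simp only [zero_smul, add_zero] at h4
  exact h4

theorem flux_per (S : Sol ν T f u p) (S' : Sol ν T f v q) {t : ℝ} (ht : t ∈ Icc 0 T)
    (j : Fin 3) (x : E3) : flux S S' t j (x + Pi.single j 1) = flux S S' t j x := by
  simp only [flux, S.per_u t ht, S'.per_u t ht, S.per_p t ht, S'.per_p t ht, S.per_D ht,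
    S'.per_D ht]

theorem dflux_cont (S : Sol ν T f u p) (S' : Sol ν T f v q) {t : ℝ} (ht : t ∈ Icc 0 T)
    (j : Fin 3) : Continuous (dflux S S' t j) := by
  have a1 := slice_cont S.c_u ht
  have a2 := slice_cont S'.c_u ht
  have a3 := slice_cont (S.c_D j) ht
  have a4 := slice_cont (S'.c_D j) ht
  have a5 := slice_cont (S.c_DD j) ht
  have a6 := slice_cont (S'.c_DD j) ht
  have a7 := slice_cont S.c_p ht
  have a8 := slice_cont S'.c_p ht
  have a9 := slice_cont (S.c_Dp j) ht
  have a10 := slice_cont (S'.c_Dp j) ht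
  unfold dflux
  fun_prop

/-- the energy inequality at one time -/
theorem energy_ineq (hν : 0 ≤ ν) (S : Sol ν T f u p) (S' : Sol ν T f v q) (a : E3) (M : ℝ)
    {t : ℝ} (ht : t ∈ Ioo 0 T) (hM : ∀ x ∈ Icc a (a + 1), ∀ j k, |S.D j t x k| ≤ M) :
    ∫ x in Icc a (a + 1), ∑ k, 2 * ((u t x k - v t x k) * (S.ut t x k - S'.ut t x k)) ≤
      18 * M * ∫ x in Icc a (a + 1), ∑ k, (u t x k - v t x k) ^ 2 := by
  have ht' : t ∈ Icc 0 T := Ioo_subset_Icc_self ht
  have a1 := slice_cont S.c_u ht'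
  have a2 := slice_cont S'.c_u ht'
  have a3 := slice_cont S.c_ut ht'
  have a4 := slice_cont S'.c_ut ht'
  have i1 : IntegrableOn (fun x => ∑ k, 2 * ((u t x k - v t x k) * (S.ut t x k - S'.ut t x k)))
      (Icc a (a + 1)) :=
    Continuous.continuousOn (by fun_prop) |>.integrableOn_compact isCompact_Icc
  have i2 : IntegrableOn (fun x => 18 * M * ∑ k, (u t x k - v t x k) ^ 2) (Icc a (a + 1)) :=
    Continuous.continuousOn (by fun_prop) |>.integrableOn_compact isCompact_Icc
  have i3 : ∀ j, IntegrableOn (dflux S S' t j) (Icc a (a + 1)) := fun j =>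
    (dflux_cont S S' ht' j).continuousOn.integrableOn_compact isCompact_Icc
  have i4 : IntegrableOn (fun x => ∑ j, dflux S S' t j x) (Icc a (a + 1)) :=
    integrable_finsetSum _ fun j _ => i3 j
  have z : ∫ x in Icc a (a + 1), ∑ j, dflux S S' t j x = 0 := by
    rw [integral_finsetSum _ fun j _ => i3 j]
    refine Finset.sum_eq_zero fun j _ => ?_
    exact integral_cube_partial (n := 2) j a (flux S S' t j) (dflux S S' t j)
      (dflux_cont S S' ht' j) (flux_deriv S S' ht' j) (flux_per S S' ht' j)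
  calc ∫ x in Icc a (a + 1), ∑ k, 2 * ((u t x k - v t x k) * (S.ut t x k - S'.ut t x k))
      ≤ ∫ x in Icc a (a + 1), (18 * M * ∑ k, (u t x k - v t x k) ^ 2
          + ∑ j, dflux S S' t j x) := by
        refine setIntegral_mono_on i1 (i2.add i4) measurableSet_Icc fun x hx => ?_
        exact energy_alg ν M (p t x - q t x) hν (u t x) (v t x) (S.ut t x) (S'.ut t x) (f t x)
          (fun k => S.Dp k t x) (fun k => S'.Dp k t x) (fun j => S.D j t x) (fun j => S'.D j t x)
          (fun j => S.DD j t x) (fun j => S'.DD j t x) (S.eqn t ht x) (S'.eqn t ht x)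
          (S.div t ht x) (S'.div t ht x) (hM x hx)
    _ = 18 * M * ∫ x in Icc a (a + 1), ∑ k, (u t x k - v t x k) ^ 2 := by
        rw [integral_add i2 i4, z, add_zero, integral_const_mul]

/-- uniqueness of the velocity -/
theorem vel_eq (hν : 0 ≤ ν) (S : Sol ν T f u p) (S' : Sol ν T f v q) {t : ℝ}
    (ht : t ∈ Icc 0 T) (a : E3) : u t a = v t a := by
  have hT : 0 ≤ T := ht.1.trans ht.2
  have hK : IsCompact (Icc (0 : ℝ) T ×ˢ Icc a (a + 1)) := isCompact_Icc.prod isCompact_Icc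
  have hsub : Icc (0 : ℝ) T ×ˢ Icc a (a + 1) ⊆ Icc 0 T ×ˢ univ :=
    prod_mono subset_rfl (subset_univ _)
  have cD : ContinuousOn (fun z : ℝ × E3 => fun j => S.D j z.1 z.2) (Icc 0 T ×ˢ univ) :=
    continuousOn_pi.2 S.c_D
  obtain ⟨M, hM⟩ := hK.exists_bound_of_continuousOn (cD.mono hsub)
  have hM' : ∀ s ∈ Icc 0 T, ∀ x ∈ Icc a (a + 1), ∀ j k, |S.D j s x k| ≤ M := by
    intro s hs x hx j k
    have h := hM (s, x) ⟨hs, hx⟩
    exact (norm_le_pi_norm (S.D j s x) k).trans
      ((norm_le_pi_norm (fun j => S.D j s x) j).trans h)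
  set F : ℝ → E3 → ℝ := fun s x => ∑ k, (u s x k - v s x k) ^ 2 with hF
  set F' : ℝ → E3 → ℝ := fun s x =>
    ∑ k, 2 * ((u s x k - v s x k) * (S.ut s x k - S'.ut s x k)) with hF'
  have cu := continuousOn_pi.1 S.c_u
  have cv := continuousOn_pi.1 S'.c_u
  have cut := continuousOn_pi.1 S.c_ut
  have cvt := continuousOn_pi.1 S'.c_ut
  have cF : ContinuousOn (fun z : ℝ × E3 => F z.1 z.2) (Icc 0 T ×ˢ univ) :=
    continuousOn_finsetSum _ fun k _ => ((cu k).sub (cv k)).pow 2
  have cF' : ContinuousOn (fun z : ℝ × E3 => F' z.1 z.2) (Icc 0 T ×ˢ univ) :=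
    continuousOn_finsetSum _ fun k _ =>
      continuousOn_const.mul (((cu k).sub (cv k)).mul ((cut k).sub (cvt k)))
  obtain ⟨B, hB⟩ := hK.exists_bound_of_continuousOn (cF.mono hsub)
  obtain ⟨B', hB'⟩ := hK.exists_bound_of_continuousOn (cF'.mono hsub)
  have hfin : (volume (Icc a (a + 1))) ≠ ⊤ := isCompact_Icc.measure_lt_top.ne
  set En : ℝ → ℝ := fun s => ∫ x in Icc a (a + 1), F s x with hEn
  have cE : ContinuousOn En (Icc 0 T) := by
    refine continuousOn_of_dominated (bound := fun _ => B) ?_ ?_ (integrableOn_const hfin) ?_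
    · intro s hs
      exact (slice_cont cF hs).aestronglyMeasurable
    · intro s hs
      filter_upwards [ae_restrict_mem measurableSet_Icc] with x hx
      exact hB (s, x) ⟨hs, hx⟩
    · exact Filter.Eventually.of_forall fun x => time_cont cF x
  have dE : ∀ s ∈ Ioo 0 T, HasDerivAt En (∫ x in Icc a (a + 1), F' s x) s := by
    intro s hs
    have hnb : Ioo 0 T ∈ nhds s := isOpen_Ioo.mem_nhds hs
    refine (hasDerivAt_integral_of_dominated_loc_of_deriv_le (bound := fun _ => B') hnb ?_ ?_ ?_ ?_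
      (integrableOn_const hfin) ?_).2
    · filter_upwards [hnb] with r hr
      exact (slice_cont cF (Ioo_subset_Icc_self hr)).aestronglyMeasurable
    · exact (slice_cont cF (Ioo_subset_Icc_self hs)).continuousOn.integrableOn_compact isCompact_Icc
    · exact (slice_cont cF' (Ioo_subset_Icc_self hs)).aestronglyMeasurable
    · filter_upwards [ae_restrict_mem measurableSet_Icc] with x hx r hr
      exact hB' (r, x) ⟨Ioo_subset_Icc_self hr, hx⟩
    · refine Filter.Eventually.of_forall fun x r hr => ?_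
      refine HasDerivAt.fun_sum fun k _ => ?_
      have hw := (S.d_t r hr x k).fun_sub (S'.d_t r hr x k)
      have := hw.fun_mul hw
      simp only [pow_two]
      refine this.congr_deriv ?_
      ring
  set G : ℝ → ℝ := fun s => Real.exp (-(18 * M) * s) * En s with hG
  have aG : AntitoneOn G (Icc 0 T) := by
    refine antitoneOn_of_hasDerivWithinAt_nonpos (convex_Icc 0 T)
      (f' := fun s => Real.exp (-(18 * M) * s) * (-(18 * M)) * En s
        + Real.exp (-(18 * M) * s) * ∫ x in Icc a (a + 1), F' s x) ?_ ?_ ?_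
    · exact (Continuous.continuousOn (by fun_prop)).mul cE
    · intro s hs
      rw [interior_Icc] at hs
      have h1 : HasDerivAt (fun s : ℝ => -(18 * M) * s) (-(18 * M)) s := by
        simpa using (hasDerivAt_id s).const_mul (-(18 * M))
      exact (h1.exp.fun_mul (dE s hs)).hasDerivWithinAt
    · intro s hs
      rw [interior_Icc] at hs
      have h1 := energy_ineq hν S S' a M hs (hM' s (Ioo_subset_Icc_self hs))
      have h2 := Real.exp_pos (-(18 * M) * s)
      have h3 : (∫ x in Icc a (a + 1), F' s x) - 18 * M * En s ≤ 0 := sub_nonpos.2 h1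
      have h4 := mul_nonpos_of_nonneg_of_nonpos h2.le h3
      calc _ = Real.exp (-(18 * M) * s) * ((∫ x in Icc a (a + 1), F' s x) - 18 * M * En s) := by
            ring
        _ ≤ 0 := h4
  have E0 : En 0 = 0 := by
    simp [hEn, hF, S.init, S'.init]
  have hGt : G t ≤ G 0 := aG (left_mem_Icc.2 hT) ht ht.1
  have hF0 : ∀ x, 0 ≤ F t x := fun x => Finset.sum_nonneg fun _ _ => sq_nonneg _
  have hEt : En t = 0 := by
    have h1 : 0 ≤ En t := integral_nonneg hF0
    have h2 := Real.exp_pos (-(18 * M) * t)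
    have h3 : Real.exp (-(18 * M) * t) * En t ≤ 0 := by
      simpa [hG, E0] using hGt
    exact le_antisymm (by nlinarith) h1
  have hae : F t =ᵐ[volume.restrict (Icc a (a + 1))] 0 :=
    (setIntegral_eq_zero_iff_of_nonneg_ae (Filter.Eventually.of_forall hF0)
      ((slice_cont cF ht).continuousOn.integrableOn_compact isCompact_Icc)).1 hEt
  have hcl : Icc a (a + 1) ⊆ closure (interior (Icc a (a + 1))) := by
    rw [← pi_univ_Icc, interior_pi_set finite_univ, closure_pi_set]
    refine pi_mono fun i _ => ?_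
    rw [closure_interior_Icc]
    simp
  have hz := Measure.eqOn_of_ae_eq hae (slice_cont cF ht).continuousOn continuousOn_const hcl
    (left_mem_Icc.2 (fun i => by simp))
  funext k
  have h5 := (Finset.sum_eq_zero_iff_of_nonneg (fun _ _ => sq_nonneg _)).1 hz k (Finset.mem_univ k)
  have h6 := pow_eq_zero_iff (two_ne_zero) |>.1 h5
  linarith

/-- a function all of whose partial derivatives vanish is constant -/
theorem const_of_partials (r : E3 → ℝ)
    (h : ∀ (i : Fin 3) (x : E3), HasDerivAt (fun s : ℝ => r (x + s • (Pi.single i 1 : E3))) 0 0)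
    (x : E3) : r x = r 0 := by
  have key : ∀ (i : Fin 3) (y : E3) (s : ℝ), r (y + s • (Pi.single i 1 : E3)) = r y := by
    intro i y s
    have hd : ∀ s₀, HasDerivAt (fun s : ℝ => r (y + s • (Pi.single i 1 : E3))) 0 s₀ :=
      fun s₀ => hasDerivAt_line_shift _ r (fun _ => 0) (h i) y s₀
    have := is_const_of_deriv_eq_zero (fun s₀ => (hd s₀).differentiableAt)
      (fun s₀ => (hd s₀).deriv) s 0
    simpa using this
  have hx : x = 0 + x 0 • (Pi.single 0 1 : E3) + x 1 • (Pi.single 1 1 : E3)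
      + x 2 • (Pi.single 2 1 : E3) := by
    funext k
    fin_cases k <;> simp
  rw [hx, key, key, key]

/-- uniqueness of the pressure at interior times -/
theorem pres_eq_Ioo (hν : 0 ≤ ν) (S : Sol ν T f u p) (S' : Sol ν T f v q) {t : ℝ}
    (ht : t ∈ Ioo 0 T) (x : E3) : p t x = q t x := by
  have ht' : t ∈ Icc 0 T := Ioo_subset_Icc_self ht
  have huv : ∀ s ∈ Icc 0 T, u s = v s := fun s hs => funext (vel_eq hν S S' hs)
  have h1 : ∀ y k, S.ut t y k = S'.ut t y k := by
    intro y k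
    refine (S.d_t t ht y k).unique ((S'.d_t t ht y k).congr_of_eventuallyEq ?_)
    filter_upwards [isOpen_Ioo.mem_nhds ht] with s hs
    rw [huv s (Ioo_subset_Icc_self hs)]
  have h2 : ∀ j, S.D j t = S'.D j t := by
    intro j
    funext y k
    refine (S.d_x t ht' j y k).unique ?_
    rw [huv t ht']
    exact S'.d_x t ht' j y k
  have h3 : ∀ j, S.DD j t = S'.DD j t := by
    intro j
    funext y k
    refine (S.d_xx t ht' j y k).unique ?_
    rw [h2 j]
    exact S'.d_xx t ht' j y k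
  have h4 : ∀ k y, S.Dp k t y = S'.Dp k t y := by
    intro k y
    have e1 := S.eqn t ht y k
    have e2 := S'.eqn t ht y k
    simp only [h1, h2, h3, huv t ht'] at e1
    linarith
  have h5 : ∀ y, p t y - q t y = p t 0 - q t 0 := by
    refine const_of_partials (fun y => p t y - q t y) fun i y => ?_
    have := (S.d_p t ht' i y).fun_sub (S'.d_p t ht' i y)
    rwa [h4, sub_self] at this
  have i1 : IntegrableOn (p t) (Icc (0 : E3) 1) :=
    (slice_cont S.c_p ht').continuousOn.integrableOn_compact isCompact_Icc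
  have i2 : IntegrableOn (q t) (Icc (0 : E3) 1) :=
    (slice_cont S'.c_p ht').continuousOn.integrableOn_compact isCompact_Icc
  have h6 : ∫ y in Icc (0 : E3) 1, (p t y - q t y) = 0 := by
    rw [integral_sub i1 i2, S.mean t ht', S'.mean t ht', sub_self]
  simp only [h5] at h6
  have h7 : (volume : Measure E3).real (Icc (0 : E3) 1) = 1 := by
    simp [Measure.real, Real.volume_Icc_pi]
  rw [setIntegral_const, h7, one_smul] at h6
  have := h5 x
  linarith

/-- Uniqueness of classical solutions on `[0,T]`, velocity and pressure. -/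
theorem unique (hν : 0 ≤ ν) (hT : 0 < T) (S : Sol ν T f u p) (S' : Sol ν T f v q) {t : ℝ}
    (ht : t ∈ Icc 0 T) : u t = v t ∧ p t = q t := by
  refine ⟨funext (vel_eq hν S S' ht), funext fun x => ?_⟩
  have h : EqOn (fun s => p s x) (fun s => q s x) (Ioo 0 T) :=
    fun s hs => pres_eq_Ioo hν S S' hs x
  exact h.of_subset_closure (time_cont S.c_p x) (time_cont S'.c_p x) Ioo_subset_Icc_self
    (by rw [closure_Ioo hT.ne]) ht

end Pair

end P113U
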