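import Vale.Agent.P113.Spec
import Vale.Agent.P113.Uniq
import Mathlib.Analysis.Calculus.ContDiff.Basic
import Mathlib.Analysis.Calculus.ContDiff.Operations

/-!
# P113: uniqueness of classical solutions, and smooth fields as classical solutions
-/

open Set
open scoped ContDiff

namespace Vale.Agent.P113

noncomputable section

/-- A classical solution gives the data used by the energy estimate. -/
def IsClassical.toSol {ν T : ℝ} {f u : ℝ → V → V} {p : ℝ → V → ℝ} (h : IsClassical ν f T u p) :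
    P113U.Sol ν T f u p where
  ut := fun t x i => dt T (comp u i) t x
  D := fun j t x i => dx j (comp u i) t x
  DD := fun j t x i => dx j (dx j (comp u i)) t x
  Dp := fun j => dx j p
  per_u := fun t ht i x => h.periodic_u t ht x i
  per_p := fun t ht i x => h.periodic_p t ht x i
  c_u := continuousOn_pi.2 h.cont_u
  c_ut := continuousOn_pi.2 fun i => (h.cont_ut i).2
  c_D := fun j => continuousOn_pi.2 fun i => (h.cont_ux i j).2
  c_DD := fun j => continuousOn_pi.2 fun i => (h.cont_uxx i j j).2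
  c_p := h.cont_p
  c_Dp := fun j => (h.cont_px j).2
  d_t := fun t ht x k =>
    (((h.cont_ut k).1 t (Ioo_subset_Icc_self ht) x).hasDerivWithinAt).hasDerivAt
      (Icc_mem_nhds ht.1 ht.2)
  d_x := fun t ht i x k => ((h.cont_ux k i).1 t ht x).hasLineDerivAt
  d_xx := fun t ht i x k => ((h.cont_uxx k i i).1 t ht x).hasLineDerivAt
  d_p := fun t ht i x => ((h.cont_px i).1 t ht x).hasLineDerivAt
  eqn := fun t ht x k => h.momentum t (Ioo_subset_Icc_self ht) x k
  div := fun t ht x => h.div_free t (Ioo_subset_Icc_self ht) x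
  init := h.initial
  mean := h.mean_p

theorem unique_proof : UniqueStmt := by
  intro ν f T u v p q hν hT hu hv t ht x
  have h := P113U.unique hν.le hT hv.toSol hu.toSol ht
  exact ⟨congrFun h.1 x, congrFun h.2 x⟩

/-- The partial derivative in space of a smooth function, through the total derivative. -/
theorem hasLineDerivAt_of_contDiff {g : ℝ → V → ℝ}
    (hg : ContDiff ℝ ∞ fun z : ℝ × V => g z.1 z.2) (j : Fin 3) (t : ℝ) (x : V) :
    HasLineDerivAt ℝ (g t)
      (fderiv ℝ (fun z : ℝ × V => g z.1 z.2) (t, x) (0, Pi.single j 1)) x (Pi.single j 1) := by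
  have h1 : HasFDerivAt (fun z : ℝ × V => g z.1 z.2)
      (fderiv ℝ (fun z : ℝ × V => g z.1 z.2) (t, x)) (t, x) :=
    (hg.differentiable (by simp) (t, x)).hasFDerivAt
  have h2 := h1.hasLineDerivAt ((0, Pi.single j 1) : ℝ × V)
  unfold HasLineDerivAt at h2 ⊢
  simpa using h2

theorem hasDerivAt_time_of_contDiff {g : ℝ → V → ℝ}
    (hg : ContDiff ℝ ∞ fun z : ℝ × V => g z.1 z.2) (t : ℝ) (x : V) :
    HasDerivAt (fun s => g s x) (fderiv ℝ (fun z : ℝ × V => g z.1 z.2) (t, x) (1, 0)) t := by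
  have h1 : HasFDerivAt (fun z : ℝ × V => g z.1 z.2)
      (fderiv ℝ (fun z : ℝ × V => g z.1 z.2) (t, x)) (t, x) :=
    (hg.differentiable (by simp) (t, x)).hasFDerivAt
  have h2 : HasDerivAt (fun s : ℝ => ((s, x) : ℝ × V)) (1, 0) t :=
    (hasDerivAt_id t).prodMk (hasDerivAt_const t x)
  exact HasFDerivAt.comp_hasDerivAt (f := fun s : ℝ => ((s, x) : ℝ × V)) t h1 h2

theorem contDiff_fderiv_apply {G : ℝ × V → ℝ} (hG : ContDiff ℝ ∞ G) (w : ℝ × V) :
    ContDiff ℝ ∞ fun z => fderiv ℝ G z w :=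
  (hG.fderiv_right (m := ∞) (by simp)).clm_apply contDiff_const

theorem contDiff_dx {g : ℝ → V → ℝ} (hg : ContDiff ℝ ∞ fun z : ℝ × V => g z.1 z.2) (j : Fin 3) :
    ContDiff ℝ ∞ fun z : ℝ × V => dx j g z.1 z.2 := by
  have h : (fun z : ℝ × V => dx j g z.1 z.2) =
      fun z => fderiv ℝ (fun z : ℝ × V => g z.1 z.2) z (0, Pi.single j 1) := by
    funext z
    exact (hasLineDerivAt_of_contDiff hg j z.1 z.2).lineDeriv
  rw [h]
  exact contDiff_fderiv_apply hg _

theorem cont_of_contDiff {g : ℝ → V → ℝ} (hg : ContDiff ℝ ∞ fun z : ℝ × V => g z.1 z.2) (T : ℝ) :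
    Cont T g := hg.continuous.continuousOn

theorem contDx_of_contDiff {g : ℝ → V → ℝ} (hg : ContDiff ℝ ∞ fun z : ℝ × V => g z.1 z.2)
    (T : ℝ) : ContDx T g := fun j =>
  ⟨fun t _ x => (hasLineDerivAt_of_contDiff hg j t x).lineDifferentiableAt,
    cont_of_contDiff (contDiff_dx hg j) T⟩

theorem dt_eq_deriv {g : ℝ → V → ℝ} (hg : ContDiff ℝ ∞ fun z : ℝ × V => g z.1 z.2) {T : ℝ}
    (hT : 0 < T) {t : ℝ} (ht : t ∈ Icc 0 T) (x : V) : dt T g t x = deriv (fun s => g s x) t :=
  (hasDerivAt_time_of_contDiff hg t x).differentiableAt.derivWithin (uniqueDiffOn_Icc hT t ht)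

theorem contDt_of_contDiff {g : ℝ → V → ℝ} (hg : ContDiff ℝ ∞ fun z : ℝ × V => g z.1 z.2)
    {T : ℝ} (hT : 0 < T) : ContDt T g := by
  refine ⟨fun t _ x => (hasDerivAt_time_of_contDiff hg t x).differentiableAt.differentiableWithinAt,
    ?_⟩
  refine ((contDiff_fderiv_apply hg (1, 0)).continuous.continuousOn).congr fun z hz => ?_
  show dt T g z.1 z.2 = _
  rw [dt_eq_deriv hg hT hz.1, (hasDerivAt_time_of_contDiff hg z.1 z.2).deriv]

theorem smoothClassical_proof : SmoothClassicalStmt := by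
  intro ν f u hu hper hdiv h0 hf T hT
  have hc : ∀ i, ContDiff ℝ ∞ fun z : ℝ × V => comp u i z.1 z.2 := contDiff_pi.1 hu
  have hz : ContDiff ℝ ∞ fun z : ℝ × V => (fun (_ : ℝ) (_ : V) => (0 : ℝ)) z.1 z.2 :=
    contDiff_const
  refine
    { periodic_u := fun t _ x j => hper t x j
      periodic_p := fun _ _ _ _ => rfl
      cont_u := fun i => cont_of_contDiff (hc i) T
      cont_ut := fun i => contDt_of_contDiff (hc i) hT
      cont_ux := fun i => contDx_of_contDiff (hc i) T
      cont_uxx := fun i j => contDx_of_contDiff (contDiff_dx (hc i) j) T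
      cont_p := cont_of_contDiff hz T
      cont_px := contDx_of_contDiff hz T
      mean_p := fun _ _ => by simp
      momentum := fun t ht x i => ?_
      div_free := fun t _ x => hdiv t x
      initial := h0 }
  have h1 : dx i (fun (_ : ℝ) (_ : V) => (0 : ℝ)) t x = 0 := by
    simp [dx, lineDeriv]
  rw [dt_eq_deriv (hc i) hT ht, h1, hf t ht.1 x i]
  simp only [comp]
  ring

end

end Vale.Agent.P113
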