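import Vale.Agent.P113.Micro
import Mathlib.Data.Real.Basic
import Mathlib.Data.Rat.Cast.Defs
import Mathlib.Data.Rat.Cast.CharZero
import Mathlib.Data.Fin.VecNotation
import Mathlib.Algebra.Order.Field.Basic
import Mathlib.Tactic.FieldSimp
import Mathlib.Tactic.Positivity
import Mathlib.Tactic.FinCases
import Mathlib.Tactic.NormNum

/-! Five shears of three real registers perform one step of the two-stack machine. -/

namespace P113F

open P113E

/-- value of a stack of digits in base `B` -/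
def valQ (B : ℕ) (l : List ℕ) : ℚ := l.foldr (fun d r => ((d : ℚ) + r) / (B : ℚ)) 0

noncomputable def val (B : ℕ) (l : List ℕ) : ℝ := (valQ B l : ℝ)

/-- the base -/
def base (nQ G : ℕ) : ℕ := 2 * nDig nQ G

/-- the grid size and common denominator -/
def grid (nQ G : ℕ) : ℕ := base nQ G * base nQ G

/-- the coordinate moved in stage `k` -/
def axis (k : ℕ) : Fin 3 := if k = 3 then 1 else if k = 2 ∨ k = 4 then 0 else 2

def coef1 (nQ G : ℕ) (δ : Delta) (halt : ℕ → Bool) (m n : ℕ) : ℤ × ℤ × ℤ :=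
  if halt (ctl G δ (m / base nQ G) / 4) = true then
    (((3 * (nDig nQ G * nDig nQ G) : ℕ) : ℤ), 0, 0)
  else (((base nQ G * ruleE G δ (m / base nQ G) (n / base nQ G) +
    ruleS G δ (m / base nQ G) (n / base nQ G) : ℕ) : ℤ), 1, 0)

def coef2 (nQ G : ℕ) (j : ℕ) : ℤ × ℤ × ℤ :=
  (((j + grid nQ G * j : ℕ) : ℤ) - (src G (j / base nQ G) (j % base nQ G) : ℕ),
    (base nQ G : ℕ), -((grid nQ G * grid nQ G : ℕ) : ℤ))

def coef3 (nQ G : ℕ) (δ : Delta) (j : ℕ) : ℤ × ℤ × ℤ :=
  if rev G δ (j / base nQ G) = 0 then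
    (((base nQ G * j : ℕ) : ℤ) -
      ((grid nQ G * j + base nQ G * src G (j / base nQ G) (j % base nQ G) : ℕ) : ℤ), 0,
      ((grid nQ G * grid nQ G : ℕ) : ℤ) - ((base nQ G * grid nQ G : ℕ) : ℤ))
  else
    (((base nQ G * j : ℕ) : ℤ) -
      ((grid nQ G * j + base nQ G * src G (j / base nQ G) (j % base nQ G) : ℕ) : ℤ),
      ((grid nQ G * grid nQ G : ℕ) : ℤ), -((base nQ G * grid nQ G : ℕ) : ℤ))

def coef4 (nQ G : ℕ) (δ : Delta) (j : ℕ) : ℤ × ℤ × ℤ :=
  if rev G δ (j / base nQ G) = 0 then (-(j : ℤ), -1, (grid nQ G : ℕ)) else (0, 0, 0)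

def coef5 (nQ G : ℕ) (δ : Delta) (j : ℕ) : ℤ × ℤ × ℤ :=
  if rev G δ (j / base nQ G) = 0 then (0, -((grid nQ G : ℕ) : ℤ), 0) else (-(j : ℤ), 0, -1)

/-- numerators of the affine function used in stage `k` on the grid cell `(m, n)` -/
def coef (nQ G : ℕ) (δ : Delta) (halt : ℕ → Bool) (k m n : ℕ) : ℤ × ℤ × ℤ :=
  if k = 1 then coef1 nQ G δ halt m n
  else if k = 2 then coef2 nQ G n
  else if k = 3 then coef3 nQ G δ m
  else if k = 4 then coef4 nQ G δ n
  else coef5 nQ G δ m

/-- the point reached by the loading stage -/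
noncomputable def load (nQ G q0 : ℕ) (w : List ℕ) : Fin 3 → ℝ :=
  ![val (base nQ G) [dig G (4 * q0 + 1) 0], val (base nQ G) w, 0]

/-- `u` lies in the left half of the `m`-th cell of the grid of mesh `1 / D` -/
def InCell (D m : ℕ) (u : ℝ) : Prop := m < D ∧ 0 ≤ D * u - m ∧ D * u - m ≤ 1 / 2

/-- the grid property of the shear heights -/
def GridProp (D : ℕ) (cf : ℕ → ℕ → ℕ → ℤ × ℤ × ℤ) (H : ℕ → ℝ → ℝ → ℝ) : Prop :=
  ∀ (k m n : ℕ) (u v : ℝ), InCell D m u → InCell D n v →
    H k u v = (((cf k m n).1 : ℝ) + ((cf k m n).2.1 : ℝ) * u + ((cf k m n).2.2 : ℝ) * v) / D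

theorem val_nil (B : ℕ) : val B [] = 0 := by simp [val, valQ]

theorem val_cons (B d : ℕ) (l : List ℕ) : val B (d :: l) = (d + val B l) / B := by
  simp [val, valQ]

theorem val_head_tail (B : ℕ) (l : List ℕ) : val B l = ((l.headD 0 : ℕ) + val B l.tail) / B := by
  cases l with
  | nil => simp [val_nil]
  | cons d l => simp [val_cons]

theorem val_mem {N : ℕ} (hN : 0 < N) {l : List ℕ} (h : ∀ d ∈ l, d < N) :
    0 ≤ val (2 * N) l ∧ val (2 * N) l ≤ 1 / 2 := by
  induction l with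
  | nil => simp [val_nil]
  | cons d l ih =>
    obtain ⟨h1, h2⟩ := ih (fun x hx => h x (by simp [hx]))
    have hd : d + 1 ≤ N := h d (by simp)
    have hd' : (d : ℝ) + 1 ≤ N := by exact_mod_cast hd
    have hN' : (0 : ℝ) < N := by exact_mod_cast hN
    rw [val_cons]
    push_cast
    refine ⟨by positivity, ?_⟩
    rw [div_le_iff₀ (by positivity)]
    linarith

/-- index of the cell of a stack -/
def cell (B : ℕ) (l : List ℕ) : ℕ := B * l.headD 0 + l.tail.headD 0

theorem inCell_val {N : ℕ} (hN : 0 < N) {l : List ℕ} (h : ∀ d ∈ l, d < N) :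
    InCell (2 * N * (2 * N)) (cell (2 * N) l) (val (2 * N) l) := by
  have ht : ∀ d ∈ l.tail, d < N := fun d hd => h d (List.mem_of_mem_tail hd)
  have htt : ∀ d ∈ l.tail.tail, d < N := fun d hd => ht d (List.mem_of_mem_tail hd)
  have h1 := headD_lt hN h
  have h2 := headD_lt hN ht
  obtain ⟨h3, h4⟩ := val_mem hN htt
  have hN' : (0 : ℝ) < N := by exact_mod_cast hN
  have e : ((2 * N * (2 * N) : ℕ) : ℝ) * val (2 * N) l - (cell (2 * N) l : ℕ) =
      val (2 * N) l.tail.tail := by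
    rw [val_head_tail _ l, val_head_tail _ l.tail]
    unfold cell
    push_cast
    field_simp
    ring
  refine ⟨?_, by rw [e]; exact h3, by rw [e]; exact h4⟩
  unfold cell
  have : 2 * N * (l.headD 0 + 1) ≤ 2 * N * (2 * N) := Nat.mul_le_mul_left _ (by omega)
  have e2 : 2 * N * (l.headD 0 + 1) = 2 * N * l.headD 0 + 2 * N := by ring
  omega

theorem cell_div {N : ℕ} (hN : 0 < N) {l : List ℕ} (h : ∀ d ∈ l, d < N) :
    cell (2 * N) l / (2 * N) = l.headD 0 := by
  have ht : ∀ d ∈ l.tail, d < N := fun d hd => h d (List.mem_of_mem_tail hd)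
  have h2 := headD_lt hN ht
  unfold cell
  rw [Nat.add_comm, Nat.add_mul_div_left _ _ (by omega), Nat.div_eq_of_lt (by omega), Nat.zero_add]

theorem pair_div {B e s : ℕ} (hs : s < B) : (B * e + s) / B = e := by
  rw [Nat.add_comm, Nat.add_mul_div_left _ _ (by omega), Nat.div_eq_of_lt hs, Nat.zero_add]

theorem pair_mod {B e s : ℕ} (hs : s < B) : (B * e + s) % B = s := by
  rw [Nat.add_comm, Nat.add_mul_mod_self_left, Nat.mod_eq_of_lt hs]

/-- the shear of stage `k` -/
noncomputable def shear (H : ℕ → ℝ → ℝ → ℝ) (k : ℕ) (x : Fin 3 → ℝ) : Fin 3 → ℝ :=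
  x + Pi.single (axis k) (H k (x (axis k + 1)) (x (axis k + 2)))

theorem shear_1 (H : ℕ → ℝ → ℝ → ℝ) (x y z : ℝ) : shear H 1 ![x, y, z] = ![x, y, z + H 1 x y] := by
  funext i; fin_cases i <;> simp [shear, axis]

theorem shear_2 (H : ℕ → ℝ → ℝ → ℝ) (x y z : ℝ) : shear H 2 ![x, y, z] = ![x + H 2 y z, y, z] := by
  funext i; fin_cases i <;> simp [shear, axis]

theorem shear_3 (H : ℕ → ℝ → ℝ → ℝ) (x y z : ℝ) : shear H 3 ![x, y, z] = ![x, y + H 3 z x, z] := by
  funext i; fin_cases i <;> simp [shear, axis]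

theorem shear_4 (H : ℕ → ℝ → ℝ → ℝ) (x y z : ℝ) : shear H 4 ![x, y, z] = ![x + H 4 y z, y, z] := by
  funext i; fin_cases i <;> simp [shear, axis]

theorem shear_5 (H : ℕ → ℝ → ℝ → ℝ) (x y z : ℝ) : shear H 5 ![x, y, z] = ![x, y, z + H 5 x y] := by
  funext i; fin_cases i <;> simp [shear, axis]

section

variable {nQ G : ℕ} {δ : Delta} {halt : ℕ → Bool} {H : ℕ → ℝ → ℝ → ℝ}

/-- the point of a configuration -/
noncomputable def pt (nQ G : ℕ) (c : List ℕ × List ℕ) : Fin 3 → ℝ :=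
  ![val (base nQ G) c.1, val (base nQ G) c.2, 0]

theorem stage_halt (hG : 0 < G) (hH : GridProp (grid nQ G) (coef nQ G δ halt) H)
    {c : List ℕ × List ℕ} (hw : Wf nQ G δ c) (hh : halt (ctl G δ (c.1.headD 0) / 4) = true) :
    shear H 1 (pt nQ G c) 2 = 3 / 4 := by
  obtain ⟨h1, h2, -⟩ := hw
  have hN : 0 < nDig nQ G := lt_of_lt_of_le hG (G_le_nDig _ _)
  have hN' : (0 : ℝ) < nDig nQ G := by exact_mod_cast hN
  have c1 : InCell (grid nQ G) _ (val (base nQ G) c.1) := inCell_val hN h1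
  have c2 : InCell (grid nQ G) _ (val (base nQ G) c.2) := inCell_val hN h2
  unfold pt
  rw [shear_1, hH 1 _ _ _ _ c1 c2]
  have e : coef nQ G δ halt 1 (cell (2 * nDig nQ G) c.1) (cell (2 * nDig nQ G) c.2) =
      (((3 * (nDig nQ G * nDig nQ G) : ℕ) : ℤ), 0, 0) := by
    unfold coef coef1 base
    rw [if_pos rfl, cell_div hN h1, if_pos hh]
  rw [e]
  simp only [grid, base]
  push_cast
  simp
  field_simp
  norm_num

theorem stages (hG : 0 < G) (hδ : ∀ q < nQ, ∀ a < G, (δ q a).1 < nQ ∧ (δ q a).2.1 < G)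
    (hH : GridProp (grid nQ G) (coef nQ G δ halt) H)
    {c : List ℕ × List ℕ} (hw : Wf nQ G δ c) (hh : ¬ halt (ctl G δ (c.1.headD 0) / 4) = true) :
    ∃ z : ℝ, 0 ≤ z ∧ z ≤ 1 / 2 ∧ shear H 1 (pt nQ G c) 2 = z ∧
      shear H 2 (shear H 1 (pt nQ G c)) 2 = z ∧
      shear H 3 (shear H 2 (shear H 1 (pt nQ G c))) 2 = z ∧
      shear H 4 (shear H 3 (shear H 2 (shear H 1 (pt nQ G c)))) 2 = z ∧
      shear H 5 (shear H 4 (shear H 3 (shear H 2 (shear H 1 (pt nQ G c))))) =
        pt nQ G (micro G δ c) := by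
  obtain ⟨h1, h2, h3⟩ := hw
  obtain ⟨X, Y⟩ := c
  simp only at h1 h2 h3 hh
  have hN : 0 < nDig nQ G := lt_of_lt_of_le hG (G_le_nDig _ _)
  have hN' : (0 : ℝ) < nDig nQ G := by exact_mod_cast hN
  have hy := headD_lt hN h2
  have hE : ruleE G δ (X.headD 0) (Y.headD 0) < nDig nQ G := ruleE_lt h3
  have hS : ruleS G δ (X.headD 0) (Y.headD 0) < nDig nQ G := ruleS_lt hδ h3 hy
  have ht : ∀ d ∈ Y.tail, d < nDig nQ G := fun d hd => h2 d (List.mem_of_mem_tail hd)
  have hsrc := src_rule G δ (X.headD 0) (Y.headD 0)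
  have e1 : coef nQ G δ halt 1 (cell (2 * nDig nQ G) X) (cell (2 * nDig nQ G) Y) =
      (((base nQ G * ruleE G δ (X.headD 0) (Y.headD 0) +
        ruleS G δ (X.headD 0) (Y.headD 0) : ℕ) : ℤ), 1, 0) := by
    unfold coef coef1
    rw [if_pos rfl]
    unfold base
    rw [cell_div hN h1, cell_div hN h2, if_neg hh]
  have em : micro G δ (X, Y) = if rev G δ (ruleE G δ (X.headD 0) (Y.headD 0)) = 0 then
      (ruleE G δ (X.headD 0) (Y.headD 0) :: ruleS G δ (X.headD 0) (Y.headD 0) :: X, Y.tail)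
      else (ruleE G δ (X.headD 0) (Y.headD 0) :: ruleS G δ (X.headD 0) (Y.headD 0) :: Y.tail, X) :=
    rfl
  rw [em]
  generalize ruleE G δ (X.headD 0) (Y.headD 0) = e at *
  generalize ruleS G δ (X.headD 0) (Y.headD 0) = s at *
  have hY := val_head_tail (base nQ G) Y
  generalize Y.headD 0 = a at *
  generalize Y.tail = A at *
  have hsB : s < base nQ G := by unfold base; omega
  have hB : (0 : ℝ) < (base nQ G : ℕ) := by unfold base; push_cast; positivity
  have dX : ∀ d ∈ e :: s :: X, d < nDig nQ G := by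
    intro d hd
    simp only [List.mem_cons] at hd
    rcases hd with rfl | rfl | hd
    exacts [hE, hS, h1 d hd]
  have dA : ∀ d ∈ e :: s :: A, d < nDig nQ G := by
    intro d hd
    simp only [List.mem_cons] at hd
    rcases hd with rfl | rfl | hd
    exacts [hE, hS, ht d hd]
  have cX : InCell (grid nQ G) (base nQ G * e + s) (val (base nQ G) (e :: s :: X)) :=
    inCell_val hN dX
  have cA : InCell (grid nQ G) (base nQ G * e + s) (val (base nQ G) (e :: s :: A)) :=
    inCell_val hN dA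
  have c1 : InCell (grid nQ G) _ (val (base nQ G) X) := inCell_val hN h1
  have c2 : InCell (grid nQ G) _ (val (base nQ G) Y) := inCell_val hN h2
  have c3 : InCell (grid nQ G) _ (val (base nQ G) A) := inCell_val hN ht
  have hg : ((grid nQ G : ℕ) : ℝ) = (base nQ G : ℕ) * (base nQ G : ℕ) := by
    unfold grid; push_cast; ring
  have s1 : shear H 1 (pt nQ G (X, Y)) =
      ![val (base nQ G) X, val (base nQ G) Y, val (base nQ G) (e :: s :: X)] := by
    unfold pt
    rw [shear_1, hH 1 _ _ _ _ c1 c2, e1, val_cons, val_cons, hg]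
    congr 3
    push_cast
    field_simp
    ring
  have s2 : shear H 2 ![val (base nQ G) X, val (base nQ G) Y, val (base nQ G) (e :: s :: X)] =
      ![val (base nQ G) (e :: s :: A), val (base nQ G) Y, val (base nQ G) (e :: s :: X)] := by
    rw [shear_2, hH 2 _ _ _ _ c2 cX]
    congr 1
    simp only [coef, coef2, pair_div hsB, pair_mod hsB, hsrc]
    rw [val_cons, val_cons, val_cons, val_cons, hY]
    norm_num
    rw [hg]
    field_simp
    ring
  have hz := val_mem hN dX
  refine ⟨val (base nQ G) (e :: s :: X), hz.1, hz.2, by rw [s1]; rfl, by rw [s1, s2]; rfl, ?_⟩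
  rw [s1, s2]
  by_cases hr : rev G δ e = 0
  · have s3 : shear H 3
        ![val (base nQ G) (e :: s :: A), val (base nQ G) Y, val (base nQ G) (e :: s :: X)] =
        ![val (base nQ G) (e :: s :: A), val (base nQ G) A, val (base nQ G) (e :: s :: X)] := by
      rw [shear_3, hH 3 _ _ _ _ cX cA]
      congr 2
      simp only [coef, coef3, pair_div hsB, pair_mod hsB, hsrc, hr]
      rw [val_cons, val_cons, val_cons, val_cons, hY]
      norm_num
      rw [hg]
      field_simp
      ring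
    have s4 : shear H 4
        ![val (base nQ G) (e :: s :: A), val (base nQ G) A, val (base nQ G) (e :: s :: X)] =
        ![val (base nQ G) (e :: s :: X), val (base nQ G) A, val (base nQ G) (e :: s :: X)] := by
      rw [shear_4, hH 4 _ _ _ _ c3 cX]
      congr 1
      simp only [coef, coef4, pair_div hsB, hr]
      rw [val_cons, val_cons, val_cons, val_cons]
      norm_num
      rw [hg]
      field_simp
      ring
    have s5 : shear H 5
        ![val (base nQ G) (e :: s :: X), val (base nQ G) A, val (base nQ G) (e :: s :: X)] =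
        ![val (base nQ G) (e :: s :: X), val (base nQ G) A, 0] := by
      rw [shear_5, hH 5 _ _ _ _ cX c3]
      congr 3
      simp only [coef, coef5, pair_div hsB, hr]
      norm_num
      rw [hg]
      field_simp
      ring
    rw [s3, s4, s5, if_pos hr]
    exact ⟨rfl, rfl, rfl⟩
  · have s3 : shear H 3
        ![val (base nQ G) (e :: s :: A), val (base nQ G) Y, val (base nQ G) (e :: s :: X)] =
        ![val (base nQ G) (e :: s :: A), val (base nQ G) X, val (base nQ G) (e :: s :: X)] := by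
      rw [shear_3, hH 3 _ _ _ _ cX cA]
      congr 2
      simp only [coef, coef3, pair_div hsB, pair_mod hsB, hsrc, hr]
      rw [val_cons, val_cons, val_cons, val_cons, hY]
      norm_num
      rw [hg]
      field_simp
      ring
    have s4 : shear H 4
        ![val (base nQ G) (e :: s :: A), val (base nQ G) X, val (base nQ G) (e :: s :: X)] =
        ![val (base nQ G) (e :: s :: A), val (base nQ G) X, val (base nQ G) (e :: s :: X)] := by
      rw [shear_4, hH 4 _ _ _ _ c1 cX]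
      congr 1
      simp only [coef, coef4, pair_div hsB, hr]
      norm_num
    have s5 : shear H 5
        ![val (base nQ G) (e :: s :: A), val (base nQ G) X, val (base nQ G) (e :: s :: X)] =
        ![val (base nQ G) (e :: s :: A), val (base nQ G) X, 0] := by
      rw [shear_5, hH 5 _ _ _ _ cA c1]
      congr 3
      simp only [coef, coef5, pair_div hsB, hr]
      rw [val_cons (base nQ G) e (s :: X), val_cons (base nQ G) s X]
      norm_num
      rw [hg]
      field_simp
      ring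
    rw [s3, s4, s5, if_neg hr]
    exact ⟨rfl, rfl, rfl⟩

/-- the simulation theorem for the sequence of points at the ends of the time windows -/
theorem sim_small (hG : 0 < G) (hδ : ∀ q < nQ, ∀ a < G, (δ q a).1 < nQ ∧ (δ q a).2.1 < G)
    {q0 : ℕ} {w : List ℕ} (hq : q0 < nQ) (hw : ∀ a ∈ w, a < G)
    (hH : GridProp (grid nQ G) (coef nQ G δ halt) H) (p : ℕ → Fin 3 → ℝ)
    (p0 : p 0 2 = 0) (p1 : p 1 = load nQ G q0 w)
    (hstep : ∀ n k, 1 ≤ k → k ≤ 5 → p (6 * n + k + 1) = shear H k (p (6 * n + k)))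
    (hidle : ∀ n, 1 ≤ n → p (6 * n + 1) = p (6 * n)) :
    (¬ Hits δ halt q0 w → ∀ n, 0 ≤ p n 2 ∧ p n 2 ≤ 1 / 2) ∧
      (Hits δ halt q0 w → ∃ n, p n 2 = 3 / 4 ∧ (0 ≤ p n 0 ∧ p n 0 ≤ 1 / 2) ∧
        (0 ≤ p n 1 ∧ p n 1 ≤ 1 / 2)) := by
  have key : ∀ n, (∀ k < n, ¬ halt (ctl G δ (((micro G δ)^[k] (minit G q0 w)).1.headD 0) / 4) =
      true) → p (6 * n + 1) = pt nQ G ((micro G δ)^[n] (minit G q0 w)) := by
    intro n
    induction n with
    | zero => intro _; exact p1
    | succ n ih =>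
      intro h
      have h0 := ih (fun k hk => h k (by omega))
      obtain ⟨z, -, -, -, -, -, -, h5⟩ := stages hG hδ hH (wf_iter hG hδ hq hw n) (h n (by omega))
      rw [hidle (n + 1) (by omega), Function.iterate_succ_apply', ← h5, ← h0,
        ← hstep n 1 (by omega) (by omega), ← hstep n 2 (by omega) (by omega),
        ← hstep n 3 (by omega) (by omega), ← hstep n 4 (by omega) (by omega),
        ← hstep n 5 (by omega) (by omega)]
      rfl
  rw [hits_iff hG hδ halt hq hw]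
  constructor
  · intro hn n
    have hn' : ∀ k, ¬ halt (ctl G δ (((micro G δ)^[k] (minit G q0 w)).1.headD 0) / 4) = true :=
      fun k hk => hn ⟨k, hk⟩
    have hk : ∀ m, p (6 * m + 1) = pt nQ G ((micro G δ)^[m] (minit G q0 w)) :=
      fun m => key m (fun k _ => hn' k)
    obtain ⟨z, z0, z1, h1, h2, h3, h4, -⟩ :=
      stages hG hδ hH (wf_iter hG hδ hq hw (n / 6)) (hn' (n / 6))
    rw [← hk, ← hstep _ 1 (by omega) (by omega)] at h1 h2 h3 h4
    rw [← hstep _ 2 (by omega) (by omega)] at h2 h3 h4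
    rw [← hstep _ 3 (by omega) (by omega)] at h3 h4
    rw [← hstep _ 4 (by omega) (by omega)] at h4
    have hz : ∀ m, p (6 * m + 1) 2 = 0 := fun m => by rw [hk]; rfl
    have hc : n = 6 * (n / 6) ∨ n = 6 * (n / 6) + 1 ∨ n = 6 * (n / 6) + 1 + 1 ∨
        n = 6 * (n / 6) + 2 + 1 ∨ n = 6 * (n / 6) + 3 + 1 ∨ n = 6 * (n / 6) + 4 + 1 := by omega
    rcases hc with e | e | e | e | e | e
    · by_cases h0 : n / 6 = 0
      · have : n = 0 := by omega
        rw [this, p0]; norm_num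
      · rw [e, ← hidle _ (by omega), hz]; norm_num
    · rw [e, hz]; norm_num
    · rw [e, h1]; exact ⟨z0, z1⟩
    · rw [e, h2]; exact ⟨z0, z1⟩
    · rw [e, h3]; exact ⟨z0, z1⟩
    · rw [e, h4]; exact ⟨z0, z1⟩
  · intro hn
    classical
    have h0 := key (Nat.find hn) (fun k hk => Nat.find_min hn hk)
    refine ⟨6 * Nat.find hn + 1 + 1, ?_⟩
    rw [hstep _ 1 (by omega) (by omega), h0]
    have hwf := wf_iter hG hδ hq hw (Nat.find hn)
    have hN : 0 < nDig nQ G := lt_of_lt_of_le hG (G_le_nDig _ _)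
    refine ⟨stage_halt hG hH hwf (Nat.find_spec hn), ?_, ?_⟩
    · unfold pt; rw [shear_1]; exact val_mem hN hwf.1
    · unfold pt; rw [shear_1]; exact val_mem hN hwf.2.1

theorem sim (hG : 0 < G) (hδ : ∀ q < nQ, ∀ a < G, (δ q a).1 < nQ ∧ (δ q a).2.1 < G)
    {q0 : ℕ} {w : List ℕ} (hq : q0 < nQ) (hw : ∀ a ∈ w, a < G)
    (hH : GridProp (grid nQ G) (coef nQ G δ halt) H) (p : ℕ → Fin 3 → ℝ)
    (p0 : p 0 2 = 0) (p1 : p 1 = load nQ G q0 w)
    (hstep : ∀ n k, 1 ≤ k → k ≤ 5 → p (6 * n + k + 1) = shear H k (p (6 * n + k)))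
    (hidle : ∀ n, 1 ≤ n → p (6 * n + 1) = p (6 * n)) :
    (¬ Hits δ halt q0 w → ∀ n, 0 ≤ p n 2 ∧ p n 2 ≤ 1 / 2) ∧
      (Hits δ halt q0 w → ∃ n, p n 2 = 3 / 4) := by
  obtain ⟨h1, h2⟩ := sim_small hG hδ hq hw hH p p0 p1 hstep hidle
  exact ⟨h1, fun h => (h2 h).imp fun n hn => hn.1⟩

end

end P113F
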