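import Vale.Agent.P113.Defs
import Vale.Agent.P113.Stages

/-! Machines of the statement as machines on natural number codes; primitive recursiveness of the
coefficients of the five shears. -/

namespace P113F

open P113E Vale.Agent.P113

/-- move codes: the statement has 0 left, 1 stay, 2 right; here 0 left, 1 right, 2 stay -/
def cMove (d : ℕ) : ℕ := if d = 0 then 0 else if d = 2 then 1 else 2

def cEntry (c : MachineCode) (q a : ℕ) : ℕ × ℕ × ℕ := (c.2.2.2.2.getD q []).getD a (0, 0, 0)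

def cDelta (c : MachineCode) : Delta :=
  fun q a => ((cEntry c q a).1, (cEntry c q a).2.1, cMove (cEntry c q a).2.2)

def cHalt (c : MachineCode) (q : ℕ) : Bool := c.2.2.2.1.getD q false

def cBase (c : MachineCode) : ℕ := base c.1 (c.2.1 + 1)

def cGrid (c : MachineCode) : ℕ := grid c.1 (c.2.1 + 1)

def cCoef (c : MachineCode) (k m n : ℕ) : ℤ × ℤ × ℤ :=
  coef c.1 (c.2.1 + 1) (cDelta c) (cHalt c) k m n

def cLoadX (c : MachineCode) : ℚ := valQ (cBase c) [dig (c.2.1 + 1) (4 * c.2.2.1 + 1) 0]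

def cLoadY (c : MachineCode) (w : List ℕ) : ℚ := valQ (cBase c) w

theorem cBase_pos (c : MachineCode) : 0 < cBase c := by
  unfold cBase base nDig; omega

theorem cGrid_pos (c : MachineCode) : 0 < cGrid c := Nat.mul_pos (cBase_pos c) (cBase_pos c)

theorem cEntry_code (M : Machine) (q : Fin M.n) (a : Fin (M.k + 1)) :
    cEntry M.code q a = (((M.δ q a).1 : ℕ), ((M.δ q a).2.1 : ℕ), ((M.δ q a).2.2 : ℕ)) := by
  simp [cEntry, Machine.code, List.getD_eq_getElem?_getD, -List.ofFn_succ,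
    Nat.lt_succ_iff.1 a.isLt]

theorem cHalt_code (M : Machine) (q : Fin M.n) : cHalt M.code q = M.halting q := by
  simp [cHalt, Machine.code, List.getD_eq_getElem?_getD]

theorem cDelta_bound (M : Machine) :
    ∀ q < M.n, ∀ a < M.k + 1, (cDelta M.code q a).1 < M.n ∧ (cDelta M.code q a).2.1 < M.k + 1 := by
  intro q hq a ha
  have := cEntry_code M ⟨q, hq⟩ ⟨a, ha⟩
  simp only at this
  unfold cDelta
  rw [this]
  exact ⟨Fin.isLt _, Fin.isLt _⟩

/-- a configuration of the statement as a configuration on codes -/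
def cfg (M : Machine) (c : Fin M.n × ℤ × (ℤ → Fin (M.k + 1))) : ℕ × (ℤ → ℕ) × ℤ :=
  (c.1, fun i => c.2.2 i, c.2.1)

theorem cfg_step (M : Machine) (c : Fin M.n × ℤ × (ℤ → Fin (M.k + 1))) :
    cfg M (M.step c) = tstep (cDelta M.code) (cfg M c) := by
  unfold cfg tstep Machine.step cDelta
  simp only [cEntry_code]
  refine Prod.ext rfl (Prod.ext ?_ ?_)
  · funext i
    by_cases h : i = c.2.1
    · subst h; simp
    · simp [Function.update_of_ne h]
  · generalize (M.δ c.1 (c.2.2 c.2.1)).2.2 = d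
    fin_cases d <;> simp [mvZ, cMove] <;> ring

theorem cfg_init (M : Machine) (w : List (Fin (M.k + 1))) :
    cfg M (M.init w) = tinit M.start (w.map Fin.val) := by
  unfold cfg tinit Machine.init
  refine Prod.ext rfl (Prod.ext ?_ rfl)
  funext i
  simp only
  split_ifs
  · exact (List.getD_map w 0 Fin.val).symm
  · rfl

theorem halts_iff (M : Machine) (w : List (Fin (M.k + 1))) :
    M.Halts w ↔ Hits (cDelta M.code) (cHalt M.code) M.start (w.map Fin.val) := by
  have key : ∀ s, (tstep (cDelta M.code))^[s] (tinit M.start (w.map Fin.val)) =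
      cfg M (M.step^[s] (M.init w)) := by
    intro s
    induction s with
    | zero => exact (cfg_init M w).symm
    | succ s ih => rw [Function.iterate_succ_apply', Function.iterate_succ_apply', ih, cfg_step]
  unfold Machine.Halts Hits
  refine exists_congr fun s => ?_
  rw [key]
  unfold cfg
  rw [cHalt_code]

/-- the simulation theorem for a machine of the statement -/
theorem sim_machine (M : Machine) (w : List (Fin (M.k + 1))) {H : ℕ → ℝ → ℝ → ℝ}
    (hH : GridProp (cGrid M.code) (cCoef M.code) H) (p : ℕ → Fin 3 → ℝ)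
    (p0 : p 0 2 = 0)
    (p1 : p 1 = ![(cLoadX M.code : ℝ), (cLoadY M.code (w.map Fin.val) : ℝ), 0])
    (hstep : ∀ n k, 1 ≤ k → k ≤ 5 → p (6 * n + k + 1) = shear H k (p (6 * n + k)))
    (hidle : ∀ n, 1 ≤ n → p (6 * n + 1) = p (6 * n)) :
    (¬ M.Halts w → ∀ n, 0 ≤ p n 2 ∧ p n 2 ≤ 1 / 2) ∧ (M.Halts w → ∃ n, p n 2 = 3 / 4) := by
  rw [halts_iff]
  refine sim (nQ := M.n) (G := M.k + 1) (Nat.succ_pos _) (cDelta_bound M) M.start.isLt ?_ hH p p0
    p1 hstep hidle
  intro a ha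
  obtain ⟨b, -, rfl⟩ := List.mem_map.1 ha
  exact b.isLt

theorem sim_machine_small (M : Machine) (w : List (Fin (M.k + 1))) {H : ℕ → ℝ → ℝ → ℝ}
    (hH : GridProp (cGrid M.code) (cCoef M.code) H) (p : ℕ → Fin 3 → ℝ)
    (p0 : p 0 2 = 0)
    (p1 : p 1 = ![(cLoadX M.code : ℝ), (cLoadY M.code (w.map Fin.val) : ℝ), 0])
    (hstep : ∀ n k, 1 ≤ k → k ≤ 5 → p (6 * n + k + 1) = shear H k (p (6 * n + k)))
    (hidle : ∀ n, 1 ≤ n → p (6 * n + 1) = p (6 * n)) :
    (¬ M.Halts w → ∀ n, 0 ≤ p n 2 ∧ p n 2 ≤ 1 / 2) ∧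
      (M.Halts w → ∃ n, p n 2 = 3 / 4 ∧ (0 ≤ p n 0 ∧ p n 0 ≤ 1 / 2) ∧
        (0 ≤ p n 1 ∧ p n 1 ≤ 1 / 2)) := by
  rw [halts_iff]
  refine sim_small (nQ := M.n) (G := M.k + 1) (Nat.succ_pos _) (cDelta_bound M) M.start.isLt ?_ hH
    p p0 p1 hstep hidle
  intro a ha
  obtain ⟨b, -, rfl⟩ := List.mem_map.1 ha
  exact b.isLt

end P113F
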