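import Mathlib.Analysis.SpecialFunctions.SmoothTransition
import Mathlib.MeasureTheory.Integral.IntervalIntegral.FundThmCalculus
import Mathlib.Analysis.Calculus.IteratedDeriv.Lemmas
import Mathlib.Analysis.Calculus.Deriv.Support
import Mathlib.Analysis.Calculus.Deriv.MeanValue
import Mathlib.MeasureTheory.Function.LocallyIntegrable
import Mathlib.MeasureTheory.Measure.Lebesgue.Basic

open MeasureTheory Set Filter
open scoped Topology ContDiff

namespace P113B

noncomputable def rho (s : ℝ) : ℝ := if |s| < 1 then Real.exp (-1 / (1 - s ^ 2)) else 0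

noncomputable def kappa : ℝ := ∫ s, rho s

noncomputable def sigma (s : ℝ) : ℝ := ∫ x in Set.Iic s, rho x

noncomputable def plat (l s : ℝ) : ℝ := sigma s - sigma (s - l)

noncomputable def per (g : ℝ → ℝ) (y : ℝ) : ℝ := ∑' m : ℤ, g (y + m)

theorem rho_eq (s : ℝ) : rho s = expNegInvGlue (1 - s ^ 2) := by
  unfold rho expNegInvGlue
  by_cases h : |s| < 1
  · have h2 : ¬ (1 - s ^ 2 ≤ 0) := by
      have := (sq_lt_one_iff_abs_lt_one s).2 h
      linarith
    rw [if_pos h, if_neg h2]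
    congr 1
    rw [neg_div, one_div]
  · have h2 : 1 - s ^ 2 ≤ 0 := by
      have := (one_le_sq_iff_one_le_abs s).2 (not_lt.1 h)
      linarith
    rw [if_neg h, if_pos h2]

theorem rho_contDiff : ContDiff ℝ ∞ rho := by
  have : rho = fun s => expNegInvGlue (1 - s ^ 2) := funext rho_eq
  rw [this]
  exact expNegInvGlue.contDiff.comp (by fun_prop)

theorem rho_continuous : Continuous rho := rho_contDiff.continuous

theorem rho_nonneg (s : ℝ) : 0 ≤ rho s := by
  rw [rho_eq]; exact expNegInvGlue.nonneg _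

theorem rho_eq_zero {s : ℝ} (h : 1 ≤ |s|) : rho s = 0 := by
  unfold rho; rw [if_neg (not_lt.2 h)]

theorem rho_pos {s : ℝ} (h : |s| < 1) : 0 < rho s := by
  unfold rho; rw [if_pos h]; exact Real.exp_pos _

theorem rho_hasCompactSupport : HasCompactSupport rho := by
  refine HasCompactSupport.intro (isCompact_Icc (a := (-1 : ℝ)) (b := 1)) fun x hx => ?_
  apply rho_eq_zero
  by_contra h
  exact hx ⟨(abs_lt.1 (not_le.1 h)).1.le, (abs_lt.1 (not_le.1 h)).2.le⟩

theorem rho_integrable : Integrable rho :=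
  rho_continuous.integrable_of_hasCompactSupport rho_hasCompactSupport

theorem kappa_pos : 0 < kappa := by
  unfold kappa
  refine Continuous.integral_pos_of_hasCompactSupport_nonneg_nonzero rho_continuous
    rho_hasCompactSupport (fun x => rho_nonneg x) (x := 0) ?_
  exact (rho_pos (by simp)).ne'

theorem kappa_ne : kappa ≠ 0 := kappa_pos.ne'

theorem sigma_eq_zero {s : ℝ} (h : s ≤ -1) : sigma s = 0 := by
  unfold sigma
  refine setIntegral_eq_zero_of_forall_eq_zero fun x hx => rho_eq_zero ?_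
  have : x ≤ -1 := le_trans hx h
  rw [abs_of_neg (by linarith)]; linarith

theorem sigma_eq_kappa {s : ℝ} (h : 1 ≤ s) : sigma s = kappa := by
  unfold sigma kappa
  refine setIntegral_eq_integral_of_forall_compl_eq_zero fun x hx => rho_eq_zero ?_
  have : s < x := not_le.1 hx
  rw [abs_of_pos (by linarith)]; linarith

theorem sigma_eq_intervalIntegral (s : ℝ) : sigma s = ∫ x in (-1 : ℝ)..s, rho x := by
  have h := intervalIntegral.integral_Iic_sub_Iic (f := rho) (μ := volume) (a := -1) (b := s)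
    rho_integrable.integrableOn rho_integrable.integrableOn
  have h0 : sigma (-1) = 0 := sigma_eq_zero le_rfl
  unfold sigma at h0 ⊢
  rw [← h, h0, sub_zero]

theorem sigma_hasDerivAt (s : ℝ) : HasDerivAt sigma (rho s) s := by
  have : sigma = fun s => ∫ x in (-1 : ℝ)..s, rho x := funext sigma_eq_intervalIntegral
  rw [this]
  exact (rho_continuous.integral_hasStrictDerivAt (-1) s).hasDerivAt

theorem deriv_sigma : deriv sigma = rho := funext fun s => (sigma_hasDerivAt s).deriv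

theorem sigma_contDiff : ContDiff ℝ ∞ sigma := by
  rw [contDiff_infty_iff_deriv, deriv_sigma]
  exact ⟨fun s => (sigma_hasDerivAt s).differentiableAt, rho_contDiff⟩

theorem sigma_monotone : Monotone sigma :=
  monotone_of_deriv_nonneg (fun s => (sigma_hasDerivAt s).differentiableAt)
    (fun s => by rw [deriv_sigma]; exact rho_nonneg s)

theorem sigma_nonneg (s : ℝ) : 0 ≤ sigma s := by
  rcases le_total s (-1) with h | h
  · exact (sigma_eq_zero h).ge
  · exact (sigma_eq_zero le_rfl).ge.trans (sigma_monotone h)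

theorem sigma_le_kappa (s : ℝ) : sigma s ≤ kappa := by
  rcases le_total s 1 with h | h
  · exact (sigma_monotone h).trans (sigma_eq_kappa le_rfl).le
  · exact (sigma_eq_kappa h).le

theorem plat_hasDerivAt (l s : ℝ) : HasDerivAt (plat l) (rho s - rho (s - l)) s := by
  have h2 : HasDerivAt (fun s => sigma (s - l)) (rho (s - l)) s :=
    (sigma_hasDerivAt (s - l)).comp_sub_const s l
  exact (sigma_hasDerivAt s).sub h2

theorem plat_contDiff (l : ℝ) : ContDiff ℝ ∞ (plat l) := by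
  unfold plat
  exact sigma_contDiff.sub (sigma_contDiff.comp (contDiff_id.sub contDiff_const))

theorem plat_eq_kappa {l s : ℝ} (h1 : 1 ≤ s) (h2 : s ≤ l - 1) : plat l s = kappa := by
  unfold plat
  rw [sigma_eq_kappa h1, sigma_eq_zero (by linarith), sub_zero]

theorem plat_eq_zero_left {l s : ℝ} (hl : 0 ≤ l) (h : s ≤ -1) : plat l s = 0 := by
  unfold plat
  rw [sigma_eq_zero h, sigma_eq_zero (by linarith), sub_zero]

theorem plat_eq_zero_right {l s : ℝ} (hl : 0 ≤ l) (h : l + 1 ≤ s) : plat l s = 0 := by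
  unfold plat
  rw [sigma_eq_kappa (by linarith), sigma_eq_kappa (by linarith), sub_self]

theorem plat_eq_zero_of_abs {l s : ℝ} (h : |l| + 1 ≤ |s|) : plat l s = 0 := by
  unfold plat
  have h1 := le_abs_self l
  have h2 := neg_abs_le l
  have h3 := abs_nonneg l
  rcases le_total 0 s with hs | hs
  · rw [abs_of_nonneg hs] at h
    rw [sigma_eq_kappa (by linarith), sigma_eq_kappa (by linarith), sub_self]
  · rw [abs_of_nonpos hs] at h
    rw [sigma_eq_zero (by linarith), sigma_eq_zero (by linarith), sub_self]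

/-- Derivatives of `rho`. -/
theorem rhoD_contDiff (j : ℕ) : ContDiff ℝ ∞ (iteratedDeriv j rho) := by
  rw [iteratedDeriv_eq_iterate]
  exact rho_contDiff.iterate_deriv j

theorem rhoD_hasDerivAt (j : ℕ) (s : ℝ) :
    HasDerivAt (iteratedDeriv j rho) (iteratedDeriv (j + 1) rho s) s := by
  rw [iteratedDeriv_succ]
  exact ((rhoD_contDiff j).differentiable (by simp) s).hasDerivAt

theorem rhoD_eq_zero_of_lt (j : ℕ) {s : ℝ} (h : 1 < |s|) : iteratedDeriv j rho s = 0 := by
  have hev : rho =ᶠ[𝓝 s] fun _ => (0 : ℝ) := by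
    have : ∀ᶠ x in 𝓝 s, 1 < |x| := (continuous_abs.tendsto s).eventually (lt_mem_nhds h)
    filter_upwards [this] with x hx using rho_eq_zero hx.le
  rw [hev.iteratedDeriv_eq j]
  cases j <;> simp

theorem rhoD_eq_zero (j : ℕ) {s : ℝ} (h : 1 ≤ |s|) : iteratedDeriv j rho s = 0 := by
  have hc : IsClosed {s : ℝ | iteratedDeriv j rho s = 0} :=
    isClosed_eq (rhoD_contDiff j).continuous continuous_const
  rcases le_total 0 s with hs | hs
  · rw [abs_of_nonneg hs] at h
    have : Ioi (1 : ℝ) ⊆ {s : ℝ | iteratedDeriv j rho s = 0} := fun x hx =>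
      rhoD_eq_zero_of_lt j (by rw [abs_of_pos (lt_trans one_pos hx)]; exact hx)
    have h2 := hc.closure_subset_iff.2 this
    rw [closure_Ioi] at h2
    exact h2 h
  · rw [abs_of_nonpos hs] at h
    have : Iio (-1 : ℝ) ⊆ {s : ℝ | iteratedDeriv j rho s = 0} := fun x hx =>
      rhoD_eq_zero_of_lt j (by
        have hx' : x < -1 := hx
        rw [abs_of_neg (by linarith)]; linarith)
    have h2 := hc.closure_subset_iff.2 this
    rw [closure_Iio] at h2
    exact h2 (show s ≤ -1 by linarith)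

/-! ### Periodization -/

/-- `g` vanishes outside a bounded set. -/
def Bdd (g : ℝ → ℝ) : Prop := ∃ R : ℝ, ∀ s, R ≤ |s| → g s = 0

theorem per_eq_sum {g : ℝ → ℝ} {R : ℝ} (hR : ∀ s, R ≤ |s| → g s = 0) {K : ℝ} {N : ℤ}
    (hN : R + K ≤ N) {y : ℝ} (hy : |y| ≤ K) :
    per g y = ∑ m ∈ Finset.Icc (-N) N, g (y + m) := by
  unfold per
  refine tsum_eq_sum fun m hm => hR _ ?_
  rw [Finset.mem_Icc, not_and_or, not_le, not_le] at hm
  have hy' := abs_le.1 hy
  rcases hm with hm | hm
  · have : (m : ℝ) < -N := by exact_mod_cast hm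
    have h2 := neg_le_abs (y + m)
    linarith [hy'.2]
  · have : (N : ℝ) < m := by exact_mod_cast hm
    have h2 := le_abs_self (y + m)
    linarith [hy'.1]

theorem per_eventually_eq {g : ℝ → ℝ} {R : ℝ} (hR : ∀ s, R ≤ |s| → g s = 0) (y : ℝ) :
    per g =ᶠ[𝓝 y] fun z => ∑ m ∈ Finset.Icc (-⌈R + (|y| + 1)⌉) ⌈R + (|y| + 1)⌉, g (z + m) := by
  have : ∀ᶠ z in 𝓝 y, |z| < |y| + 1 :=
    (continuous_abs.tendsto y).eventually (gt_mem_nhds (by linarith))
  filter_upwards [this] with z hz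
  exact per_eq_sum hR (Int.le_ceil _) hz.le

theorem per_contDiff {n : WithTop ℕ∞} {g : ℝ → ℝ} (hg : ContDiff ℝ n g) (hb : Bdd g) :
    ContDiff ℝ n (per g) := by
  obtain ⟨R, hR⟩ := hb
  rw [contDiff_iff_contDiffAt]
  intro y
  refine ContDiffAt.congr_of_eventuallyEq ?_ (per_eventually_eq hR y)
  refine (ContDiff.sum fun m _ => ?_).contDiffAt
  exact hg.comp (contDiff_id.add contDiff_const)

theorem per_hasDerivAt {g g' : ℝ → ℝ} (hg : ∀ s, HasDerivAt g (g' s) s) (hb : Bdd g)
    (hb' : Bdd g') (y : ℝ) : HasDerivAt (per g) (per g' y) y := by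
  obtain ⟨R, hR⟩ := hb
  obtain ⟨R', hR'⟩ := hb'
  have h1 : ∀ s, max R R' ≤ |s| → g s = 0 := fun s hs => hR s ((le_max_left _ _).trans hs)
  have h2 : ∀ s, max R R' ≤ |s| → g' s = 0 := fun s hs => hR' s ((le_max_right _ _).trans hs)
  refine HasDerivAt.congr_of_eventuallyEq ?_ (per_eventually_eq h1 y)
  rw [(per_eventually_eq h2 y).self_of_nhds]
  refine HasDerivAt.fun_sum fun m _ => ?_
  exact (hg (y + m)).comp_add_const y m

theorem per_add_int (g : ℝ → ℝ) (y : ℝ) (k : ℤ) : per g (y + k) = per g y := by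
  unfold per
  rw [← (Equiv.addLeft k).tsum_eq (fun m : ℤ => g (y + m))]
  refine tsum_congr fun m => ?_
  simp [add_assoc]

theorem per_add_one (g : ℝ → ℝ) (y : ℝ) : per g (y + 1) = per g y := by
  simpa using per_add_int g y 1

theorem per_periodic (g : ℝ → ℝ) : Function.Periodic (per g) 1 := per_add_one g

theorem per_summable {g : ℝ → ℝ} (hb : Bdd g) (y : ℝ) : Summable fun m : ℤ => g (y + m) := by
  obtain ⟨R, hR⟩ := hb
  refine summable_of_ne_finset_zero (s := Finset.Icc (-⌈R + |y|⌉) ⌈R + |y|⌉) fun m hm => hR _ ?_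
  rw [Finset.mem_Icc, not_and_or, not_le, not_le] at hm
  have hN := Int.le_ceil (R + |y|)
  have h3 := le_abs_self y
  have h4 := neg_abs_le y
  rcases hm with hm | hm
  · have : (m : ℝ) < -(⌈R + |y|⌉ : ℤ) := by exact_mod_cast hm
    have h2 := neg_le_abs (y + m)
    linarith
  · have : ((⌈R + |y|⌉ : ℤ) : ℝ) < m := by exact_mod_cast hm
    have h2 := le_abs_self (y + m)
    linarith

theorem per_add {g h : ℝ → ℝ} (hg : Bdd g) (hh : Bdd h) (y : ℝ) :
    per (fun s => g s + h s) y = per g y + per h y :=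
  (per_summable hg y).tsum_add (per_summable hh y)

theorem per_const_mul (c : ℝ) (g : ℝ → ℝ) (y : ℝ) :
    per (fun s => c * g s) y = c * per g y := tsum_mul_left

theorem per_zero (y : ℝ) : per (fun _ => 0) y = 0 := tsum_zero

/-- If `g` vanishes outside the window `(c, c + 1)` then `per g = g` on `[c, c + 1]`. -/
theorem per_eq_self {g : ℝ → ℝ} {c : ℝ} (hg : ∀ s, s ≤ c ∨ c + 1 ≤ s → g s = 0) {y : ℝ}
    (h1 : c ≤ y) (h2 : y ≤ c + 1) : per g y = g y := by
  unfold per
  rw [tsum_eq_single (0 : ℤ)]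
  · simp
  · intro m hm
    apply hg
    rcases lt_or_gt_of_ne hm with h | h
    · left
      have : (m : ℝ) ≤ -1 := by exact_mod_cast (show m ≤ -1 by omega)
      linarith
    · right
      have : (1 : ℝ) ≤ m := by exact_mod_cast (show 1 ≤ m by omega)
      linarith

theorem Bdd.add {g h : ℝ → ℝ} (hg : Bdd g) (hh : Bdd h) : Bdd fun s => g s + h s := by
  obtain ⟨R, hR⟩ := hg
  obtain ⟨R', hR'⟩ := hh
  exact ⟨max R R', fun s hs => by
    show g s + h s = 0
    rw [hR s ((le_max_left _ _).trans hs), hR' s ((le_max_right _ _).trans hs), add_zero]⟩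

theorem Bdd.mul_left {g : ℝ → ℝ} (hg : Bdd g) (h : ℝ → ℝ) : Bdd fun s => h s * g s := by
  obtain ⟨R, hR⟩ := hg
  exact ⟨R, fun s hs => by show h s * g s = 0; rw [hR s hs, mul_zero]⟩

theorem Bdd.comp_affine {g : ℝ → ℝ} (hg : Bdd g) {a : ℝ} (ha : a ≠ 0) (b : ℝ) :
    Bdd fun s => g (a * s - b) := by
  obtain ⟨R, hR⟩ := hg
  have ha' : 0 < |a| := abs_pos.2 ha
  refine ⟨(R + |b|) / |a|, fun s hs => hR _ ?_⟩
  rw [div_le_iff₀ ha'] at hs
  have h1 : |a * s| ≤ |a * s - b| + |b| := by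
    have := abs_add_le (a * s - b) b
    rwa [sub_add_cancel] at this
  rw [abs_mul] at h1
  linarith

theorem bdd_rhoD (j : ℕ) : Bdd (iteratedDeriv j rho) := ⟨1, fun _ h => rhoD_eq_zero j h⟩

theorem bdd_rho : Bdd rho := ⟨1, fun _ h => rho_eq_zero h⟩

theorem bdd_plat (l : ℝ) : Bdd (plat l) := ⟨|l| + 1, fun _ h => plat_eq_zero_of_abs h⟩

/-! ### The two families of bumps -/

/-- `s ^ k * rho^(j) (a s - b)`. -/
noncomputable def bumpR (k j : ℕ) (a b : ℝ) (s : ℝ) : ℝ := s ^ k * iteratedDeriv j rho (a * s - b)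

/-- `s ^ k * pi_l (a s - b)`. -/
noncomputable def bumpP (k : ℕ) (l a b : ℝ) (s : ℝ) : ℝ := s ^ k * plat l (a * s - b)

theorem bumpR_contDiff (k j : ℕ) (a b : ℝ) : ContDiff ℝ ∞ (bumpR k j a b) := by
  unfold bumpR
  exact (contDiff_id.pow k).mul
    ((rhoD_contDiff j).comp ((contDiff_const.mul contDiff_id).sub contDiff_const))

theorem bumpP_contDiff (k : ℕ) (l a b : ℝ) : ContDiff ℝ ∞ (bumpP k l a b) := by
  unfold bumpP
  exact (contDiff_id.pow k).mul
    ((plat_contDiff l).comp ((contDiff_const.mul contDiff_id).sub contDiff_const))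

theorem bumpR_bdd (k j : ℕ) {a : ℝ} (ha : a ≠ 0) (b : ℝ) : Bdd (bumpR k j a b) :=
  ((bdd_rhoD j).comp_affine ha b).mul_left fun s => s ^ k

theorem bumpP_bdd (k : ℕ) (l : ℝ) {a : ℝ} (ha : a ≠ 0) (b : ℝ) : Bdd (bumpP k l a b) :=
  ((bdd_plat l).comp_affine ha b).mul_left fun s => s ^ k

theorem hasDerivAt_affine (a b s : ℝ) : HasDerivAt (fun s : ℝ => a * s - b) a s := by
  simpa using ((hasDerivAt_id s).const_mul a).sub_const b

theorem bumpR_hasDerivAt (k j : ℕ) (a b s : ℝ) :
    HasDerivAt (bumpR k j a b)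
      ((k : ℝ) * bumpR (k - 1) j a b s + a * bumpR k (j + 1) a b s) s := by
  have h1 : HasDerivAt (fun s : ℝ => iteratedDeriv j rho (a * s - b))
      (iteratedDeriv (j + 1) rho (a * s - b) * a) s :=
    HasDerivAt.comp s (h₂ := iteratedDeriv j rho) (h := fun s : ℝ => a * s - b)
      (rhoD_hasDerivAt j (a * s - b)) (hasDerivAt_affine a b s)
  have h2 := (hasDerivAt_pow k s).fun_mul h1
  refine HasDerivAt.congr_deriv (f := fun s : ℝ => s ^ k * iteratedDeriv j rho (a * s - b)) h2 ?_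
  unfold bumpR
  ring

theorem bumpP_hasDerivAt (k : ℕ) (l a b s : ℝ) :
    HasDerivAt (bumpP k l a b)
      ((k : ℝ) * bumpP (k - 1) l a b s + a * bumpR k 0 a b s - a * bumpR k 0 a (b + l) s) s := by
  have h1 : HasDerivAt (fun s : ℝ => plat l (a * s - b))
      ((rho (a * s - b) - rho (a * s - b - l)) * a) s :=
    HasDerivAt.comp s (h₂ := plat l) (h := fun s : ℝ => a * s - b)
      (plat_hasDerivAt l (a * s - b)) (hasDerivAt_affine a b s)
  have h2 := (hasDerivAt_pow k s).fun_mul h1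
  refine HasDerivAt.congr_deriv (f := fun s : ℝ => s ^ k * plat l (a * s - b)) h2 ?_
  unfold bumpP bumpR
  rw [iteratedDeriv_zero, show a * s - (b + l) = a * s - b - l by ring]
  ring

theorem per_bumpR_contDiff (k j : ℕ) {a : ℝ} (ha : a ≠ 0) (b : ℝ) :
    ContDiff ℝ ∞ (per (bumpR k j a b)) :=
  per_contDiff (bumpR_contDiff k j a b) (bumpR_bdd k j ha b)

theorem per_bumpP_contDiff (k : ℕ) (l : ℝ) {a : ℝ} (ha : a ≠ 0) (b : ℝ) :
    ContDiff ℝ ∞ (per (bumpP k l a b)) :=
  per_contDiff (bumpP_contDiff k l a b) (bumpP_bdd k l ha b)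

theorem per_bumpR_hasDerivAt (k j : ℕ) {a : ℝ} (ha : a ≠ 0) (b y : ℝ) :
    HasDerivAt (per (bumpR k j a b))
      ((k : ℝ) * per (bumpR (k - 1) j a b) y + a * per (bumpR k (j + 1) a b) y) y := by
  have h1 := (bumpR_bdd (k - 1) j ha b).mul_left fun _ => (k : ℝ)
  have h2 := (bumpR_bdd k (j + 1) ha b).mul_left fun _ => a
  have h := per_hasDerivAt (bumpR_hasDerivAt k j a b) (bumpR_bdd k j ha b) (h1.add h2) y
  rwa [per_add h1 h2, per_const_mul, per_const_mul] at h

theorem per_bumpP_hasDerivAt (k : ℕ) (l : ℝ) {a : ℝ} (ha : a ≠ 0) (b y : ℝ) :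
    HasDerivAt (per (bumpP k l a b))
      ((k : ℝ) * per (bumpP (k - 1) l a b) y + a * per (bumpR k 0 a b) y
        - a * per (bumpR k 0 a (b + l)) y) y := by
  have h1 := (bumpP_bdd (k - 1) l ha b).mul_left fun _ => (k : ℝ)
  have h2 := (bumpR_bdd k 0 ha b).mul_left fun _ => a
  have h3 := (bumpR_bdd k 0 ha (b + l)).mul_left fun _ => -a
  have hd : ∀ s, HasDerivAt (bumpP k l a b)
      (((k : ℝ) * bumpP (k - 1) l a b s + a * bumpR k 0 a b s) + -a * bumpR k 0 a (b + l) s) s :=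
    fun s => (bumpP_hasDerivAt k l a b s).congr_deriv (by ring)
  have h := per_hasDerivAt hd (bumpP_bdd k l ha b) ((h1.add h2).add h3) y
  rw [per_add (h1.add h2) h3, per_add h1 h2, per_const_mul, per_const_mul, per_const_mul] at h
  exact h.congr_deriv (by ring)

/-! ### The grid lemma -/

/-- The cell function: `P[s ^ e * pi_6 (8 D s - (8 m - 1))]` at a point of the cell `m0`. -/
theorem per_cell {D m m0 : ℕ} (e : ℕ) (hm : m < D) (hm0 : m0 < D) {u : ℝ}
    (h1 : 0 ≤ D * u - m0) (h2 : D * u - m0 ≤ 1 / 2) :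
    per (bumpP e 6 (8 * D) (8 * m - 1)) u = if m = m0 then u ^ e * kappa else 0 := by
  have key : ∀ k : ℤ, ¬ (k = 0 ∧ m = m0) → bumpP e 6 (8 * D) (8 * m - 1) (u + k) = 0 := by
    intro k hk
    unfold bumpP
    have hn : (D : ℤ) * k + m0 - m ≠ 0 := by
      intro h0
      apply hk
      have hk0 : k = 0 := by
        rcases lt_trichotomy k 0 with h | h | h
        · exfalso; nlinarith
        · exact h
        · exfalso; nlinarith
      subst hk0
      exact ⟨rfl, by omega⟩
    have ht : 8 * (D : ℝ) * (u + k) - (8 * m - 1)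
        = 8 * (D * u - m0) + 1 + 8 * (((D : ℤ) * k + m0 - m : ℤ) : ℝ) := by
      push_cast; ring
    rw [ht]
    rcases lt_or_gt_of_ne hn with h | h
    · have : (((D : ℤ) * k + m0 - m : ℤ) : ℝ) ≤ -1 := by
        exact_mod_cast (show (D : ℤ) * k + m0 - m ≤ -1 by omega)
      rw [plat_eq_zero_left (by norm_num) (by linarith), mul_zero]
    · have : (1 : ℝ) ≤ (((D : ℤ) * k + m0 - m : ℤ) : ℝ) := by
        exact_mod_cast (show 1 ≤ (D : ℤ) * k + m0 - m by omega)
      rw [plat_eq_zero_right (by norm_num) (by linarith), mul_zero]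
  unfold per
  split_ifs with h
  · subst h
    rw [tsum_eq_single (0 : ℤ) fun k hk => key k fun h => hk h.1]
    unfold bumpP
    rw [plat_eq_kappa (by push_cast; linarith) (by push_cast; linarith)]
    simp
  · rw [tsum_congr fun k => key k fun h' => h h'.2, tsum_zero]

/-- The lookup function of one stage: an affine function of `(u, v)` chosen by the grid cell. -/
noncomputable def gridFun (D : ℕ) (al be ga : ℕ → ℕ → ℝ) (u v : ℝ) : ℝ :=
  ∑ m ∈ Finset.range D, ∑ n ∈ Finset.range D,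
    (al m n * (per (bumpP 0 6 (8 * D) (8 * m - 1)) u * per (bumpP 0 6 (8 * D) (8 * n - 1)) v)
      + be m n * (per (bumpP 1 6 (8 * D) (8 * m - 1)) u * per (bumpP 0 6 (8 * D) (8 * n - 1)) v)
      + ga m n * (per (bumpP 0 6 (8 * D) (8 * m - 1)) u * per (bumpP 1 6 (8 * D) (8 * n - 1)) v))

theorem gridFun_eq {D m n : ℕ} (al be ga : ℕ → ℕ → ℝ) (hm : m < D) (hn : n < D) {u v : ℝ}
    (h1 : 0 ≤ D * u - m) (h2 : D * u - m ≤ 1 / 2) (h3 : 0 ≤ D * v - n) (h4 : D * v - n ≤ 1 / 2) :
    gridFun D al be ga u v = kappa ^ 2 * (al m n + be m n * u + ga m n * v) := by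
  unfold gridFun
  rw [Finset.sum_eq_single_of_mem m (Finset.mem_range.2 hm),
    Finset.sum_eq_single_of_mem n (Finset.mem_range.2 hn)]
  · simp only [per_cell _ hm hm h1 h2, per_cell _ hn hn h3 h4, if_true]
    ring
  · intro n' hn' hne
    simp only [per_cell _ (Finset.mem_range.1 hn') hn h3 h4, if_neg hne]
    ring
  · intro m' hm' hne
    refine Finset.sum_eq_zero fun n' _ => ?_
    simp only [per_cell _ (Finset.mem_range.1 hm') hm h1 h2, if_neg hne]
    ring

/-! ### Time windows -/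

/-- The periodic time bump of window `k`, outside its window. -/
theorem per_window_zero {k i : ℕ} (j : ℕ) (hk : k < 6) {t : ℝ} (h1 : (i : ℝ) / 6 ≤ t)
    (h2 : t ≤ (i + 1) / 6) (hi : i % 6 ≠ k) : per (bumpR 0 j 12 (2 * k + 1)) t = 0 := by
  unfold per
  have key : ∀ m : ℤ, bumpR 0 j 12 (2 * k + 1) (t + m) = 0 := by
    intro m
    unfold bumpR
    have hn : (i : ℤ) + 6 * m - k ≠ 0 := by omega
    rw [rhoD_eq_zero, mul_zero]
    rcases lt_or_gt_of_ne hn with h | h
    · have : (((i : ℤ) + 6 * m - k : ℤ) : ℝ) ≤ -1 := by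
        exact_mod_cast (show (i : ℤ) + 6 * m - k ≤ -1 by omega)
      push_cast at this
      have h3 := neg_le_abs (12 * (t + m) - (2 * k + 1))
      linarith
    · have : (1 : ℝ) ≤ (((i : ℤ) + 6 * m - k : ℤ) : ℝ) := by
        exact_mod_cast (show 1 ≤ (i : ℤ) + 6 * m - k by omega)
      push_cast at this
      have h3 := le_abs_self (12 * (t + m) - (2 * k + 1))
      linarith
  rw [tsum_congr key, tsum_zero]

/-- The periodic time bump of window `k`, inside its window. -/
theorem per_window_eq {k i : ℕ} (j : ℕ) {t : ℝ} (h1 : (i : ℝ) / 6 ≤ t)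
    (h2 : t ≤ (i + 1) / 6) (hi : i % 6 = k) :
    per (bumpR 0 j 12 (2 * k + 1)) t = iteratedDeriv j rho (12 * t - (2 * i + 1)) := by
  unfold per
  have hik : (i : ℝ) = 6 * ((i / 6 : ℕ) : ℝ) + k := by
    exact_mod_cast (show i = 6 * (i / 6) + k by omega)
  rw [tsum_eq_single (-((i / 6 : ℕ) : ℤ))]
  · unfold bumpR
    rw [pow_zero, one_mul]
    congr 1
    rw [Int.cast_neg, Int.cast_natCast]
    linarith
  · intro m hm
    unfold bumpR
    have hn : (i : ℤ) + 6 * m - k ≠ 0 := by omega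
    rw [rhoD_eq_zero, mul_zero]
    rcases lt_or_gt_of_ne hn with h | h
    · have : (((i : ℤ) + 6 * m - k : ℤ) : ℝ) ≤ -1 := by
        exact_mod_cast (show (i : ℤ) + 6 * m - k ≤ -1 by omega)
      push_cast at this
      have h3 := neg_le_abs (12 * (t + m) - (2 * k + 1))
      linarith
    · have : (1 : ℝ) ≤ (((i : ℤ) + 6 * m - k : ℤ) : ℝ) := by
        exact_mod_cast (show 1 ≤ (i : ℤ) + 6 * m - k by omega)
      push_cast at this
      have h3 := le_abs_self (12 * (t + m) - (2 * k + 1))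
      linarith

/-- The rising profile of window `i`: `0` at `i / 6`, `1` at `(i + 1) / 6`. -/
noncomputable def rise (i : ℕ) (t : ℝ) : ℝ := sigma (12 * t - (2 * i + 1)) / kappa

theorem rise_hasDerivAt (i : ℕ) (t : ℝ) :
    HasDerivAt (rise i) (12 / kappa * rho (12 * t - (2 * i + 1))) t := by
  have h1 : HasDerivAt (fun t : ℝ => sigma (12 * t - (2 * i + 1)))
      (rho (12 * t - (2 * i + 1)) * 12) t :=
    HasDerivAt.comp t (h₂ := sigma) (h := fun t : ℝ => 12 * t - (2 * i + 1))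
      (sigma_hasDerivAt _) (hasDerivAt_affine 12 (2 * i + 1) t)
  refine HasDerivAt.congr_deriv (f := rise i) (h1.div_const kappa) ?_
  ring

theorem rise_left (i : ℕ) {t : ℝ} (h : t ≤ (i : ℝ) / 6) : rise i t = 0 := by
  unfold rise
  rw [sigma_eq_zero (by linarith), zero_div]

theorem rise_right (i : ℕ) {t : ℝ} (h : ((i : ℝ) + 1) / 6 ≤ t) : rise i t = 1 := by
  unfold rise
  rw [sigma_eq_kappa (by linarith), div_self kappa_ne]

theorem rise_nonneg (i : ℕ) (t : ℝ) : 0 ≤ rise i t := div_nonneg (sigma_nonneg _) kappa_pos.le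

theorem rise_le_one (i : ℕ) (t : ℝ) : rise i t ≤ 1 :=
  (div_le_one kappa_pos).2 (sigma_le_kappa _)

end P113B
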