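import Vale.Agent.P113.Shear
import Vale.Agent.P113.Bump

/-!
Glue: the explicit velocity field is a shear flow; its trajectory from the origin follows the
discrete orbit of the stage maps.
-/

namespace P113D

open Set P113S P113B

/-- The stage fields: loading in window `0`, rest in the windows `6 j`, and the shear
number `k` in the windows `6 j + k`. -/
noncomputable def stage (load : Fin 3 → ℝ) (ax : ℕ → Fin 3) (H : ℕ → ℝ → ℝ → ℝ) (n : ℕ)
    (x : Fin 3 → ℝ) : Fin 3 → ℝ :=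
  if n = 0 then load else if n % 6 = 0 then 0 else
    Pi.single (ax (n % 6)) (H (n % 6) (x (ax (n % 6) + 1)) (x (ax (n % 6) + 2)))

theorem stage_isShear (load : Fin 3 → ℝ) (ax : ℕ → Fin 3) (H : ℕ → ℝ → ℝ → ℝ) (n : ℕ) :
    ∃ S, IsShear S (stage load ax H n) := by
  by_cases h0 : n = 0
  · refine ⟨univ, ?_⟩
    have : stage load ax H n = fun _ => load := by funext x; simp [stage, h0]
    rw [this]; exact isShear_const _
  · by_cases h6 : n % 6 = 0
    · refine ⟨univ, ?_⟩
      have : stage load ax H n = fun _ => 0 := by funext x; simp [stage, h0, h6]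
      rw [this]; exact isShear_const _
    · refine ⟨{ax (n % 6)}, ?_⟩
      have : stage load ax H n = fun x => Pi.single (ax (n % 6))
          (H (n % 6) (x (ax (n % 6) + 1)) (x (ax (n % 6) + 2))) := by
        funext x; simp [stage, h0, h6]
      rw [this]
      refine isShear_single _ _ fun x y hxy => ?_
      have h1 : ∀ a : Fin 3, a + 1 ≠ a := by decide
      have h2 : ∀ a : Fin 3, a + 2 ≠ a := by decide
      rw [hxy _ (h1 _), hxy _ (h2 _)]

/-- The velocity field with abstract lookup functions `H k`. -/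
noncomputable def velH (load : Fin 3 → ℝ) (ax : ℕ → Fin 3) (H : ℕ → ℝ → ℝ → ℝ) (t : ℝ)
    (x : Fin 3 → ℝ) (i : Fin 3) : ℝ :=
  12 / kappa * bumpR 0 0 12 1 t * load i +
    ∑ k ∈ Finset.Ico 1 6, if ax k = i then
      12 / kappa * per (bumpR 0 0 12 (2 * k + 1)) t * H k (x (i + 1)) (x (i + 2)) else 0

/-- The velocity field is a shear flow with windows of length `1/6`. -/
theorem shearFlow_velH (load : Fin 3 → ℝ) (ax : ℕ → Fin 3) (H : ℕ → ℝ → ℝ → ℝ) :
    ShearFlow (1 / 6) (velH load ax H) (stage load ax H)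
      (fun n t => 12 / kappa * rho (12 * t - (2 * n + 1))) rise where
  pos := by norm_num
  shear := stage_isShear load ax H
  prim := rise_hasDerivAt
  start := fun n => rise_left n (by linarith)
  stop := fun n => rise_right n (by linarith)
  range := fun n t _ => ⟨rise_nonneg n t, rise_le_one n t⟩
  eq := fun n t ht x => by
    have h1 : (n : ℝ) / 6 ≤ t := by linarith [ht.1]
    have h2 : t ≤ (n + 1) / 6 := by linarith [ht.2]
    have hper : ∀ k ∈ Finset.Ico 1 6, per (bumpR 0 0 12 (2 * (k : ℕ) + 1)) t =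
        if n % 6 = k then rho (12 * t - (2 * n + 1)) else 0 := by
      intro k hk
      split_ifs with h
      · rw [per_window_eq 0 h1 h2 h, iteratedDeriv_zero]
      · exact per_window_zero 0 (Finset.mem_Ico.1 hk).2 h1 h2 h
    have hload : bumpR 0 0 12 1 t = if n = 0 then rho (12 * t - (2 * n + 1)) else 0 := by
      unfold bumpR
      rw [pow_zero, one_mul, iteratedDeriv_zero]
      split_ifs with h
      · subst h; simp
      · have : (1 : ℝ) ≤ n := by exact_mod_cast Nat.one_le_iff_ne_zero.2 h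
        exact rho_eq_zero (le_trans (by linarith) (le_abs_self _))
    funext i
    rw [velH, hload, Finset.sum_congr rfl (fun k hk => by rw [hper k hk])]
    by_cases h0 : n = 0
    · subst h0
      rw [Finset.sum_eq_zero]
      · simp [stage]
      · intro k hk
        have : 0 % 6 ≠ k := by have := (Finset.mem_Ico.1 hk).1; omega
        simp only [this, if_false]; simp
    · by_cases h6 : n % 6 = 0
      · rw [Finset.sum_eq_zero]
        · simp [stage, h0, h6]
        · intro k hk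
          have : n % 6 ≠ k := by have := (Finset.mem_Ico.1 hk).1; omega
          simp only [this, if_false]; simp
      · rw [Finset.sum_eq_single (n % 6)]
        · by_cases hi : ax (n % 6) = i
          · subst hi; simp [stage, h0, h6]
          · simp [stage, h0, h6, hi]
        · intro k _ hk
          simp [Ne.symm hk]
        · intro h
          exact absurd (Finset.mem_Ico.2 ⟨by omega, Nat.mod_lt _ (by norm_num)⟩) h

theorem velH_zero (load : Fin 3 → ℝ) (ax : ℕ → Fin 3) (H : ℕ → ℝ → ℝ → ℝ) (x : Fin 3 → ℝ) :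
    velH load ax H 0 x = 0 := by
  rw [(shearFlow_velH load ax H).eq 0 0 ⟨by simp, by norm_num⟩ x, rho_eq_zero (by simp)]
  simp

theorem velH_isShear (load : Fin 3 → ℝ) (ax : ℕ → Fin 3) (H : ℕ → ℝ → ℝ → ℝ) {t : ℝ}
    (ht : 0 ≤ t) : ∃ S, IsShear S (velH load ax H t) :=
  (shearFlow_velH load ax H).isShear ht

/-- The orbit of the stage maps, in the form used by the simulation. -/
theorem orbit_stage (load : Fin 3 → ℝ) (ax : ℕ → Fin 3) (H : ℕ → ℝ → ℝ → ℝ) :
    orbit (stage load ax H) 0 0 = 0 ∧ orbit (stage load ax H) 0 1 = load ∧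
    (∀ n, 1 ≤ n → orbit (stage load ax H) 0 (6 * n + 1) = orbit (stage load ax H) 0 (6 * n)) ∧
    ∀ n k, 1 ≤ k → k ≤ 5 → orbit (stage load ax H) 0 (6 * n + k + 1) =
      Function.update (orbit (stage load ax H) 0 (6 * n + k)) (ax k)
        (orbit (stage load ax H) 0 (6 * n + k) (ax k) +
          H k (orbit (stage load ax H) 0 (6 * n + k) (ax k + 1))
            (orbit (stage load ax H) 0 (6 * n + k) (ax k + 2))) := by
  refine ⟨rfl, by simp [orbit, stage], fun n hn => ?_, fun n k h1 h5 => ?_⟩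
  · have h0 : 6 * n ≠ 0 := by omega
    have h6 : 6 * n % 6 = 0 := by omega
    rw [orbit]
    simp only [stage, h0, h6, if_true, if_false, add_zero]
  · have h0 : 6 * n + k ≠ 0 := by omega
    have h6 : (6 * n + k) % 6 = k := by omega
    have hk : k ≠ 0 := by omega
    rw [orbit]
    simp only [stage, h0, h6, hk, if_false]
    funext i
    by_cases hi : i = ax k
    · subst hi; simp
    · simp [Pi.single_eq_of_ne hi, Function.update_of_ne hi]

section traj
variable {τ : ℝ} {u : ℝ → (Fin 3 → ℝ) → (Fin 3 → ℝ)} {V : ℕ → (Fin 3 → ℝ) → (Fin 3 → ℝ)}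
  {θ Θ : ℕ → ℝ → ℝ}

/-- If a coordinate of the orbit stays in an interval, so does that of the trajectory. -/
theorem traj_mem_Icc (F : ShearFlow τ u V θ Θ) {X : ℝ → Fin 3 → ℝ} (hc : ContinuousOn X (Ici 0))
    (hd : ∀ t, 0 < t → HasDerivAt X (u t (X t)) t) (i : Fin 3) {a b : ℝ}
    (h : ∀ n, orbit V (X 0) n i ∈ Icc a b) {t : ℝ} (ht : 0 ≤ t) : X t i ∈ Icc a b := by
  have hw := mem_window F.pos ht
  have hs := F.range _ t ⟨hw.1, hw.2.le⟩
  rw [(F.formula hc hd _).2 t ⟨hw.1, hw.2.le⟩]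
  generalize ⌊t / τ⌋₊ = n at hs
  have h1 := h n
  have h2 := h (n + 1)
  rw [orbit] at h2
  simp only [Pi.add_apply, Pi.smul_apply, smul_eq_mul] at h2 ⊢
  constructor
  · nlinarith [h1.1, h2.1, hs.1, hs.2]
  · nlinarith [h1.2, h2.2, hs.1, hs.2]

theorem traj_orbit (F : ShearFlow τ u V θ Θ) {X : ℝ → Fin 3 → ℝ} (hc : ContinuousOn X (Ici 0))
    (hd : ∀ t, 0 < t → HasDerivAt X (u t (X t)) t) (n : ℕ) :
    ∃ t, 0 ≤ t ∧ X t = orbit V (X 0) n :=
  ⟨n * τ, mul_nonneg (Nat.cast_nonneg n) F.pos.le, (F.formula hc hd n).1⟩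

end traj

/-- The lookup function of stage `k` with integer coefficients over `D`. -/
noncomputable def look (D : ℕ) (coef : ℕ → ℕ → ℕ → ℤ × ℤ × ℤ) (k : ℕ) (u v : ℝ) : ℝ :=
  gridFun D (fun m n => ((coef k m n).1 : ℝ) / D) (fun m n => ((coef k m n).2.1 : ℝ) / D)
    (fun m n => ((coef k m n).2.2 : ℝ) / D) u v / kappa ^ 2

theorem look_eq (D : ℕ) (coef : ℕ → ℕ → ℕ → ℤ × ℤ × ℤ) (k : ℕ) {m n : ℕ} (hm : m < D) (hn : n < D)
    {u v : ℝ} (h1 : 0 ≤ D * u - m) (h2 : D * u - m ≤ 1 / 2) (h3 : 0 ≤ D * v - n)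
    (h4 : D * v - n ≤ 1 / 2) :
    look D coef k u v =
      (((coef k m n).1 : ℝ) + (coef k m n).2.1 * u + (coef k m n).2.2 * v) / D := by
  unfold look
  rw [gridFun_eq _ _ _ hm hn h1 h2 h3 h4]
  have := kappa_ne
  field_simp

/-- The hitting criterion for the slab `5/8 < x₃ < 7/8`, given the behaviour of the orbit. -/
theorem hits_slab (load : Fin 3 → ℝ) (ax : ℕ → Fin 3) (H : ℕ → ℝ → ℝ → ℝ) {Hit : Prop}
    (hno : ¬ Hit → ∀ n, orbit (stage load ax H) 0 n 2 ∈ Icc (0 : ℝ) (1 / 2))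
    (hyes : Hit → ∃ n, orbit (stage load ax H) 0 n 2 = 3 / 4)
    {X : ℝ → Fin 3 → ℝ} (h0 : X 0 = 0) (hc : ContinuousOn X (Ici 0))
    (hd : ∀ t, 0 < t → HasDerivAt X (velH load ax H t (X t)) t) :
    (∃ t, 0 ≤ t ∧ ∃ m : ℤ, (5 / 8 : ℝ) < X t 2 + m ∧ X t 2 + m < 7 / 8) ↔ Hit := by
  have F := shearFlow_velH load ax H
  constructor
  · rintro ⟨t, ht, m, h1, h2⟩
    by_contra hn
    have h := traj_mem_Icc F hc hd 2 (by rw [h0]; exact hno hn) ht
    have ha : (0 : ℝ) < m := by linarith [h.2]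
    have hb : (m : ℝ) < 1 := by linarith [h.1]
    have ha' : (0 : ℤ) < m := by exact_mod_cast ha
    have hb' : m < 1 := by exact_mod_cast hb
    omega
  · intro h
    obtain ⟨n, hn⟩ := hyes h
    obtain ⟨t, ht, hX⟩ := traj_orbit F hc hd n
    rw [h0] at hX
    refine ⟨t, ht, 0, ?_, ?_⟩ <;> rw [hX, hn] <;> norm_num

/-- The slab is the set of integer translates of the box `(-1,2)² × (5/8,7/8)`. -/
theorem slab_iff_box (y : Fin 3 → ℝ) :
    (∃ m : ℤ, (5 / 8 : ℝ) < y 2 + m ∧ y 2 + m < 7 / 8) ↔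
      ∃ m : Fin 3 → ℤ, ∀ i, (![-1, -1, 5 / 8] : Fin 3 → ℝ) i < y i + m i ∧
        y i + m i < (![2, 2, 7 / 8] : Fin 3 → ℝ) i := by
  constructor
  · rintro ⟨m, h1, h2⟩
    refine ⟨![-⌊y 0⌋, -⌊y 1⌋, m], fun i => ?_⟩
    have a0 := Int.floor_le (y 0)
    have b0 := Int.lt_floor_add_one (y 0)
    have a1 := Int.floor_le (y 1)
    have b1 := Int.lt_floor_add_one (y 1)
    fin_cases i
    · simp; constructor <;> linarith
    · simp; constructor <;> linarith
    · simpa using ⟨h1, h2⟩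
  · rintro ⟨m, h⟩
    exact ⟨m 2, by simpa using h 2⟩

/-- The hitting criterion for the small box `(-1/8,5/8)² × (5/8,7/8)`, which embeds in the torus. -/
theorem hits_smallbox (load : Fin 3 → ℝ) (ax : ℕ → Fin 3) (H : ℕ → ℝ → ℝ → ℝ) {Hit : Prop}
    (hno : ¬ Hit → ∀ n, orbit (stage load ax H) 0 n 2 ∈ Icc (0 : ℝ) (1 / 2))
    (hyes : Hit → ∃ n, orbit (stage load ax H) 0 n 2 = 3 / 4 ∧
      orbit (stage load ax H) 0 n 0 ∈ Icc (0 : ℝ) (1 / 2) ∧
      orbit (stage load ax H) 0 n 1 ∈ Icc (0 : ℝ) (1 / 2))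
    {X : ℝ → Fin 3 → ℝ} (h0 : X 0 = 0) (hc : ContinuousOn X (Ici 0))
    (hd : ∀ t, 0 < t → HasDerivAt X (velH load ax H t (X t)) t) :
    (∃ t, 0 ≤ t ∧ ∃ m : Fin 3 → ℤ, ∀ i, (![-1 / 8, -1 / 8, 5 / 8] : Fin 3 → ℝ) i < X t i + m i ∧
        X t i + m i < (![5 / 8, 5 / 8, 7 / 8] : Fin 3 → ℝ) i) ↔ Hit := by
  have F := shearFlow_velH load ax H
  constructor
  · rintro ⟨t, ht, m, h⟩
    refine (hits_slab load ax H hno (fun h => (hyes h).imp fun n hn => hn.1) h0 hc hd).1
      ⟨t, ht, m 2, by simpa using h 2⟩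
  · intro h
    obtain ⟨n, hn, hx, hy⟩ := hyes h
    obtain ⟨t, ht, hX⟩ := traj_orbit F hc hd n
    rw [h0] at hX
    refine ⟨t, ht, 0, fun i => ?_⟩
    rw [hX]
    fin_cases i
    · simp; constructor <;> linarith [hx.1, hx.2]
    · simp; constructor <;> linarith [hy.1, hy.2]
    · simp; rw [hn]; norm_num

end P113D
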