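import Vale.Agent.P113.Defs
import Vale.Agent.P113.Glue

/-!
Smoothness, spatial periodicity and incompressibility of the explicit velocity field, and the
bridge between the bumps of the statement and the bump calculus.
-/

namespace P113V

open Set P113B P113D
open scoped ContDiff

/-! ### The definitions of the statement agree with those of the bump calculus -/

theorem rho_def : Vale.Agent.P113.rho = P113B.rho := rfl
theorem kappa_def : Vale.Agent.P113.kappa = P113B.kappa := rfl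
theorem sigma_def : Vale.Agent.P113.sigma = P113B.sigma := rfl
theorem plateau_def : Vale.Agent.P113.plateau = P113B.plat := rfl
theorem per_def : Vale.Agent.P113.per = P113B.per := rfl

theorem fn_der (k j : ℕ) (a b : ℚ) :
    (Vale.Agent.P113.Bump.der k j a b).fn = bumpR k j a b := rfl

theorem fn_plat (k : ℕ) (l a b : ℚ) :
    (Vale.Agent.P113.Bump.plat k l a b).fn = bumpP k l a b := rfl

theorem fn_contDiff (b : Vale.Agent.P113.Bump) : ContDiff ℝ ∞ b.fn := by
  cases b with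
  | der k j a b => exact bumpR_contDiff k j a b
  | plat k l a b => exact bumpP_contDiff k l a b

theorem fn_bdd {b : Vale.Agent.P113.Bump} (hb : b.Valid) : Bdd b.fn := by
  cases b with
  | der k j a b => exact bumpR_bdd k j (by exact_mod_cast hb) b
  | plat k l a b => exact bumpP_bdd k l (by exact_mod_cast hb.1) b

theorem per_fn_contDiff {b : Vale.Agent.P113.Bump} (hb : b.Valid) : ContDiff ℝ ∞ (per b.fn) :=
  per_contDiff (fn_contDiff b) (fn_bdd hb)

/-! ### The lookup functions -/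

theorem cell_contDiff {D : ℕ} (hD : 0 < D) (e : ℕ) (b : ℝ) :
    ContDiff ℝ ∞ (per (bumpP e 6 (8 * D) b)) :=
  per_bumpP_contDiff e 6 (by positivity) b

theorem gridFun_contDiff (D : ℕ) (al be ga : ℕ → ℕ → ℝ) :
    ContDiff ℝ ∞ fun z : ℝ × ℝ => gridFun D al be ga z.1 z.2 := by
  unfold gridFun
  refine ContDiff.sum fun m hm => ContDiff.sum fun n _ => ?_
  have hD : 0 < D := lt_of_le_of_lt (Nat.zero_le m) (Finset.mem_range.1 hm)
  have h1 : ∀ (e : ℕ) (b : ℝ), ContDiff ℝ ∞ fun z : ℝ × ℝ => per (bumpP e 6 (8 * D) b) z.1 :=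
    fun e b => (cell_contDiff hD e b).comp contDiff_fst
  have h2 : ∀ (e : ℕ) (b : ℝ), ContDiff ℝ ∞ fun z : ℝ × ℝ => per (bumpP e 6 (8 * D) b) z.2 :=
    fun e b => (cell_contDiff hD e b).comp contDiff_snd
  exact ((contDiff_const.mul ((h1 _ _).mul (h2 _ _))).add
    (contDiff_const.mul ((h1 _ _).mul (h2 _ _)))).add (contDiff_const.mul ((h1 _ _).mul (h2 _ _)))

theorem gridFun_add_one_left (D : ℕ) (al be ga : ℕ → ℕ → ℝ) (u v : ℝ) :
    gridFun D al be ga (u + 1) v = gridFun D al be ga u v := by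
  simp only [gridFun, per_add_one]

theorem gridFun_add_one_right (D : ℕ) (al be ga : ℕ → ℕ → ℝ) (u v : ℝ) :
    gridFun D al be ga u (v + 1) = gridFun D al be ga u v := by
  simp only [gridFun, per_add_one]

theorem look_contDiff (D : ℕ) (coef : ℕ → ℕ → ℕ → ℤ × ℤ × ℤ) (k : ℕ) :
    ContDiff ℝ ∞ fun z : ℝ × ℝ => look D coef k z.1 z.2 :=
  (gridFun_contDiff D _ _ _).div_const _

theorem look_add_one_left (D : ℕ) (coef : ℕ → ℕ → ℕ → ℤ × ℤ × ℤ) (k : ℕ) (u v : ℝ) :
    look D coef k (u + 1) v = look D coef k u v := by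
  simp only [look, gridFun_add_one_left]

theorem look_add_one_right (D : ℕ) (coef : ℕ → ℕ → ℕ → ℤ × ℤ × ℤ) (k : ℕ) (u v : ℝ) :
    look D coef k u (v + 1) = look D coef k u v := by
  simp only [look, gridFun_add_one_right]

/-! ### The velocity field -/

theorem velH_contDiff (load : Fin 3 → ℝ) (ax : ℕ → Fin 3) {H : ℕ → ℝ → ℝ → ℝ}
    (hH : ∀ k, ContDiff ℝ ∞ fun z : ℝ × ℝ => H k z.1 z.2) :
    ContDiff ℝ ∞ fun z : ℝ × (Fin 3 → ℝ) => velH load ax H z.1 z.2 := by
  refine contDiff_pi.2 fun i => ?_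
  unfold velH
  refine ContDiff.add ?_ (ContDiff.sum fun k _ => ?_)
  · exact (contDiff_const.mul ((bumpR_contDiff 0 0 12 1).comp contDiff_fst)).mul contDiff_const
  · split_ifs
    · have h1 : ContDiff ℝ ∞ fun z : ℝ × (Fin 3 → ℝ) => per (bumpR 0 0 12 (2 * k + 1)) z.1 :=
        (per_bumpR_contDiff 0 0 (by norm_num) _).comp contDiff_fst
      have h2 : ContDiff ℝ ∞ fun z : ℝ × (Fin 3 → ℝ) => (z.2 (i + 1), z.2 (i + 2)) := by
        fun_prop
      exact (contDiff_const.mul h1).mul ((hH k).comp h2)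
    · exact contDiff_const

theorem velH_periodic (load : Fin 3 → ℝ) (ax : ℕ → Fin 3) {H : ℕ → ℝ → ℝ → ℝ}
    (h1 : ∀ k u v, H k (u + 1) v = H k u v) (h2 : ∀ k u v, H k u (v + 1) = H k u v)
    (t : ℝ) (x : Fin 3 → ℝ) (j : Fin 3) :
    velH load ax H t (x + Pi.single j 1) = velH load ax H t x := by
  funext i
  have key : ∀ k, H k ((x + Pi.single j 1 : Fin 3 → ℝ) (i + 1))
      ((x + Pi.single j 1 : Fin 3 → ℝ) (i + 2)) = H k (x (i + 1)) (x (i + 2)) := by
    intro k
    simp only [Pi.add_apply, Pi.single_apply]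
    split_ifs <;> simp only [add_zero, h1, h2]
  simp only [velH, key]

/-- Component `i` does not depend on the coordinate `i`. -/
theorem velH_line_self (load : Fin 3 → ℝ) (ax : ℕ → Fin 3) (H : ℕ → ℝ → ℝ → ℝ)
    (t : ℝ) (x : Fin 3 → ℝ) (i : Fin 3) (s : ℝ) :
    velH load ax H t (x + s • (Pi.single i 1 : Fin 3 → ℝ)) i = velH load ax H t x i := by
  have a1 : ∀ a : Fin 3, a + 1 ≠ a := by decide
  have a2 : ∀ a : Fin 3, a + 2 ≠ a := by decide
  simp only [velH, Pi.add_apply, Pi.smul_apply, Pi.single_eq_of_ne (a1 i),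
    Pi.single_eq_of_ne (a2 i), smul_zero, add_zero]

theorem velH_dx_self (load : Fin 3 → ℝ) (ax : ℕ → Fin 3) (H : ℕ → ℝ → ℝ → ℝ)
    (t : ℝ) (x : Fin 3 → ℝ) (i : Fin 3) :
    Vale.Agent.P113.dx i (Vale.Agent.P113.comp (velH load ax H) i) t x = 0 := by
  unfold Vale.Agent.P113.dx Vale.Agent.P113.comp lineDeriv
  simp only [velH_line_self, deriv_const]

/-- The field is divergence free at all times. -/
theorem velH_div (load : Fin 3 → ℝ) (ax : ℕ → Fin 3) (H : ℕ → ℝ → ℝ → ℝ)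
    (t : ℝ) (x : Fin 3 → ℝ) :
    ∑ i, Vale.Agent.P113.dx i (Vale.Agent.P113.comp (velH load ax H) i) t x = 0 :=
  Finset.sum_eq_zero fun i _ => velH_dx_self load ax H t x i

/-- The convective term vanishes for `t ≥ 0`. -/
theorem velH_convect (load : Fin 3 → ℝ) (ax : ℕ → Fin 3) (H : ℕ → ℝ → ℝ → ℝ)
    {t : ℝ} (ht : 0 ≤ t) (x : Fin 3 → ℝ) (i : Fin 3) :
    ∑ j, velH load ax H t x j *
      Vale.Agent.P113.dx j (Vale.Agent.P113.comp (velH load ax H) i) t x = 0 := by
  obtain ⟨S, hS⟩ := velH_isShear load ax H ht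
  exact Finset.sum_eq_zero fun j _ => hS.mul_deriv_line x j i 0

theorem vel_contDiff (load : Fin 3 → ℝ) (ax : ℕ → Fin 3) (D : ℕ) (coef : ℕ → ℕ → ℕ → ℤ × ℤ × ℤ) :
    ContDiff ℝ ∞ fun z : ℝ × (Fin 3 → ℝ) => velH load ax (look D coef) z.1 z.2 :=
  velH_contDiff load ax (look_contDiff D coef)

theorem vel_periodic (load : Fin 3 → ℝ) (ax : ℕ → Fin 3) (D : ℕ) (coef : ℕ → ℕ → ℕ → ℤ × ℤ × ℤ)
    (t : ℝ) (x : Fin 3 → ℝ) (j : Fin 3) :
    velH load ax (look D coef) t (x + Pi.single j 1) = velH load ax (look D coef) t x :=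
  velH_periodic load ax (look_add_one_left D coef) (look_add_one_right D coef) t x j

end P113V
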