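import Vale.Agent.P113.Compile
import Vale.Agent.P113.VelSmooth

namespace Vale.Agent.P113

theorem velSmooth_proof : VelSmoothStmt := fun _ =>
  ⟨P113V.vel_contDiff _ _ _ _, P113V.vel_periodic _ _ _ _⟩

theorem vel_div (z : MachineCode × List ℕ) (t : ℝ) (x : V) :
    ∑ i, dx i (comp (vel z) i) t x = 0 := P113V.velH_div _ _ _ t x

theorem vel_convect (z : MachineCode × List ℕ) {t : ℝ} (ht : 0 ≤ t) (x : V) (i : Fin 3) :
    ∑ j, vel z t x j * dx j (comp (vel z) i) t x = 0 := P113V.velH_convect _ _ _ ht x i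

theorem vel_zero (z : MachineCode × List ℕ) (x : V) : vel z 0 x = 0 := P113D.velH_zero _ _ _ x

end Vale.Agent.P113
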