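import Vale.Agent.P113.Force
import Vale.Agent.P113.Code
import Vale.Agent.P113.E4
import Vale.Agent.P113.Classical

namespace Vale.Agent.P113

open Set P113D P113S

theorem orbit_shear (load : Fin 3 → ℝ) (H : ℕ → ℝ → ℝ → ℝ) (n k : ℕ) (h1 : 1 ≤ k) (h5 : k ≤ 5) :
    orbit (stage load P113F.axis H) 0 (6 * n + k + 1) =
      P113F.shear H k (orbit (stage load P113F.axis H) 0 (6 * n + k)) := by
  have h0 : 6 * n + k ≠ 0 := by omega
  have h6 : (6 * n + k) % 6 = k := by omega
  have hk : k ≠ 0 := by omega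
  rw [orbit]
  simp only [stage, h0, h6, hk, if_false]
  rfl

theorem final_of (E1 : CompileComputableStmt) : Final := by
  refine ⟨0, ![-1 / 8, -1 / 8, 5 / 8], ![5 / 8, 5 / 8, 7 / 8], compile, ?_,
    ⟨E1, compileRest_proof.1, ⟨1, compileRest_proof.2.1⟩, compileRest_proof.2.2⟩, ?_⟩
  · intro i; fin_cases i <;> simp <;> norm_num
  intro ν hν M w
  set z : MachineCode × List ℕ := (M.code, w.map Fin.val) with hz
  have hcl : ∀ T, 0 < T → IsClassical ν (force (compile z) ν) T (vel z) fun _ _ => 0 :=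
    smoothClassical_proof ν _ _ (velSmooth_proof z).1 (velSmooth_proof z).2 (vel_div z)
      (vel_zero z) (fun t ht x i => by rw [force_proof z ν t x i, vel_convect z ht x i, add_zero])
  have F := shearFlow_velH (fun i => (loadQ z i : ℝ)) P113F.axis (look (cGrid z.1) (cCoef z.1))
  have h0 : (fun i => ((0 : Fin 3 → ℚ) i : ℝ)) = (0 : V) := by funext i; simp
  refine ⟨vel z, fun _ _ => 0, (velSmooth_proof z).1.contDiffOn, contDiffOn_const, hcl,
    fun T hT v q hv => unique_proof ν _ T _ _ _ _ hν hT (hcl T hT) hv, ?_⟩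
  rw [h0]
  obtain ⟨X, hX0, hX⟩ := F.exists_traj 0
  obtain ⟨hc, hd⟩ := weak_of_strong hX
  refine ⟨X, ⟨hX0, hX⟩, fun Y hY t ht => ?_, ?_⟩
  · obtain ⟨hc', hd'⟩ := weak_of_strong hY.2
    rw [F.eq_traj hc hd ht, F.eq_traj hc' hd' ht, hX0, hY.1]
  · have hG : P113F.GridProp (P113F.cGrid M.code) (P113F.cCoef M.code)
        (look (cGrid z.1) (cCoef z.1)) :=
      fun k m n u v hu hv => look_eq _ _ k hu.1 hv.1 hu.2.1 hu.2.2 hv.2.1 hv.2.2
    have ho := orbit_stage (fun i => (loadQ z i : ℝ)) P113F.axis (look (cGrid z.1) (cCoef z.1))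
    have hs := P113F.sim_machine_small M w hG _ (by rw [ho.1]; rfl)
      (by rw [ho.2.1]; funext i; fin_cases i
          · rfl
          · rfl
          · simp [loadQ])
      (orbit_shear _ _) ho.2.2.1
    rw [← hits_smallbox _ _ _ hs.1 hs.2 hX0 hc hd]
    refine exists_congr fun t => and_congr_right fun _ => exists_congr fun m =>
      forall_congr' fun i => ?_
    fin_cases i <;> simp

end Vale.Agent.P113
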