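import Mathlib.Computability.Partrec
import Mathlib.Data.Rat.Denumerable
import Mathlib.Tactic.FunProp
import Mathlib.Tactic.Ring
import Mathlib.Tactic.FieldSimp
import Mathlib.Tactic.Linarith
import Mathlib.Data.Nat.Count
import Mathlib.Data.Rat.Lemmas
import Mathlib.Data.Rat.Cast.Defs

set_option linter.all false

/-! Primitive recursive arithmetic on integers and rationals, and `fun_prop` rules for `Primrec`. -/

namespace P113G

open Encodable

section rules

variable {α β γ σ : Type} [Primcodable α] [Primcodable β] [Primcodable γ] [Primcodable σ]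

attribute [fun_prop] Primrec

@[fun_prop] theorem p_id : Primrec (fun a : α => a) := Primrec.id
@[fun_prop] theorem p_const (x : σ) : Primrec (fun _ : α => x) := Primrec.const x
@[fun_prop] theorem p_comp {f : β → σ} {g : α → β} (hf : Primrec f) (hg : Primrec g) :
    Primrec (fun a => f (g a)) := hf.comp hg
@[fun_prop] theorem p_pair {f : α → β} {g : α → γ} (hf : Primrec f) (hg : Primrec g) :
    Primrec (fun a => (f a, g a)) := hf.pair hg
@[fun_prop] theorem p_fst {f : α → β × γ} (hf : Primrec f) : Primrec (fun a => (f a).1) :=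
  Primrec.fst.comp hf
@[fun_prop] theorem p_snd {f : α → β × γ} (hf : Primrec f) : Primrec (fun a => (f a).2) :=
  Primrec.snd.comp hf

@[fun_prop] theorem p_nat_add {f g : α → ℕ} (hf : Primrec f) (hg : Primrec g) :
    Primrec (fun a => f a + g a) := Primrec.nat_add.comp hf hg
@[fun_prop] theorem p_nat_sub {f g : α → ℕ} (hf : Primrec f) (hg : Primrec g) :
    Primrec (fun a => f a - g a) := Primrec.nat_sub.comp hf hg
@[fun_prop] theorem p_nat_mul {f g : α → ℕ} (hf : Primrec f) (hg : Primrec g) :
    Primrec (fun a => f a * g a) := Primrec.nat_mul.comp hf hg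
@[fun_prop] theorem p_nat_div {f g : α → ℕ} (hf : Primrec f) (hg : Primrec g) :
    Primrec (fun a => f a / g a) := Primrec.nat_div.comp hf hg
@[fun_prop] theorem p_nat_mod {f g : α → ℕ} (hf : Primrec f) (hg : Primrec g) :
    Primrec (fun a => f a % g a) := Primrec.nat_mod.comp hf hg
@[fun_prop] theorem p_nat_pow {f g : α → ℕ} (hf : Primrec f) (hg : Primrec g) :
    Primrec (fun a => f a ^ g a) :=
  (Primrec₂.unpaired'.1 Nat.Primrec.pow).comp hf hg
@[fun_prop] theorem p_nat_max {f g : α → ℕ} (hf : Primrec f) (hg : Primrec g) :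
    Primrec (fun a => max (f a) (g a)) := Primrec.nat_max.comp hf hg
@[fun_prop] theorem p_nat_min {f g : α → ℕ} (hf : Primrec f) (hg : Primrec g) :
    Primrec (fun a => min (f a) (g a)) := Primrec.nat_min.comp hf hg
@[fun_prop] theorem p_succ {f : α → ℕ} (hf : Primrec f) : Primrec (fun a => (f a).succ) :=
  Primrec.succ.comp hf
@[fun_prop] theorem p_natPair {f g : α → ℕ} (hf : Primrec f) (hg : Primrec g) :
    Primrec (fun a => Nat.pair (f a) (g a)) := Primrec₂.natPair.comp hf hg
@[fun_prop] theorem p_unpair {f : α → ℕ} (hf : Primrec f) : Primrec (fun a => (f a).unpair) :=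
  Primrec.unpair.comp hf

@[fun_prop] theorem p_cons {f : α → β} {g : α → List β} (hf : Primrec f) (hg : Primrec g) :
    Primrec (fun a => f a :: g a) := Primrec.list_cons.comp hf hg
@[fun_prop] theorem p_append {f g : α → List β} (hf : Primrec f) (hg : Primrec g) :
    Primrec (fun a => f a ++ g a) := Primrec.list_append.comp hf hg
@[fun_prop] theorem p_range {f : α → ℕ} (hf : Primrec f) : Primrec (fun a => List.range (f a)) :=
  Primrec.list_range.comp hf
@[fun_prop] theorem p_length {f : α → List β} (hf : Primrec f) : Primrec (fun a => (f a).length) :=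
  Primrec.list_length.comp hf
@[fun_prop] theorem p_map {f : α → List β} {g : α → β → σ}
    (hg : Primrec (fun p : α × β => g p.1 p.2)) (hf : Primrec f) :
    Primrec (fun a => List.map (g a) (f a)) := Primrec.list_map hf hg
@[fun_prop] theorem p_flatMap {f : α → List β} {g : α → β → List σ}
    (hg : Primrec (fun p : α × β => g p.1 p.2)) (hf : Primrec f) :
    Primrec (fun a => List.flatMap (g a) (f a)) := Primrec.list_flatMap hf hg
@[fun_prop] theorem p_getD {f : α → List β} {n : α → ℕ} {d : α → β} (hf : Primrec f)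
    (hn : Primrec n) (hd : Primrec d) : Primrec (fun a => List.getD (f a) (n a) (d a)) :=
  (Primrec.option_getD.comp (Primrec.list_getElem?.comp hf hn) hd).of_eq fun a => by
    simp [List.getD_eq_getElem?_getD]
@[fun_prop] theorem p_cond {c : α → Bool} {f g : α → σ} (hc : Primrec c) (hf : Primrec f)
    (hg : Primrec g) : Primrec (fun a => cond (c a) (f a) (g a)) := Primrec.cond hc hf hg

@[fun_prop] theorem p_ite {c : α → Prop} {inst : ∀ a, Decidable (c a)} {f g : α → σ}
    (hc : Primrec (fun a => @decide (c a) (inst a))) (hf : Primrec f) (hg : Primrec g) :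
    Primrec (fun a => @ite σ (c a) (inst a) (f a) (g a)) :=
  (Primrec.cond hc hf hg).of_eq fun a => by by_cases h : c a <;> simp [h]
@[fun_prop] theorem p_dec_eq {f g : α → β} {inst : ∀ a, Decidable (f a = g a)}
    (hf : Primrec f) (hg : Primrec g) : Primrec (fun a => @decide (f a = g a) (inst a)) := by
  classical
  exact (Primrec.eq.comp hf hg).decide.of_eq fun a => by congr
@[fun_prop] theorem p_dec_le {f g : α → ℕ} {inst : ∀ a, Decidable (f a ≤ g a)}
    (hf : Primrec f) (hg : Primrec g) : Primrec (fun a => @decide (f a ≤ g a) (inst a)) :=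
  (Primrec.nat_le.comp hf hg).decide.of_eq fun a => by congr
@[fun_prop] theorem p_dec_lt {f g : α → ℕ} {inst : ∀ a, Decidable (f a < g a)}
    (hf : Primrec f) (hg : Primrec g) : Primrec (fun a => @decide (f a < g a) (inst a)) :=
  (Primrec.nat_lt.comp hf hg).decide.of_eq fun a => by congr
@[fun_prop] theorem p_dec_true {f : α → Bool} {inst : ∀ a, Decidable (f a = true)}
    (hf : Primrec f) : Primrec (fun a => @decide (f a = true) (inst a)) :=
  hf.of_eq fun a => by simp
@[fun_prop] theorem p_and {f g : α → Bool} (hf : Primrec f) (hg : Primrec g) :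
    Primrec (fun a => (f a && g a)) := Primrec.and.comp hf hg
@[fun_prop] theorem p_or {f g : α → Bool} (hf : Primrec f) (hg : Primrec g) :
    Primrec (fun a => (f a || g a)) := Primrec.or.comp hf hg
@[fun_prop] theorem p_not {f : α → Bool} (hf : Primrec f) :
    Primrec (fun a => (!f a)) := Primrec.not.comp hf
@[fun_prop] theorem p_beq [DecidableEq β] {f g : α → β} (hf : Primrec f) (hg : Primrec g) :
    Primrec (fun a => (f a == g a)) := Primrec.beq.comp hf hg

theorem p_dec_and {p q : α → Prop} {i1 : ∀ a, Decidable (p a)} {i2 : ∀ a, Decidable (q a)}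
    {inst : ∀ a, Decidable (p a ∧ q a)}
    (hp : Primrec (fun a => @decide (p a) (i1 a))) (hq : Primrec (fun a => @decide (q a) (i2 a))) :
    Primrec (fun a => @decide (p a ∧ q a) (inst a)) :=
  (p_and hp hq).of_eq fun a => by by_cases h : p a <;> by_cases h' : q a <;> simp [h, h']

end rules

/-! ### Integers -/

section int

variable {α : Type} [Primcodable α]

theorem primrec_natSub : Primrec (fun p : ℕ × ℕ => (p.1 : ℤ) - (p.2 : ℤ)) := by
  have h : Primrec (fun p : ℕ × ℕ => if p.2 ≤ p.1 then 2 * (p.1 - p.2) else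
      2 * (p.2 - p.1 - 1) + 1) := by fun_prop
  refine Primrec.encode_iff.1 (h.of_eq ?_)
  rintro ⟨a, b⟩
  simp only
  split_ifs with hab
  · obtain ⟨c, rfl⟩ := Nat.exists_eq_add_of_le hab
    have e1 : ((b + c : ℕ) : ℤ) - (b : ℤ) = ((c : ℕ) : ℤ) := by push_cast; ring
    rw [e1, Nat.add_sub_cancel_left]
    rfl
  · obtain ⟨c, rfl⟩ : ∃ c, b = a + c + 1 := ⟨b - a - 1, by omega⟩
    have e1 : ((a : ℕ) : ℤ) - ((a + c + 1 : ℕ) : ℤ) = Int.negSucc c := by
      rw [Int.negSucc_eq]; push_cast; ring
    have e2 : a + c + 1 - a - 1 = c := by omega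
    rw [e1, e2]
    rfl

theorem primrec_toNat : Primrec (fun z : ℤ => z.toNat) := by
  have h3 : Primrec (fun n : ℕ => if n % 2 = 0 then n / 2 else 0) := by fun_prop
  refine (h3.comp (Primrec.encode (α := ℤ))).of_eq (fun z => ?_)
  rcases z with n | n
  · have e : Encodable.encode (Int.ofNat n) = 2 * n := rfl
    rw [e, if_pos (by omega)]
    simp
  · have e : Encodable.encode (Int.negSucc n) = 2 * n + 1 := rfl
    rw [e, if_neg (by omega)]
    rfl

theorem primrec_negToNat : Primrec (fun z : ℤ => (-z).toNat) := by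
  have h3 : Primrec (fun n : ℕ => if n % 2 = 0 then 0 else n / 2 + 1) := by fun_prop
  refine (h3.comp (Primrec.encode (α := ℤ))).of_eq (fun z => ?_)
  rcases z with n | n
  · have e : Encodable.encode (Int.ofNat n) = 2 * n := rfl
    rw [e, if_pos (by omega)]
    simp
  · have e : Encodable.encode (Int.negSucc n) = 2 * n + 1 := rfl
    rw [e, if_neg (by omega)]
    rw [Int.neg_negSucc]
    simp
    omega

@[fun_prop] theorem p_toNat {f : α → ℤ} (hf : Primrec f) : Primrec (fun a => (f a).toNat) :=
  primrec_toNat.comp hf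

@[fun_prop] theorem p_natCast_int {f : α → ℕ} (hf : Primrec f) :
    Primrec (fun a => ((f a : ℕ) : ℤ)) :=
  (primrec_natSub.comp (hf.pair (Primrec.const 0))).of_eq fun n => by simp

@[fun_prop] theorem p_int_neg {f : α → ℤ} (hf : Primrec f) : Primrec (fun a => -f a) :=
  (primrec_natSub.comp ((primrec_negToNat.comp hf).pair (primrec_toNat.comp hf))).of_eq
    fun p => by simp only; omega

@[fun_prop] theorem p_int_add {f g : α → ℤ} (hf : Primrec f) (hg : Primrec g) :
    Primrec (fun a => f a + g a) := by
  have h : Primrec (fun a => ((f a).toNat + (g a).toNat, (-f a).toNat + (-g a).toNat)) := by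
    fun_prop
  exact (primrec_natSub.comp h).of_eq fun p => by simp only; omega

@[fun_prop] theorem p_int_sub {f g : α → ℤ} (hf : Primrec f) (hg : Primrec g) :
    Primrec (fun a => f a - g a) :=
  (p_int_add hf (p_int_neg hg)).of_eq fun a => by ring

@[fun_prop] theorem p_int_mul {f g : α → ℤ} (hf : Primrec f) (hg : Primrec g) :
    Primrec (fun a => f a * g a) := by
  have h : Primrec (fun a => ((f a).toNat * (g a).toNat + (-f a).toNat * (-g a).toNat,
      (f a).toNat * (-g a).toNat + (-f a).toNat * (g a).toNat)) := by fun_prop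
  refine (primrec_natSub.comp h).of_eq fun p => ?_
  have e1 : (((f p).toNat : ℕ) : ℤ) - (((-f p).toNat : ℕ) : ℤ) = f p := by omega
  have e2 : (((g p).toNat : ℕ) : ℤ) - (((-g p).toNat : ℕ) : ℤ) = g p := by omega
  simp only
  generalize (f p).toNat = x at *
  generalize (-f p).toNat = y at *
  generalize (g p).toNat = z at *
  generalize (-g p).toNat = w at *
  rw [← e1, ← e2]
  push_cast
  ring

@[fun_prop] theorem p_natAbs {f : α → ℤ} (hf : Primrec f) : Primrec (fun a => (f a).natAbs) := by
  have h : Primrec (fun a => (f a).toNat + (-f a).toNat) := by fun_prop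
  exact h.of_eq fun a => by omega

@[fun_prop] theorem p_int_sign {f : α → ℤ} (hf : Primrec f) : Primrec (fun a => (f a).sign) := by
  have h : Primrec (fun a => if (f a).toNat = 0 then (if (-f a).toNat = 0 then (0 : ℤ) else -1)
      else 1) := by fun_prop
  refine h.of_eq fun a => ?_
  split_ifs with h1 h2
  · have : f a = 0 := by omega
    simp [this]
  · exact (Int.sign_eq_neg_one_of_neg (by omega)).symm
  · exact (Int.sign_eq_one_of_pos (by omega)).symm

@[fun_prop] theorem p_int_pow {f : α → ℤ} {g : α → ℕ} (hf : Primrec f) (hg : Primrec g) :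
    Primrec (fun a => f a ^ g a) := by
  have h := Primrec.nat_rec' (f := g) (g := fun _ => (1 : ℤ))
    (h := fun a (p : ℕ × ℤ) => p.2 * f a) hg (Primrec.const _)
    (show Primrec (fun x : α × ℕ × ℤ => x.2.2 * f x.1) by fun_prop)
  refine h.of_eq fun a => ?_
  induction g a with
  | zero => simp
  | succ n ih => simp only [ih, pow_succ]

@[fun_prop] theorem p_gcd {f g : α → ℕ} (hf : Primrec f) (hg : Primrec g) :
    Primrec (fun a => Nat.gcd (f a) (g a)) := by
  have h1 : PrimrecRel (fun (p : ℕ × ℕ) (d : ℕ) => p.1 % d = 0 ∧ p.2 % d = 0) := by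
    refine Primrec₂.primrecRel ?_
    exact p_dec_and (i1 := fun _ => inferInstance) (i2 := fun _ => inferInstance)
      (by fun_prop) (by fun_prop)
  have h2 := Primrec.nat_findGreatest (f := fun p : ℕ × ℕ => p.1 + p.2) (by fun_prop) h1
  refine (h2.comp (hf.pair hg)).of_eq fun a => ?_
  simp only
  generalize f a = x
  generalize g a = y
  rw [Nat.findGreatest_eq_iff]
  refine ⟨?_, ?_, ?_⟩
  · rcases Nat.eq_zero_or_pos x with h | h
    · simp [h]
    · have := Nat.gcd_le_left y h
      omega
  · intro _
    exact ⟨Nat.mod_eq_zero_of_dvd (Nat.gcd_dvd_left _ _),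
      Nat.mod_eq_zero_of_dvd (Nat.gcd_dvd_right _ _)⟩
  · intro n hn hle h
    have h3 : n ∣ Nat.gcd x y :=
      Nat.dvd_gcd (Nat.dvd_of_mod_eq_zero h.1) (Nat.dvd_of_mod_eq_zero h.2)
    have h4 : 0 < Nat.gcd x y := by
      apply Nat.pos_of_ne_zero
      intro h0
      rw [Nat.gcd_eq_zero_iff] at h0
      omega
    have := Nat.le_of_dvd h4 h3
    omega

end int

/-! ### Rationals, for the coding of `Rat.instDenumerable` -/

section rat

variable {α : Type} [Primcodable α]

/-- the code of the pair numerator, denominator -/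
def raw (q : ℚ) : ℕ := Nat.pair (encode q.num) q.den

/-- codes of reduced fractions -/
def good (n : ℕ) : Bool :=
  decide (0 < n.unpair.2) && decide (Nat.gcd (Denumerable.ofNat ℤ n.unpair.1).natAbs n.unpair.2 = 1)

/-- the number of reduced fractions with a smaller code -/
def rank (x : ℕ) : ℕ := ((List.range x).map fun y => if good y then 1 else 0).sum

theorem good_raw (q : ℚ) : good (raw q) = true := by
  simp only [good, raw, Nat.unpair_pair, Bool.and_eq_true, decide_eq_true_eq]
  refine ⟨q.pos, ?_⟩
  have : Denumerable.ofNat ℤ (encode q.num) = q.num := Denumerable.ofNat_encode _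
  rw [this]
  exact q.reduced

theorem good_iff (n : ℕ) : good n = true ↔ n ∈ Set.range raw := by
  constructor
  · intro h
    simp only [good, Bool.and_eq_true, decide_eq_true_eq] at h
    refine ⟨⟨Denumerable.ofNat ℤ n.unpair.1, n.unpair.2, h.1.ne', h.2⟩, ?_⟩
    simp only [raw]
    have : encode (Denumerable.ofNat ℤ n.unpair.1) = n.unpair.1 := Denumerable.encode_ofNat _
    rw [this, Nat.pair_unpair]
  · rintro ⟨q, rfl⟩
    exact good_raw q

theorem rank_succ (x : ℕ) : rank (x + 1) = rank x + if good x then 1 else 0 := by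
  simp [rank, List.range_succ]

theorem rank_eq_countP (x : ℕ) : rank x = (List.range x).countP good := by
  induction x with
  | zero => simp [rank]
  | succ x ih =>
    rw [rank_succ, ih, List.range_succ, List.countP_append]
    by_cases h : good x = true <;> simp [h]

theorem encode_rat (q : ℚ) :
    @encode ℚ (Primcodable.ofDenumerable ℚ).toEncodable q = rank (raw q) := by
  rw [rank_eq_countP]
  have e : @encode ℚ (Primcodable.ofDenumerable ℚ).toEncodable q =
      (List.range (raw q)).countP (fun y => @decide (y ∈ Set.range (@encode ℚ Rat.instEncodable))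
        (@decidableRangeEncode ℚ Rat.instEncodable y)) := rfl
  rw [e]
  refine List.countP_congr fun y _ => ?_
  rw [good_iff]
  simp only [decide_eq_true_eq]
  rfl

theorem primrec_good : Primrec good := by
  have h : Primrec (fun n : ℕ => Denumerable.ofNat ℤ n.unpair.1) :=
    (Primrec.ofNat ℤ).comp (by fun_prop)
  unfold good
  fun_prop

theorem primrec_sum : Primrec (fun l : List ℕ => l.sum) := by
  have h := Primrec.list_foldr (f := fun l : List ℕ => l) (g := fun _ => 0)
    (h := fun _ (p : ℕ × ℕ) => p.1 + p.2) Primrec.id (Primrec.const _)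
    (show Primrec (fun x : List ℕ × ℕ × ℕ => x.2.1 + x.2.2) by fun_prop)
  exact h.of_eq fun l => by simp [List.sum_eq_foldr]

@[fun_prop] theorem p_sum {f : α → List ℕ} (hf : Primrec f) : Primrec (fun a => (f a).sum) :=
  primrec_sum.comp hf

theorem primrec_rank : Primrec rank := by
  have h := primrec_good
  unfold rank
  fun_prop

theorem rank_mono {x y : ℕ} (h : x ≤ y) : rank x ≤ rank y := by
  induction h with
  | refl => exact le_rfl
  | step _ ih => rw [rank_succ]; omega

theorem rank_lt {x y : ℕ} (hx : good x = true) (h : x < y) : rank x < rank y := by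
  have h1 : rank (x + 1) ≤ rank y := rank_mono h
  rw [rank_succ, if_pos hx] at h1
  omega

theorem good_pair_one (k : ℕ) : good (Nat.pair k 1) = true := by simp [good]

theorem le_rank_pair (k : ℕ) : k ≤ rank (Nat.pair k 1) := by
  induction k with
  | zero => exact Nat.zero_le _
  | succ k ih =>
    have := rank_lt (good_pair_one k) (Nat.pair_lt_pair_left 1 (Nat.lt_succ_self k))
    exact lt_of_le_of_lt ih this

theorem primrec_raw : Primrec raw := by
  have hg := primrec_good
  have hr := primrec_rank
  have he : Primrec (fun q : ℚ => rank (raw q)) :=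
    (Primrec.encode (α := ℚ)).of_eq fun q => encode_rat q
  refine Primrec.of_graph ⟨fun q => Nat.pair (rank (raw q) + 1) 1, by fun_prop, fun q => ?_⟩ ?_
  · show raw q ≤ Nat.pair (rank (raw q) + 1) 1
    by_contra hlt
    have h1 := rank_mono (le_of_lt (not_le.1 hlt))
    have h2 := le_rank_pair (rank (raw q) + 1)
    omega
  · have h : Primrec (fun p : ℚ × ℕ => good p.2 && decide (rank p.2 = rank (raw p.1))) := by
      have he' : Primrec (fun p : ℚ × ℕ => rank (raw p.1)) := he.comp Primrec.fst
      have h1 : Primrec (fun p : ℚ × ℕ => good p.2) := hg.comp Primrec.snd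
      have h2 : Primrec (fun p : ℚ × ℕ => rank p.2) := hr.comp Primrec.snd
      exact p_and h1 (p_dec_eq (f := fun p : ℚ × ℕ => rank p.2)
        (g := fun p : ℚ × ℕ => rank (raw p.1)) h2 he')
    refine Primrec₂.primrecRel (h.of_eq fun p => ?_)
    by_cases hp : raw p.1 = p.2
    · simp [← hp, good_raw]
    · simp only [hp, decide_false, Bool.and_eq_false_imp, decide_eq_false_iff_not]
      intro h1 h2
      rcases lt_or_gt_of_ne hp with h3 | h3
      · have := rank_lt (good_raw _) h3
        omega
      · have := rank_lt h1 h3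
        omega

@[fun_prop] theorem p_num {f : α → ℚ} (hf : Primrec f) : Primrec (fun a => (f a).num) := by
  have h := primrec_raw.comp hf
  have h2 : Primrec (fun a => Denumerable.ofNat ℤ (raw (f a)).unpair.1) :=
    (Primrec.ofNat ℤ).comp (p_fst (p_unpair h))
  refine h2.of_eq fun a => ?_
  simp only [raw, Nat.unpair_pair]
  exact Denumerable.ofNat_encode _

@[fun_prop] theorem p_den {f : α → ℚ} (hf : Primrec f) : Primrec (fun a => (f a).den) := by
  have h := primrec_raw.comp hf
  exact (p_snd (p_unpair h)).of_eq fun a => by simp [raw]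

@[fun_prop] theorem p_mkRat {f : α → ℤ} {g : α → ℕ} (hf : Primrec f) (hg : Primrec g) :
    Primrec (fun a => mkRat (f a) (g a)) := by
  have hn : Primrec (fun a => (mkRat (f a) (g a)).num) := by
    have h : Primrec (fun a => if g a = 0 then (0 : ℤ) else
        (f a).sign * (((f a).natAbs / Nat.gcd (g a) (f a).natAbs : ℕ) : ℤ)) := by fun_prop
    refine h.of_eq fun a => ?_
    rw [Rat.num_mkRat]
    split_ifs with h0
    · rfl
    · have hd : ((Nat.gcd (g a) (f a).natAbs : ℕ) : ℤ) ∣ f a := by
        rw [Int.natCast_dvd]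
        exact Nat.gcd_dvd_right _ _
      have hpos : 0 < Nat.gcd (g a) (f a).natAbs := Nat.gcd_pos_of_pos_left _ (Nat.pos_of_ne_zero h0)
      generalize Nat.gcd (g a) (f a).natAbs = d at hd hpos
      obtain ⟨c, hc⟩ := hd
      rw [hc, Int.mul_ediv_cancel_left _ (by omega), Int.natAbs_mul, Int.natAbs_natCast,
        Nat.mul_div_cancel_left _ hpos, Int.sign_mul, Int.sign_eq_one_of_pos (by omega), one_mul,
        Int.sign_mul_natAbs]
  have hd : Primrec (fun a => (mkRat (f a) (g a)).den) := by
    have h : Primrec (fun a => if g a = 0 then 1 else g a / Nat.gcd (g a) (f a).natAbs) := by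
      fun_prop
    exact h.of_eq fun a => by rw [Rat.den_mkRat]
  have hraw : Primrec (fun a => raw (mkRat (f a) (g a))) :=
    p_natPair (Primrec.encode.comp hn) hd
  refine Primrec.encode_iff.1 ((primrec_rank.comp hraw).of_eq fun a => ?_)
  exact (encode_rat _).symm

@[fun_prop] theorem p_intCast_rat {f : α → ℤ} (hf : Primrec f) :
    Primrec (fun a => ((f a : ℤ) : ℚ)) :=
  (p_mkRat hf (p_const 1)).of_eq fun a => by rw [Rat.mkRat_eq_div]; simp

@[fun_prop] theorem p_natCast_rat {f : α → ℕ} (hf : Primrec f) :
    Primrec (fun a => ((f a : ℕ) : ℚ)) :=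
  (p_intCast_rat (p_natCast_int hf)).of_eq fun a => by simp

@[fun_prop] theorem p_rat_add {f g : α → ℚ} (hf : Primrec f) (hg : Primrec g) :
    Primrec (fun a => f a + g a) := by
  have h : Primrec (fun a => mkRat ((f a).num * (g a).den + (g a).num * (f a).den)
      ((f a).den * (g a).den)) := by fun_prop
  exact h.of_eq fun a => by rw [Rat.add_def']

@[fun_prop] theorem p_rat_mul {f g : α → ℚ} (hf : Primrec f) (hg : Primrec g) :
    Primrec (fun a => f a * g a) := by
  have h : Primrec (fun a => mkRat ((f a).num * (g a).num) ((f a).den * (g a).den)) := by fun_prop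
  exact h.of_eq fun a => by rw [Rat.mul_def']

@[fun_prop] theorem p_rat_neg {f : α → ℚ} (hf : Primrec f) : Primrec (fun a => -f a) :=
  (p_rat_mul (p_const (-1)) hf).of_eq fun a => by ring

@[fun_prop] theorem p_rat_sub {f g : α → ℚ} (hf : Primrec f) (hg : Primrec g) :
    Primrec (fun a => f a - g a) :=
  (p_rat_add hf (p_rat_neg hg)).of_eq fun a => by ring

@[fun_prop] theorem p_rat_inv {f : α → ℚ} (hf : Primrec f) : Primrec (fun a => (f a)⁻¹) := by
  have h : Primrec (fun a => mkRat ((f a).num.sign * (f a).den) (f a).num.natAbs) := by fun_prop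
  refine h.of_eq fun a => ?_
  generalize f a = q
  rw [Rat.mkRat_eq_div]
  rcases eq_or_ne q 0 with h0 | h0
  · simp [h0]
  · have hn : q.num ≠ 0 := Rat.num_ne_zero.2 h0
    have hn' : ((q.num.natAbs : ℕ) : ℚ) ≠ 0 := by
      exact_mod_cast (Int.natAbs_ne_zero.2 hn)
    have h1 : ((q.num.sign : ℤ) : ℚ) * (q.num : ℚ) = (q.num.natAbs : ℚ) := by
      have := Int.sign_mul_self_eq_natAbs q.num
      rw [← Int.cast_mul, this, Int.cast_natCast]
    have h2 : q * (q.den : ℚ) = q.num := Rat.mul_den_eq_num q
    rw [div_eq_iff hn', eq_comm, inv_mul_eq_iff_eq_mul₀ h0, ← h1, ← h2]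
    push_cast
    ring

@[fun_prop] theorem p_rat_div {f g : α → ℚ} (hf : Primrec f) (hg : Primrec g) :
    Primrec (fun a => f a / g a) :=
  (p_rat_mul hf (p_rat_inv hg)).of_eq fun a => by rw [div_eq_mul_inv]

@[fun_prop] theorem p_rat_pow {f : α → ℚ} {g : α → ℕ} (hf : Primrec f) (hg : Primrec g) :
    Primrec (fun a => f a ^ g a) := by
  have h := Primrec.nat_rec' (f := g) (g := fun _ => (1 : ℚ))
    (h := fun a (p : ℕ × ℚ) => p.2 * f a) hg (Primrec.const _)
    (show Primrec (fun x : α × ℕ × ℚ => x.2.2 * f x.1) by fun_prop)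
  refine h.of_eq fun a => ?_
  induction g a with
  | zero => simp
  | succ n ih => simp only [ih, pow_succ]

end rat

section more

variable {α β σ : Type} [Primcodable α] [Primcodable β] [Primcodable σ]

@[fun_prop] theorem p_foldr {f : α → List β} {g : α → σ} {h : α → β → σ → σ}
    (hh : Primrec (fun p : α × β × σ => h p.1 p.2.1 p.2.2)) (hg : Primrec g) (hf : Primrec f) :
    Primrec (fun a => List.foldr (h a) (g a) (f a)) :=
  Primrec.list_foldr (h := fun a (p : β × σ) => h a p.1 p.2) hf hg hh

@[fun_prop] theorem p_foldl {f : α → List β} {g : α → σ} {h : α → σ → β → σ}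
    (hh : Primrec (fun p : α × σ × β => h p.1 p.2.1 p.2.2)) (hg : Primrec g) (hf : Primrec f) :
    Primrec (fun a => List.foldl (h a) (g a) (f a)) :=
  Primrec.list_foldl (h := fun a (p : σ × β) => h a p.1 p.2) hf hg hh

@[fun_prop] theorem p_some {f : α → β} (hf : Primrec f) : Primrec (fun a => some (f a)) :=
  Primrec.option_some.comp hf
@[fun_prop] theorem p_inl {f : α → β} (hf : Primrec f) :
    Primrec (fun a => (Sum.inl (f a) : β ⊕ σ)) := Primrec.sumInl.comp hf
@[fun_prop] theorem p_inr {f : α → σ} (hf : Primrec f) :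
    Primrec (fun a => (Sum.inr (f a) : β ⊕ σ)) := Primrec.sumInr.comp hf
@[fun_prop] theorem p_option_getD {f : α → Option β} {g : α → β} (hf : Primrec f) (hg : Primrec g) :
    Primrec (fun a => (f a).getD (g a)) := Primrec.option_getD.comp hf hg
@[fun_prop] theorem p_getElem? {f : α → List β} {g : α → ℕ} (hf : Primrec f) (hg : Primrec g) :
    Primrec (fun a => (f a)[g a]?) := Primrec.list_getElem?.comp hf hg
@[fun_prop] theorem p_flatten {f : α → List (List β)} (hf : Primrec f) :
    Primrec (fun a => (f a).flatten) := Primrec.list_flatten.comp hf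
@[fun_prop] theorem p_reverse {f : α → List β} (hf : Primrec f) :
    Primrec (fun a => (f a).reverse) := Primrec.list_reverse.comp hf
@[fun_prop] theorem p_fin_val {n : ℕ} {f : α → Fin n} (hf : Primrec f) :
    Primrec (fun a => ((f a : Fin n) : ℕ)) := Primrec.fin_val.comp hf

example : Primrec (fun p : ℕ × List ℕ × ℤ =>
    (p.2.1.foldr (fun (d : ℕ) (v : ℚ) => ((d : ℚ) + v) / (2 * p.1 : ℕ)) 0, (p.2.2 : ℚ) / 7 - 1 / 3)) := by
  fun_prop

end more

end P113G
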