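import Vale.Agent.P113.Compile
import Vale.Agent.P113.Code
import Vale.Agent.P113.Prim

/-! The bridge to machines on codes, and primitive recursiveness of the data of the shears. -/

namespace Vale.Agent.P113

open P113E P113G

theorem bridge_proof : BridgeStmt := fun M w => ⟨P113F.halts_iff M w, P113F.cDelta_bound M⟩

section

variable {α : Type} [Primcodable α]

@[fun_prop] theorem p_oOf {f g : α → ℕ} (hf : Primrec f) (hg : Primrec g) :
    Primrec (fun a => oOf (f a) (g a)) := by unfold oOf; fun_prop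

@[fun_prop] theorem p_cOf {f g : α → ℕ} (hf : Primrec f) (hg : Primrec g) :
    Primrec (fun a => cOf (f a) (g a)) := by unfold cOf; fun_prop

@[fun_prop] theorem p_dig {f g h : α → ℕ} (hf : Primrec f) (hg : Primrec g) (hh : Primrec h) :
    Primrec (fun a => dig (f a) (g a) (h a)) := by unfold dig; fun_prop

@[fun_prop] theorem p_nDig {f g : α → ℕ} (hf : Primrec f) (hg : Primrec g) :
    Primrec (fun a => nDig (f a) (g a)) := by unfold nDig; fun_prop

@[fun_prop] theorem p_base {f g : α → ℕ} (hf : Primrec f) (hg : Primrec g) :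
    Primrec (fun a => P113F.base (f a) (g a)) := by unfold P113F.base; fun_prop

@[fun_prop] theorem p_grid {f g : α → ℕ} (hf : Primrec f) (hg : Primrec g) :
    Primrec (fun a => P113F.grid (f a) (g a)) := by unfold P113F.grid; fun_prop

@[fun_prop] theorem p_src {f g h : α → ℕ} (hf : Primrec f) (hg : Primrec g) (hh : Primrec h) :
    Primrec (fun a => src (f a) (g a) (h a)) := by unfold src; fun_prop

theorem valQ_eq (B : ℕ) (l : List ℕ) :
    P113F.valQ B l = List.foldr (fun (d : ℕ) (r : ℚ) => ((d : ℚ) + r) / (B : ℚ)) 0 l := by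
  induction l with
  | nil => simp [P113F.valQ]
  | cons d l ih => rw [List.foldr_cons, ← ih]; simp [P113F.valQ]

@[fun_prop] theorem p_valQ {f : α → ℕ} {g : α → List ℕ} (hf : Primrec f) (hg : Primrec g) :
    Primrec (fun a => P113F.valQ (f a) (g a)) := by
  simp only [valQ_eq]
  fun_prop

@[fun_prop] theorem p_mvCode {f : α → ℕ} (hf : Primrec f) : Primrec (fun a => mvCode (f a)) := by
  unfold mvCode; fun_prop

@[fun_prop] theorem p_cDelta {c : α → MachineCode} {f g : α → ℕ} (hc : Primrec c) (hf : Primrec f)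
    (hg : Primrec g) : Primrec (fun a => cDelta (c a) (f a) (g a)) := by
  unfold cDelta; fun_prop

@[fun_prop] theorem p_cHalt {c : α → MachineCode} {f : α → ℕ} (hc : Primrec c) (hf : Primrec f) :
    Primrec (fun a => cHalt (c a) (f a)) := by
  unfold cHalt; fun_prop

@[fun_prop] theorem p_cGrid {c : α → MachineCode} (hc : Primrec c) :
    Primrec (fun a => cGrid (c a)) := by
  unfold cGrid; fun_prop

@[fun_prop] theorem p_ctl {c : α → MachineCode} {f g : α → ℕ} (hc : Primrec c) (hf : Primrec f)
    (hg : Primrec g) : Primrec (fun a => ctl (f a) (cDelta (c a)) (g a)) := by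
  unfold ctl; fun_prop

theorem p_dec_or {p q : α → Prop} {i1 : ∀ a, Decidable (p a)} {i2 : ∀ a, Decidable (q a)}
    {inst : ∀ a, Decidable (p a ∨ q a)}
    (hp : Primrec (fun a => @decide (p a) (i1 a))) (hq : Primrec (fun a => @decide (q a) (i2 a))) :
    Primrec (fun a => @decide (p a ∨ q a) (inst a)) :=
  (p_or hp hq).of_eq fun a => by by_cases h : p a <;> by_cases h' : q a <;> simp [h, h']

@[fun_prop] theorem p_ruleE {c : α → MachineCode} {f g h : α → ℕ} (hc : Primrec c) (hf : Primrec f)
    (hg : Primrec g) (hh : Primrec h) :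
    Primrec (fun a => ruleE (f a) (cDelta (c a)) (g a) (h a)) := by
  unfold ruleE
  refine p_ite (p_dec_or (i1 := fun _ => inferInstance) (i2 := fun _ => inferInstance) ?_ ?_) ?_ ?_
  all_goals fun_prop

@[fun_prop] theorem p_ruleS {c : α → MachineCode} {f g h : α → ℕ} (hc : Primrec c) (hf : Primrec f)
    (hg : Primrec g) (hh : Primrec h) :
    Primrec (fun a => ruleS (f a) (cDelta (c a)) (g a) (h a)) := by
  unfold ruleS
  refine p_ite (p_dec_or (i1 := fun _ => inferInstance) (i2 := fun _ => inferInstance) ?_ ?_) ?_ ?_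
  all_goals fun_prop

@[fun_prop] theorem p_rev {c : α → MachineCode} {f g : α → ℕ} (hc : Primrec c) (hf : Primrec f)
    (hg : Primrec g) : Primrec (fun a => rev (f a) (cDelta (c a)) (g a)) := by
  have h : Primrec (fun a => if oOf (f a) (g a) = 0 then (if cOf (f a) (g a) % 4 < 2 then 0 else 1)
      else (if (cDelta (c a) (cOf (f a) (g a) / 4) (oOf (f a) (g a) - 1)).2.2 ≤ 1 then
        (if (cDelta (c a) (cOf (f a) (g a) / 4) (oOf (f a) (g a) - 1)).2.2 = cOf (f a) (g a) % 2
          then 0 else 1) else 0)) := by fun_prop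
  refine h.of_eq fun a => ?_
  unfold rev
  split_ifs <;> first | rfl | omega

@[fun_prop] theorem p_cCoef {c : α → MachineCode} {k m n : α → ℕ} (hc : Primrec c) (hk : Primrec k)
    (hm : Primrec m) (hn : Primrec n) : Primrec (fun a => cCoef (c a) (k a) (m a) (n a)) := by
  have h1 : Primrec (fun a => P113F.coef1 (c a).1 ((c a).2.1 + 1) (cDelta (c a)) (cHalt (c a))
      (m a) (n a)) := by
    unfold P113F.coef1; fun_prop
  have h2 : Primrec (fun a => P113F.coef2 (c a).1 ((c a).2.1 + 1) (n a)) := by
    unfold P113F.coef2; fun_prop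
  have h3 : Primrec (fun a => P113F.coef3 (c a).1 ((c a).2.1 + 1) (cDelta (c a)) (m a)) := by
    unfold P113F.coef3; fun_prop
  have h4 : Primrec (fun a => P113F.coef4 (c a).1 ((c a).2.1 + 1) (cDelta (c a)) (n a)) := by
    unfold P113F.coef4; fun_prop
  have h5 : Primrec (fun a => P113F.coef5 (c a).1 ((c a).2.1 + 1) (cDelta (c a)) (m a)) := by
    unfold P113F.coef5; fun_prop
  unfold cCoef P113F.coef
  refine p_ite (by fun_prop) h1 (p_ite (by fun_prop) h2 (p_ite (by fun_prop) h3
    (p_ite (by fun_prop) h4 h5)))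

theorem p_load0 {n k q : α → ℕ} (hn : Primrec n) (hk : Primrec k) (hq : Primrec q) :
    Primrec (fun a => P113F.valQ (P113F.base (n a) (k a + 1)) [dig (k a + 1) (4 * q a + 1) 0]) :=
  p_valQ (by fun_prop) (p_cons (by fun_prop) (p_const _))

theorem p_load1 {n k : α → ℕ} {w : α → List ℕ} (hn : Primrec n) (hk : Primrec k) (hw : Primrec w) :
    Primrec (fun a => P113F.valQ (P113F.base (n a) (k a + 1)) (w a)) :=
  p_valQ (by fun_prop) hw

theorem primrec_loadQ (i : Fin 3) : Primrec (fun z => loadQ z i) := by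
  fin_cases i
  · exact p_load0 (α := MachineCode × List ℕ) (n := fun z => z.1.1) (k := fun z => z.1.2.1)
      (q := fun z => z.1.2.2.1) (p_fst Primrec.fst) (p_fst (p_snd Primrec.fst))
      (p_fst (p_snd (p_snd Primrec.fst)))
  · exact p_load1 (α := MachineCode × List ℕ) (n := fun z => z.1.1) (k := fun z => z.1.2.1)
      (w := fun z => z.2) (p_fst Primrec.fst) (p_fst (p_snd Primrec.fst)) Primrec.snd
  · exact Primrec.const 0

@[fun_prop] theorem p_loadQ {z : α → MachineCode × List ℕ} (hz : Primrec z) (i : Fin 3) :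
    Primrec (fun a => loadQ (z a) i) := (primrec_loadQ i).comp hz

theorem p_ratCode' {f : α → ℚ} (hf : Primrec f) : Primrec (fun a => ratCode (f a)) :=
  p_cons (p_num hf) (p_cons (p_natCast_int (p_den hf)) (p_const _))

theorem primrec_ratCode_loadQ (i : Fin 3) : Primrec (fun z => ratCode (144 * loadQ z i)) :=
  p_ratCode' (p_rat_mul (p_const _) (primrec_loadQ i))

end

end Vale.Agent.P113
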