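import Vale.Agent.P113.Defs
import Vale.Agent.P113.Glue
import Vale.Agent.P113.Stages

/-!
# P113: the force compiler, and the velocity field it is the force of
-/

namespace Vale.Agent.P113

open P113E P113F P113D

/-- `q ν^mν κ⁻³ P[ρ^(j)(12 t - (2k+1))] P[gu](x_{i+1}) P[gv](x_{i+2})`. -/
def pTerm (q : ℚ) (mν j k : ℕ) (i : Fin 3) (gu gv : Bump) : Term :=
  ⟨q, mν, -3, [], [], [Bump.der 0 j 12 (2 * k + 1)],
    fun l => if l = i + 1 then [gu] else if l = i + 2 then [gv] else []⟩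

/-- `s^e π₆(8 D s - (8 m - 1))`. -/
def cellB (e D m : ℕ) : Bump := Bump.plat e 6 (8 * D) (8 * m - 1)

/-- The second derivative of `cellB e D m` for `e ≤ 1`, divided by `D`. -/
def cellD2 (e D m : ℕ) : List (ℤ × Bump) :=
  [(16 * e, Bump.der 0 0 (8 * D) (8 * m - 1)), (-(16 * e), Bump.der 0 0 (8 * D) (8 * m + 5)),
    (64 * D, Bump.der e 1 (8 * D) (8 * m - 1)), (-(64 * D), Bump.der e 1 (8 * D) (8 * m + 5))]

/-- `(∂_t - ν Δ)` of `(12 z / D) κ⁻³ P[ρ(12 t - (2k+1))] P[cellB e D m](x_{i+1}) P[cellB e' D n](x_{i+2})`. -/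
def monoTerms (D k : ℕ) (i : Fin 3) (m n : ℕ) (z : ℤ) (e e' : ℕ) : List Term :=
  pTerm (((144 * z : ℤ) : ℚ) / D) 0 1 k i (cellB e D m) (cellB e' D n) ::
    (((cellD2 e D m).map fun p => pTerm ((-12 * z * p.1 : ℤ) : ℚ) 1 0 k i p.2 (cellB e' D n)) ++
      ((cellD2 e' D n).map fun p => pTerm ((-12 * z * p.1 : ℤ) : ℚ) 1 0 k i (cellB e D m) p.2))

def cellTerms (D : ℕ) (cf : ℕ → ℕ → ℕ → ℤ × ℤ × ℤ) (k : ℕ) (i : Fin 3) (m n : ℕ) : List Term :=
  monoTerms D k i m n (cf k m n).1 0 0 ++ monoTerms D k i m n (cf k m n).2.1 1 0 ++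
    monoTerms D k i m n (cf k m n).2.2 0 1

/-- The periodic terms of the `i`-th component of the force. -/
def perTerms (D : ℕ) (cf : ℕ → ℕ → ℕ → ℤ × ℤ × ℤ) (i : Fin 3) : List Term :=
  ([1, 2, 3, 4, 5].filter fun k => decide (axis k = i)).flatMap fun k =>
    (List.range D).flatMap fun m => (List.range D).flatMap fun n => cellTerms D cf k i m n

/-- `144 q κ⁻¹ ρ'(12 t - 1)`, the time derivative of the loading field. -/
def loadT (q : ℚ) : Term := ⟨144 * q, 0, -1, [], [Bump.der 0 1 12 1], [], fun _ => []⟩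

/-- Move codes: from `0 = left, 1 = stay, 2 = right` to `0 = left, 1 = right, 2 = stay`. -/
def mvCode (d : ℕ) : ℕ := if d = 0 then 0 else if d = 2 then 1 else 2

/-- The transition function read from a description. -/
def cDelta (c : MachineCode) : Delta := fun q a =>
  (((c.2.2.2.2.getD q []).getD a (0, 0, 0)).1, ((c.2.2.2.2.getD q []).getD a (0, 0, 0)).2.1,
    mvCode ((c.2.2.2.2.getD q []).getD a (0, 0, 0)).2.2)

/-- The halting flags read from a description. -/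
def cHalt (c : MachineCode) : ℕ → Bool := fun q => c.2.2.2.1.getD q false

def cGrid (c : MachineCode) : ℕ := grid c.1 (c.2.1 + 1)

def cCoef (c : MachineCode) : ℕ → ℕ → ℕ → ℤ × ℤ × ℤ := coef c.1 (c.2.1 + 1) (cDelta c) (cHalt c)

/-- The point reached by the loading stage. -/
def loadQ (z : MachineCode × List ℕ) : Fin 3 → ℚ :=
  ![valQ (base z.1.1 (z.1.2.1 + 1)) [dig (z.1.2.1 + 1) (4 * z.1.2.2.1 + 1) 0],
    valQ (base z.1.1 (z.1.2.1 + 1)) z.2, 0]

/-- The force compiler. -/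
def compile (z : MachineCode × List ℕ) (i : Fin 3) : List Term :=
  loadT (loadQ z i) :: perTerms (cGrid z.1) (cCoef z.1) i

/-- The velocity field. -/
noncomputable def vel (z : MachineCode × List ℕ) : ℝ → V → V :=
  velH (fun i => (loadQ z i : ℝ)) axis (look (cGrid z.1) (cCoef z.1))

/-- E1 (helper3, with helper4). -/
def CompileComputableStmt : Prop := Computable fun z i => (compile z i).map Term.code

/-- E2 (helper5). -/
def CompileRestStmt : Prop :=
  (∀ z i, ∀ τ ∈ compile z i, τ.Valid) ∧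
  (∀ z i, ∀ τ ∈ compile z i, τ.isPeriodic = false → ∀ ν t x, 1 ≤ t → τ.eval ν t x = 0) ∧
  ∀ c w w' i,
    (compile (c, w) i).filter Term.isPeriodic = (compile (c, w') i).filter Term.isPeriodic

/-- E3 (helper5). -/
def ForceStmt : Prop :=
  ∀ z ν t x i, force (compile z) ν t x i =
    deriv (fun s => vel z s x i) t - ν * ∑ j, dx j (dx j (comp (vel z) i)) t x

/-- E4 (helper6). -/
def VelSmoothStmt : Prop :=
  ∀ z, ContDiff ℝ (⊤ : ℕ∞) (fun y : ℝ × V => vel z y.1 y.2) ∧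
    ∀ t x j, vel z t (x + Pi.single j 1) = vel z t x

/-- E5 (helper4). -/
def BridgeStmt : Prop :=
  ∀ (M : Machine) (w : List (Fin (M.k + 1))),
    (M.Halts w ↔ Hits (cDelta M.code) (cHalt M.code) M.start (w.map Fin.val)) ∧
    ∀ q < M.n, ∀ a < M.k + 1, (cDelta M.code q a).1 < M.n ∧ (cDelta M.code q a).2.1 < M.k + 1

end Vale.Agent.P113
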