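import Vale.Agent.P113.CoefPrim

set_option linter.all false

/-! The force compiler is primitive recursive. -/

namespace Vale.Agent.P113

open P113E P113F P113G

section

variable {α : Type} [Primcodable α]

attribute [fun_prop] p_ratCode'

theorem p_der_code {k j : α → ℕ} {a b : α → ℚ} (hk : Primrec k) (hj : Primrec j) (ha : Primrec a)
    (hb : Primrec b) : Primrec fun x => (Bump.der (k x) (j x) (a x) (b x)).code := by
  simp only [Bump.code]; fun_prop

theorem p_plat_code {k : α → ℕ} {l a b : α → ℚ} (hk : Primrec k) (hl : Primrec l) (ha : Primrec a)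
    (hb : Primrec b) : Primrec fun x => (Bump.plat (k x) (l x) (a x) (b x)).code := by
  simp only [Bump.code]; fun_prop

theorem p_cellB_code (e : ℕ) {D m : α → ℕ} (hD : Primrec D) (hm : Primrec m) :
    Primrec fun x => (cellB e (D x) (m x)).code :=
  p_plat_code (p_const _) (p_const _) (by fun_prop) (by fun_prop)

theorem p_pTerm_code (mν j : ℕ) (i : Fin 3) {q : α → ℚ} {k : α → ℕ} {gu gv : α → Bump}
    (hq : Primrec q) (hk : Primrec k) (hu : Primrec fun x => (gu x).code)
    (hv : Primrec fun x => (gv x).code) :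
    Primrec fun x => (pTerm (q x) mν j (k x) i (gu x) (gv x)).code := by
  have hp : Primrec fun x => (Bump.der 0 j 12 (2 * (k x : ℚ) + 1)).code :=
    p_der_code (p_const _) (p_const _) (p_const _) (by fun_prop)
  have hh : ∀ l : Fin 3, Primrec fun x =>
      (if l = i + 1 then [gu x] else if l = i + 2 then [gv x] else []).map Bump.code := by
    intro l
    split_ifs
    · exact p_cons hu (p_const _)
    · exact p_cons hv (p_const _)
    · exact p_const _
  have key : Primrec fun x => ([[ratCode (q x), [(mν : ℤ), -3]], [], [],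
      [(Bump.der 0 j 12 (2 * (k x : ℚ) + 1)).code],
      (if (0 : Fin 3) = i + 1 then [gu x] else if (0 : Fin 3) = i + 2 then [gv x] else []).map
        Bump.code,
      (if (1 : Fin 3) = i + 1 then [gu x] else if (1 : Fin 3) = i + 2 then [gv x] else []).map
        Bump.code,
      (if (2 : Fin 3) = i + 1 then [gu x] else if (2 : Fin 3) = i + 2 then [gv x] else []).map
        Bump.code] : List (List (List ℤ))) :=
    p_cons (p_cons (p_ratCode' hq) (p_const _)) (p_cons (p_const _) (p_cons (p_const _)
      (p_cons (p_cons hp (p_const _)) (p_cons (hh 0) (p_cons (hh 1) (p_cons (hh 2) (p_const _)))))))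
  exact key.of_eq fun x => rfl

theorem p_monoTerms_code (i : Fin 3) (e e' : ℕ) {D k m n : α → ℕ} {z : α → ℤ} (hD : Primrec D)
    (hk : Primrec k) (hm : Primrec m) (hn : Primrec n) (hz : Primrec z) :
    Primrec fun x => (monoTerms (D x) (k x) i (m x) (n x) (z x) e e').map Term.code := by
  have h1 := p_cellB_code e hD hm
  have h2 := p_cellB_code e' hD hn
  have hd : ∀ (a b : ℕ) (c : ℚ) {m : α → ℕ}, Primrec m →
      Primrec fun x => (Bump.der a b (8 * (D x : ℚ)) (8 * (m x : ℚ) - c)).code :=
    fun a b c m hm => p_der_code (p_const _) (p_const _) (by fun_prop) (by fun_prop)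
  have hd' : ∀ (a b : ℕ) (c : ℚ) {m : α → ℕ}, Primrec m →
      Primrec fun x => (Bump.der a b (8 * (D x : ℚ)) (8 * (m x : ℚ) + c)).code :=
    fun a b c m hm => p_der_code (p_const _) (p_const _) (by fun_prop) (by fun_prop)
  simp only [monoTerms, cellD2, List.map_cons, List.map_nil, List.map_append, List.cons_append,
    List.nil_append]
  refine p_cons (p_pTerm_code _ _ _ (by fun_prop) hk h1 h2) ?_
  refine p_cons (p_pTerm_code _ _ _ (by fun_prop) hk (hd _ _ _ hm) h2) ?_
  refine p_cons (p_pTerm_code _ _ _ (by fun_prop) hk (hd' _ _ _ hm) h2) ?_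
  refine p_cons (p_pTerm_code _ _ _ (by fun_prop) hk (hd _ _ _ hm) h2) ?_
  refine p_cons (p_pTerm_code _ _ _ (by fun_prop) hk (hd' _ _ _ hm) h2) ?_
  refine p_cons (p_pTerm_code _ _ _ (by fun_prop) hk h1 (hd _ _ _ hn)) ?_
  refine p_cons (p_pTerm_code _ _ _ (by fun_prop) hk h1 (hd' _ _ _ hn)) ?_
  refine p_cons (p_pTerm_code _ _ _ (by fun_prop) hk h1 (hd _ _ _ hn)) ?_
  exact p_cons (p_pTerm_code _ _ _ (by fun_prop) hk h1 (hd' _ _ _ hn)) (p_const _)

theorem p_cellTerms_code (i : Fin 3) {c : α → MachineCode} {k m n : α → ℕ} (hc : Primrec c)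
    (hk : Primrec k) (hm : Primrec m) (hn : Primrec n) :
    Primrec fun x =>
      (cellTerms (cGrid (c x)) (cCoef (c x)) (k x) i (m x) (n x)).map Term.code := by
  have hD := p_cGrid hc
  have hz := p_cCoef hc hk hm hn
  simp only [cellTerms, List.map_append]
  exact p_append (p_append (p_monoTerms_code i 0 0 hD hk hm hn (p_fst hz))
    (p_monoTerms_code i 1 0 hD hk hm hn (p_fst (p_snd hz))))
    (p_monoTerms_code i 0 1 hD hk hm hn (p_snd (p_snd hz)))

end

theorem primrec_perTerms_code (i : Fin 3) :
    Primrec fun c : MachineCode => (perTerms (cGrid c) (cCoef c) i).map Term.code := by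
  simp only [perTerms, List.map_flatMap]
  refine p_flatMap (g := fun (c : MachineCode) (k : ℕ) => (List.range (cGrid c)).flatMap fun m =>
    (List.range (cGrid c)).flatMap fun n => (cellTerms (cGrid c) (cCoef c) k i m n).map Term.code)
    ?_ (p_const _)
  refine p_flatMap (g := fun (p : MachineCode × ℕ) (m : ℕ) =>
    (List.range (cGrid p.1)).flatMap fun n =>
      (cellTerms (cGrid p.1) (cCoef p.1) p.2 i m n).map Term.code) ?_
    (p_range (p_cGrid Primrec.fst))
  refine p_flatMap (g := fun (p : (MachineCode × ℕ) × ℕ) (n : ℕ) =>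
      (cellTerms (cGrid p.1.1) (cCoef p.1.1) p.1.2 i p.2 n).map Term.code) ?_
    (p_range (p_cGrid (p_fst Primrec.fst)))
  exact p_cellTerms_code i (p_fst (p_fst Primrec.fst)) (p_snd (p_fst Primrec.fst))
    (p_snd Primrec.fst) Primrec.snd

theorem primrec_compile_code (i : Fin 3) : Primrec fun z => (compile z i).map Term.code := by
  simp only [compile, List.map_cons]
  have h1 : Primrec fun z : MachineCode × List ℕ =>
      (perTerms (cGrid z.1) (cCoef z.1) i).map Term.code :=
    Primrec.comp (f := fun c : MachineCode => (perTerms (cGrid c) (cCoef c) i).map Term.code)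
      (g := Prod.fst) (primrec_perTerms_code i) Primrec.fst
  have h2 : Primrec fun z : MachineCode × List ℕ =>
      ([ratCode (144 * loadQ z i), [0, -1]] :: (loadT 0).code.tail : List (List (List ℤ))) :=
    p_cons (p_cons (primrec_ratCode_loadQ i) (p_const _)) (p_const _)
  have h3 : Primrec fun z : MachineCode × List ℕ => (loadT (loadQ z i)).code :=
    h2.of_eq fun z => rfl
  exact p_cons h3 h1

theorem compileComputable_proof : CompileComputableStmt := by
  have h : Primrec₂ fun (i : Fin 3) z => (compile z i).map Term.code :=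
    Primrec.fin_curry₁.2 primrec_compile_code
  exact (Primrec.fin_curry.2 h.swap).to_comp

end Vale.Agent.P113
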