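import Mathlib.Analysis.Calculus.LineDeriv.Basic
import Mathlib.Analysis.Calculus.IteratedDeriv.Defs
import Mathlib.Analysis.SpecialFunctions.Log.Basic
import Mathlib.MeasureTheory.Integral.Bochner.Set
import Mathlib.MeasureTheory.Measure.Lebesgue.Basic
import Mathlib.Computability.Partrec

/-!
# P113: definitions used in the statement

Functions on the torus `T³ = (ℝ/ℤ)³` are functions on `ℝ³` of period 1 in each coordinate, and a
trajectory on the torus is given by its lift to `ℝ³`.
-/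

open Set

namespace Vale.Agent.P113

noncomputable section

/-- Points of `ℝ³`. -/
abbrev V : Type := Fin 3 → ℝ

/-! ### Admissible functions -/

/-- `ρ(s) = exp(-1/(1-s²))` for `|s| < 1`, and `0` otherwise. -/
def rho (s : ℝ) : ℝ := if |s| < 1 then Real.exp (-1 / (1 - s ^ 2)) else 0

/-- `κ = ∫ ρ`. -/
def kappa : ℝ := ∫ s, rho s

/-- `σ(s) = ∫_{-∞}^s ρ`. -/
def sigma (s : ℝ) : ℝ := ∫ r in Iic s, rho r

/-- `π_ℓ(s) = σ(s) - σ(s - ℓ)`. -/
def plateau (l s : ℝ) : ℝ := sigma s - sigma (s - l)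

/-- The data of a bump: `s ↦ s^k ρ^(j)(a s - b)` or `s ↦ s^k π_ℓ(a s - b)`. -/
inductive Bump
  | der (k j : ℕ) (a b : ℚ)
  | plat (k : ℕ) (l a b : ℚ)

/-- The side conditions `a ≠ 0` and `ℓ > 0`. -/
def Bump.Valid : Bump → Prop
  | .der _ _ a _ => a ≠ 0
  | .plat _ l a _ => a ≠ 0 ∧ 0 < l

/-- The function given by a bump. -/
def Bump.fn : Bump → ℝ → ℝ
  | .der k j a b, s => s ^ k * iteratedDeriv j rho (a * s - b)
  | .plat k l a b, s => s ^ k * plateau l (a * s - b)

/-- The `1`-periodization `P[g](y) = ∑_{m ∈ ℤ} g(y + m)`. -/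
def per (g : ℝ → ℝ) (y : ℝ) : ℝ := ∑' m : ℤ, g (y + m)

/-- The data of a term `c θ(t) h₁(x₁) h₂(x₂) h₃(x₃)`, `c = q ν^m κ^n ∏ ln rᵢ`: `θ` is the product of
the factors `g(t)`, `g` in the list `g`, and `P[g](t)`, `g` in the list `pg`; `hᵢ` is the product of
the `P[g]`, `g` in the list `h i`. Empty products are `1`. -/
structure Term where
  q : ℚ
  m : ℕ
  n : ℤ
  r : List ℚ
  g : List Bump
  pg : List Bump
  h : Fin 3 → List Bump

/-- All `rᵢ` are positive and all bumps satisfy their side conditions. -/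
def Term.Valid (τ : Term) : Prop :=
  (∀ r ∈ τ.r, 0 < r) ∧ (∀ b ∈ τ.g, b.Valid) ∧ (∀ b ∈ τ.pg, b.Valid) ∧ ∀ i, ∀ b ∈ τ.h i, b.Valid

/-- The value of a term at viscosity `ν`, time `t` and point `x`. -/
def Term.eval (τ : Term) (ν t : ℝ) (x : V) : ℝ :=
  (τ.q * ν ^ τ.m * kappa ^ τ.n * (τ.r.map fun r : ℚ => Real.log r).prod) *
    ((τ.g.map fun b => b.fn t).prod * (τ.pg.map fun b => per b.fn t).prod) *
    ∏ i, ((τ.h i).map fun b => per b.fn (x i)).prod

/-- A term is periodic if `θ` is `1` or a product of periodizations only. -/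
def Term.isPeriodic (τ : Term) : Bool := τ.g.isEmpty

/-- The force whose `i`-th component is the sum of the terms in the list `L i`. -/
def force (L : Fin 3 → List Term) (ν t : ℝ) (x : V) : V :=
  fun i => ((L i).map fun τ => τ.eval ν t x).sum

/-! ### Machines -/

/-- A deterministic one-tape Turing machine: states `Fin n`, symbols `Fin (k+1)` with blank `0`;
`δ q a = (q', a', d)`: write `a'`, move the head by `d - 1 ∈ {-1, 0, 1}`, go to state `q'`. -/
structure Machine where
  n : ℕ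
  k : ℕ
  start : Fin n
  halting : Fin n → Bool
  δ : Fin n → Fin (k + 1) → Fin n × Fin (k + 1) × Fin 3

/-- One step on configurations (state, head position, two-sided tape). -/
def Machine.step (M : Machine) (c : Fin M.n × ℤ × (ℤ → Fin (M.k + 1))) :
    Fin M.n × ℤ × (ℤ → Fin (M.k + 1)) :=
  ((M.δ c.1 (c.2.2 c.2.1)).1, c.2.1 + ((M.δ c.1 (c.2.2 c.2.1)).2.2 : ℕ) - 1,
    Function.update c.2.2 c.2.1 (M.δ c.1 (c.2.2 c.2.1)).2.1)

/-- The initial configuration: `w` on cells `0, 1, …`, blanks elsewhere, head at cell `0`. -/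
def Machine.init (M : Machine) (w : List (Fin (M.k + 1))) : Fin M.n × ℤ × (ℤ → Fin (M.k + 1)) :=
  (M.start, 0, fun i => if 0 ≤ i then w.getD i.toNat 0 else 0)

/-- `M` reaches a halting state on input `w` after finitely many steps, possibly none. -/
def Machine.Halts (M : Machine) (w : List (Fin (M.k + 1))) : Prop :=
  ∃ s : ℕ, M.halting (M.step^[s] (M.init w)).1 = true

/-! ### Force compilers -/

/-- Finite descriptions of machines. -/
abbrev MachineCode : Type := ℕ × ℕ × ℕ × List Bool × List (List (ℕ × ℕ × ℕ))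

/-- The description of `M`: `n`, `k`, the start state, the list of halting flags, the table. -/
def Machine.code (M : Machine) : MachineCode :=
  (M.n, M.k, M.start, List.ofFn M.halting,
    List.ofFn fun q => List.ofFn fun a => ((M.δ q a).1, (M.δ q a).2.1, (M.δ q a).2.2))

/-- A rational number written as the list (numerator, denominator). -/
def ratCode (q : ℚ) : List ℤ := [q.num, q.den]

/-- The integers and rationals of a bump, after a tag `0` or `1` for its kind. -/
def Bump.code : Bump → List ℤ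
  | .der k j a b => [0, (k : ℤ), (j : ℤ)] ++ ratCode a ++ ratCode b
  | .plat k l a b => [1, (k : ℤ)] ++ ratCode l ++ ratCode a ++ ratCode b

/-- The integers and rationals of a term. -/
def Term.code (τ : Term) : List (List (List ℤ)) :=
  [[ratCode τ.q, [(τ.m : ℤ), τ.n]], τ.r.map ratCode, τ.g.map Bump.code, τ.pg.map Bump.code,
    (τ.h 0).map Bump.code, (τ.h 1).map Bump.code, (τ.h 2).map Bump.code]

/-- `C` is a force compiler: a computable function which maps every pair (description of a machine,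
word) to three finite lists of valid terms; the terms which are not periodic vanish for `t ≥ T₀`,
and the lists of periodic terms do not depend on the word. -/
structure IsForceCompiler (C : MachineCode × List ℕ → Fin 3 → List Term) : Prop where
  computable : Computable fun z i => (C z i).map Term.code
  valid : ∀ z i, ∀ τ ∈ C z i, τ.Valid
  vanish : ∃ T₀ : ℝ, ∀ z i, ∀ τ ∈ C z i, τ.isPeriodic = false →
    ∀ ν t x, T₀ ≤ t → τ.eval ν t x = 0
  periodic_part : ∀ c w w' i,
    (C (c, w) i).filter Term.isPeriodic = (C (c, w') i).filter Term.isPeriodic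

/-! ### Navier-Stokes on the torus -/

/-- The spatial derivative `∂_j g`. -/
def dx (j : Fin 3) (g : ℝ → V → ℝ) (t : ℝ) (x : V) : ℝ := lineDeriv ℝ (g t) x (Pi.single j 1)

/-- The time derivative `∂_t g` on `[0, T]` (one-sided at the end points). -/
def dt (T : ℝ) (g : ℝ → V → ℝ) (t : ℝ) (x : V) : ℝ := derivWithin (fun s => g s x) (Icc 0 T) t

/-- `g` is continuous on `[0, T] × ℝ³`. -/
def Cont (T : ℝ) (g : ℝ → V → ℝ) : Prop :=
  ContinuousOn (fun z : ℝ × V => g z.1 z.2) (Icc 0 T ×ˢ univ)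

/-- All `∂_j g` exist and are continuous on `[0, T] × ℝ³`. -/
def ContDx (T : ℝ) (g : ℝ → V → ℝ) : Prop :=
  ∀ j, (∀ t ∈ Icc 0 T, ∀ x, LineDifferentiableAt ℝ (g t) x (Pi.single j 1)) ∧ Cont T (dx j g)

/-- `∂_t g` exists and is continuous on `[0, T] × ℝ³`. -/
def ContDt (T : ℝ) (g : ℝ → V → ℝ) : Prop :=
  (∀ t ∈ Icc 0 T, ∀ x, DifferentiableWithinAt ℝ (fun s => g s x) (Icc 0 T) t) ∧ Cont T (dt T g)

/-- The `i`-th component of a vector field. -/
def comp (u : ℝ → V → V) (i : Fin 3) (t : ℝ) (x : V) : ℝ := u t x i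

/-- `(u, p)` is a classical solution on `[0, T] × T³` of the Navier-Stokes system with viscosity
`ν`, force `f` and zero initial velocity. -/
structure IsClassical (ν : ℝ) (f : ℝ → V → V) (T : ℝ) (u : ℝ → V → V) (p : ℝ → V → ℝ) : Prop where
  periodic_u : ∀ t ∈ Icc 0 T, ∀ x j, u t (x + Pi.single j 1) = u t x
  periodic_p : ∀ t ∈ Icc 0 T, ∀ x j, p t (x + Pi.single j 1) = p t x
  cont_u : ∀ i, Cont T (comp u i)
  cont_ut : ∀ i, ContDt T (comp u i)
  cont_ux : ∀ i, ContDx T (comp u i)
  cont_uxx : ∀ i j, ContDx T (dx j (comp u i))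
  cont_p : Cont T p
  cont_px : ContDx T p
  mean_p : ∀ t ∈ Icc 0 T, ∫ x in Icc (0 : V) 1, p t x = 0
  momentum : ∀ t ∈ Icc 0 T, ∀ x i,
    dt T (comp u i) t x + ∑ j, u t x j * dx j (comp u i) t x =
      -dx i p t x + ν * ∑ j, dx j (dx j (comp u i)) t x + f t x i
  div_free : ∀ t ∈ Icc 0 T, ∀ x, ∑ i, dx i (comp u i) t x = 0
  initial : ∀ x, u 0 x = 0

/-- `X` is (the lift of) a trajectory of `a`: `X(0) = a` and `X'(t) = u(t, X(t))` for `t ≥ 0`. -/
def IsTrajectory (u : ℝ → V → V) (a : V) (X : ℝ → V) : Prop :=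
  X 0 = a ∧ ∀ t, 0 ≤ t → HasDerivWithinAt X (u t (X t)) (Ici 0) t

/-- The points of `ℝ³` whose class in the torus lies in the image of the open box with corners
`lo` and `hi`. -/
def boxImage (lo hi : Fin 3 → ℚ) : Set V :=
  {x | ∃ m : Fin 3 → ℤ, ∀ i, (lo i : ℝ) < x i + m i ∧ x i + m i < (hi i : ℝ)}

end

end Vale.Agent.P113
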