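import Vale.Agent.P113.Glue
import Vale.Agent.P113.Defs

/-!
The time derivative and the Laplacian of the explicit velocity field.
-/

namespace P113D

open Set P113S P113B
open Vale.Agent.P113 (V dx comp)

theorem dx_two {g : ℝ → V → ℝ} {t : ℝ} {i : Fin 3} {F F1 F2 : ℝ → ℝ → ℝ}
    (hg : ∀ x, g t x = F (x (i + 1)) (x (i + 2)))
    (h1 : ∀ u v, HasDerivAt (fun s => F s v) (F1 u v) u)
    (h2 : ∀ u v, HasDerivAt (fun s => F u s) (F2 u v) v) (x : V) :
    dx i g t x = 0 ∧ dx (i + 1) g t x = F1 (x (i + 1)) (x (i + 2)) ∧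
      dx (i + 2) g t x = F2 (x (i + 1)) (x (i + 2)) := by
  refine ⟨?_, ?_, ?_⟩
  · unfold dx lineDeriv
    simp [hg]
  · unfold dx lineDeriv
    have : (fun s : ℝ => g t (x + s • (Pi.single (i + 1) (1 : ℝ) : V))) =
        fun s => F (x (i + 1) + s) (x (i + 2)) := by
      funext s; simp [hg]
    rw [this]
    have h := h1 (x (i + 1) + 0) (x (i + 2))
    simpa using (h.comp_const_add (x (i + 1)) 0).deriv
  · unfold dx lineDeriv
    have : (fun s : ℝ => g t (x + s • (Pi.single (i + 2) (1 : ℝ) : V))) =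
        fun s => F (x (i + 1)) (x (i + 2) + s) := by
      funext s; simp [hg]
    rw [this]
    have h := h2 (x (i + 1)) (x (i + 2) + 0)
    simpa using (h.comp_const_add (x (i + 2)) 0).deriv

/-- The Laplacian of a function of the two coordinates other than `i`. -/
theorem lap_two {g : ℝ → V → ℝ} {t : ℝ} {i : Fin 3} {F F1 F2 F11 F12 F21 F22 : ℝ → ℝ → ℝ}
    (hg : ∀ x, g t x = F (x (i + 1)) (x (i + 2)))
    (h1 : ∀ u v, HasDerivAt (fun s => F s v) (F1 u v) u)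
    (h2 : ∀ u v, HasDerivAt (fun s => F u s) (F2 u v) v)
    (h11 : ∀ u v, HasDerivAt (fun s => F1 s v) (F11 u v) u)
    (h12 : ∀ u v, HasDerivAt (fun s => F1 u s) (F12 u v) v)
    (h21 : ∀ u v, HasDerivAt (fun s => F2 s v) (F21 u v) u)
    (h22 : ∀ u v, HasDerivAt (fun s => F2 u s) (F22 u v) v) (x : V) :
    ∑ j, dx j (dx j g) t x = F11 (x (i + 1)) (x (i + 2)) + F22 (x (i + 1)) (x (i + 2)) := by
  have a0 : dx i (dx i g) t x = 0 :=
    (dx_two (g := dx i g) (F := fun _ _ => 0) (F1 := fun _ _ => 0) (F2 := fun _ _ => 0)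
      (fun y => (dx_two hg h1 h2 y).1) (fun _ _ => hasDerivAt_const _ _)
      (fun _ _ => hasDerivAt_const _ _) x).1
  have a1 := (dx_two (g := dx (i + 1) g) (fun y => (dx_two hg h1 h2 y).2.1) h11 h12 x).2.1
  have a2 := (dx_two (g := dx (i + 2) g) (fun y => (dx_two hg h1 h2 y).2.2) h21 h22 x).2.2
  rw [← a1, ← a2, ← zero_add (dx (i + 1) (dx (i + 1) g) t x), ← a0, Fin.sum_univ_three]
  fin_cases i
  · rfl
  · show _ = dx 1 (dx 1 g) t x + dx 2 (dx 2 g) t x + dx 0 (dx 0 g) t x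
    ring
  · show _ = dx 2 (dx 2 g) t x + dx 0 (dx 0 g) t x + dx 1 (dx 1 g) t x
    ring

/-- A double sum of products of one-variable functions. -/
noncomputable def gen (D : ℕ) (al be ga : ℕ → ℕ → ℝ) (A B A2 B2 : ℕ → ℝ → ℝ) (u v : ℝ) : ℝ :=
  ∑ m ∈ Finset.range D, ∑ n ∈ Finset.range D,
    (al m n * (A m u * A2 n v) + be m n * (B m u * A2 n v) + ga m n * (A m u * B2 n v))

theorem gen_fst (D : ℕ) (al be ga : ℕ → ℕ → ℝ) {A B A' B' : ℕ → ℝ → ℝ} (A2 B2 : ℕ → ℝ → ℝ)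
    (hA : ∀ m s, HasDerivAt (A m) (A' m s) s) (hB : ∀ m s, HasDerivAt (B m) (B' m s) s)
    (u v : ℝ) :
    HasDerivAt (fun s => gen D al be ga A B A2 B2 s v) (gen D al be ga A' B' A2 B2 u v) u := by
  unfold gen
  refine HasDerivAt.fun_sum fun m _ => HasDerivAt.fun_sum fun n _ => ?_
  exact ((((hA m u).mul_const _).const_mul _).fun_add
    (((hB m u).mul_const _).const_mul _)).fun_add (((hA m u).mul_const _).const_mul _)

theorem gen_snd (D : ℕ) (al be ga : ℕ → ℕ → ℝ) (A B : ℕ → ℝ → ℝ) {A2 B2 A2' B2' : ℕ → ℝ → ℝ}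
    (hA : ∀ m s, HasDerivAt (A2 m) (A2' m s) s) (hB : ∀ m s, HasDerivAt (B2 m) (B2' m s) s)
    (u v : ℝ) :
    HasDerivAt (fun s => gen D al be ga A B A2 B2 u s) (gen D al be ga A B A2' B2' u v) v := by
  unfold gen
  refine HasDerivAt.fun_sum fun m _ => HasDerivAt.fun_sum fun n _ => ?_
  exact ((((hA n v).const_mul _).const_mul _).fun_add
    (((hA n v).const_mul _).const_mul _)).fun_add (((hB n v).const_mul _).const_mul _)

/-- The periodized plateau of the cell `m`, with weight `s ^ e`. -/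
noncomputable def cP (D e m : ℕ) : ℝ → ℝ := per (bumpP e 6 (8 * D) (8 * m - 1))

/-- The periodized bump at the left edge of the cell `m`. -/
noncomputable def cL (D e j m : ℕ) : ℝ → ℝ := per (bumpR e j (8 * D) (8 * m - 1))

/-- The periodized bump at the right edge of the cell `m`. -/
noncomputable def cR (D e j m : ℕ) : ℝ → ℝ := per (bumpR e j (8 * D) (8 * m + 5))

noncomputable def dA (D m : ℕ) (s : ℝ) : ℝ := 8 * D * (cL D 0 0 m s - cR D 0 0 m s)
noncomputable def ddA (D m : ℕ) (s : ℝ) : ℝ := 64 * D ^ 2 * (cL D 0 1 m s - cR D 0 1 m s)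
noncomputable def dB (D m : ℕ) (s : ℝ) : ℝ := cP D 0 m s + 8 * D * (cL D 1 0 m s - cR D 1 0 m s)
noncomputable def ddB (D m : ℕ) (s : ℝ) : ℝ :=
  16 * D * (cL D 0 0 m s - cR D 0 0 m s) + 64 * D ^ 2 * (cL D 1 1 m s - cR D 1 1 m s)

section
variable {D : ℕ} (hD : 0 < D)
include hD

theorem a_ne : (8 * (D : ℝ)) ≠ 0 := by positivity

theorem cP_deriv (e m : ℕ) (s : ℝ) : HasDerivAt (cP D e m)
    (e * cP D (e - 1) m s + 8 * D * (cL D e 0 m s - cR D e 0 m s)) s := by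
  have h := per_bumpP_hasDerivAt e 6 (a_ne hD) (8 * m - 1) s
  rw [show (8 * (m : ℝ) - 1 + 6) = 8 * m + 5 by ring] at h
  exact h.congr_deriv (by unfold cP cL cR; ring)

theorem cL_deriv (e j m : ℕ) (s : ℝ) : HasDerivAt (cL D e j m)
    (e * cL D (e - 1) j m s + 8 * D * cL D e (j + 1) m s) s :=
  per_bumpR_hasDerivAt e j (a_ne hD) _ s

theorem cR_deriv (e j m : ℕ) (s : ℝ) : HasDerivAt (cR D e j m)
    (e * cR D (e - 1) j m s + 8 * D * cR D e (j + 1) m s) s :=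
  per_bumpR_hasDerivAt e j (a_ne hD) _ s

theorem dA_spec (m : ℕ) (s : ℝ) : HasDerivAt (cP D 0 m) (dA D m s) s :=
  (cP_deriv hD 0 m s).congr_deriv (by unfold dA; simp)

theorem dB_spec (m : ℕ) (s : ℝ) : HasDerivAt (cP D 1 m) (dB D m s) s :=
  (cP_deriv hD 1 m s).congr_deriv (by unfold dB; simp)

theorem ddA_spec (m : ℕ) (s : ℝ) : HasDerivAt (dA D m) (ddA D m s) s := by
  have h := ((cL_deriv hD 0 0 m s).fun_sub (cR_deriv hD 0 0 m s)).const_mul (8 * (D : ℝ))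
  exact h.congr_deriv (by unfold ddA; simp; ring)

theorem ddB_spec (m : ℕ) (s : ℝ) : HasDerivAt (dB D m) (ddB D m s) s := by
  have h := (dA_spec hD m s).fun_add
    (((cL_deriv hD 1 0 m s).fun_sub (cR_deriv hD 1 0 m s)).const_mul (8 * (D : ℝ)))
  exact h.congr_deriv (by unfold ddB dA; simp; ring)

end

theorem gridFun_eq_gen (D : ℕ) (al be ga : ℕ → ℕ → ℝ) :
    gridFun D al be ga = gen D al be ga (cP D 0) (cP D 1) (cP D 0) (cP D 1) := rfl

/-- `gen` with the coefficients of stage `k`. -/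
noncomputable def genK (D : ℕ) (coef : ℕ → ℕ → ℕ → ℤ × ℤ × ℤ) (k : ℕ) (A B A2 B2 : ℕ → ℝ → ℝ)
    (u v : ℝ) : ℝ :=
  gen D (fun m n => ((coef k m n).1 : ℝ) / D) (fun m n => ((coef k m n).2.1 : ℝ) / D)
    (fun m n => ((coef k m n).2.2 : ℝ) / D) A B A2 B2 u v

theorem look_eq_genK (D : ℕ) (coef : ℕ → ℕ → ℕ → ℤ × ℤ × ℤ) (k : ℕ) (u v : ℝ) :
    look D coef k u v = genK D coef k (cP D 0) (cP D 1) (cP D 0) (cP D 1) u v / kappa ^ 2 := rfl

/-- The time derivative of the velocity field. -/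
theorem deriv_velH (load : Fin 3 → ℝ) (ax : ℕ → Fin 3) (H : ℕ → ℝ → ℝ → ℝ) (t : ℝ) (x : V)
    (i : Fin 3) :
    deriv (fun s => velH load ax H s x i) t = 144 / kappa * bumpR 0 1 12 1 t * load i +
      ∑ k ∈ Finset.Ico 1 6, if ax k = i then
        144 / kappa * per (bumpR 0 1 12 (2 * k + 1)) t * H k (x (i + 1)) (x (i + 2)) else 0 := by
  apply HasDerivAt.deriv
  unfold velH
  refine HasDerivAt.fun_add ?_ (HasDerivAt.fun_sum fun k _ => ?_)
  · exact (((bumpR_hasDerivAt 0 0 12 1 t).const_mul _).mul_const _).congr_deriv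
      (by simp only [Nat.cast_zero, zero_mul, zero_add]; ring)
  · split_ifs
    · exact (((per_bumpR_hasDerivAt 0 0 (by norm_num : (12 : ℝ) ≠ 0) (2 * k + 1) t).const_mul
        _).mul_const _).congr_deriv (by simp only [Nat.cast_zero, zero_mul, zero_add]; ring)
    · exact hasDerivAt_const _ _

/-- The Laplacian of the velocity field. -/
theorem lap_velH {D : ℕ} (hD : 0 < D) (load : Fin 3 → ℝ) (ax : ℕ → Fin 3)
    (coef : ℕ → ℕ → ℕ → ℤ × ℤ × ℤ) (t : ℝ) (x : V) (i : Fin 3) :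
    ∑ j, dx j (dx j (comp (velH load ax (look D coef)) i)) t x =
      ∑ k ∈ Finset.Ico 1 6, if ax k = i then
        12 / kappa ^ 3 * per (bumpR 0 0 12 (2 * k + 1)) t *
          (genK D coef k (ddA D) (ddB D) (cP D 0) (cP D 1) (x (i + 1)) (x (i + 2)) +
            genK D coef k (cP D 0) (cP D 1) (ddA D) (ddB D) (x (i + 1)) (x (i + 2))) else 0 := by
  let Φ : (ℕ → ℝ → ℝ) → (ℕ → ℝ → ℝ) → (ℕ → ℝ → ℝ) → (ℕ → ℝ → ℝ) → ℝ → ℝ → ℝ :=
    fun A B A2 B2 u v => ∑ k ∈ Finset.Ico 1 6, if ax k = i then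
      12 / kappa ^ 3 * per (bumpR 0 0 12 (2 * k + 1)) t * genK D coef k A B A2 B2 u v else 0
  have f1 : ∀ {A B A' B' : ℕ → ℝ → ℝ} (A2 B2 : ℕ → ℝ → ℝ),
      (∀ m s, HasDerivAt (A m) (A' m s) s) → (∀ m s, HasDerivAt (B m) (B' m s) s) →
      ∀ u v, HasDerivAt (fun s => Φ A B A2 B2 s v) (Φ A' B' A2 B2 u v) u := by
    intro A B A' B' A2 B2 hA hB u v
    refine HasDerivAt.fun_sum fun k _ => ?_
    split_ifs
    · exact (gen_fst D _ _ _ A2 B2 hA hB u v).const_mul _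
    · exact hasDerivAt_const _ _
  have f2 : ∀ (A B : ℕ → ℝ → ℝ) {A2 B2 A2' B2' : ℕ → ℝ → ℝ},
      (∀ m s, HasDerivAt (A2 m) (A2' m s) s) → (∀ m s, HasDerivAt (B2 m) (B2' m s) s) →
      ∀ u v, HasDerivAt (fun s => Φ A B A2 B2 u s) (Φ A B A2' B2' u v) v := by
    intro A B A2 B2 A2' B2' hA hB u v
    refine HasDerivAt.fun_sum fun k _ => ?_
    split_ifs
    · exact (gen_snd D _ _ _ A B hA hB u v).const_mul _
    · exact hasDerivAt_const _ _
  have key := lap_two (g := comp (velH load ax (look D coef)) i) (t := t) (i := i)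
    (F := fun u v => 12 / kappa * bumpR 0 0 12 1 t * load i +
      Φ (cP D 0) (cP D 1) (cP D 0) (cP D 1) u v)
    (F1 := Φ (dA D) (dB D) (cP D 0) (cP D 1)) (F2 := Φ (cP D 0) (cP D 1) (dA D) (dB D))
    (F11 := Φ (ddA D) (ddB D) (cP D 0) (cP D 1)) (F12 := Φ (dA D) (dB D) (dA D) (dB D))
    (F21 := Φ (dA D) (dB D) (dA D) (dB D)) (F22 := Φ (cP D 0) (cP D 1) (ddA D) (ddB D))
    (fun y => by
      unfold comp velH
      congr 1
      refine Finset.sum_congr rfl fun k _ => ?_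
      split_ifs
      · rw [look_eq_genK]; have := kappa_ne; field_simp
      · rfl)
    (fun u v => (f1 _ _ (dA_spec hD) (dB_spec hD) u v).const_add _)
    (fun u v => (f2 _ _ (dA_spec hD) (dB_spec hD) u v).const_add _)
    (f1 _ _ (ddA_spec hD) (ddB_spec hD)) (f2 _ _ (dA_spec hD) (dB_spec hD))
    (f1 _ _ (dA_spec hD) (dB_spec hD)) (f2 _ _ (ddA_spec hD) (ddB_spec hD)) x
  rw [key, ← Finset.sum_add_distrib]
  refine Finset.sum_congr rfl fun k _ => ?_
  split_ifs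
  · ring
  · simp

/-- The divergence and the convective term vanish for `t ≥ 0`. -/
theorem div_velH (load : Fin 3 → ℝ) (ax : ℕ → Fin 3) (H : ℕ → ℝ → ℝ → ℝ) {t : ℝ} (ht : 0 ≤ t)
    (x : V) : ∑ i, dx i (comp (velH load ax H) i) t x = 0 := by
  obtain ⟨S, hS⟩ := velH_isShear load ax H ht
  exact Finset.sum_eq_zero fun i _ => hS.deriv_line_diag x i 0

theorem conv_velH (load : Fin 3 → ℝ) (ax : ℕ → Fin 3) (H : ℕ → ℝ → ℝ → ℝ) {t : ℝ} (ht : 0 ≤ t)
    (x : V) (i : Fin 3) : ∑ j, velH load ax H t x j * dx j (comp (velH load ax H) i) t x = 0 := by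
  obtain ⟨S, hS⟩ := velH_isShear load ax H ht
  exact Finset.sum_eq_zero fun j _ => hS.mul_deriv_line x j i 0

/-- The divergence vanishes at all times. -/
theorem div_velH_all (load : Fin 3 → ℝ) (ax : ℕ → Fin 3) (H : ℕ → ℝ → ℝ → ℝ) (t : ℝ) (x : V) :
    ∑ i, dx i (comp (velH load ax H) i) t x = 0 := by
  refine Finset.sum_eq_zero fun i _ => ?_
  unfold dx lineDeriv comp velH
  simp

end P113D
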