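import Vale.Agent.P113.Compile
import Vale.Agent.P113.ForceCalc

/-!
# P113: the compiled force is `∂_t u - ν Δ u`; side conditions on the compiled terms
-/

namespace Vale.Agent.P113

open P113E P113F P113D

theorem sum_map_flatMap {α β : Type} (l : List α) (g : α → List β) (f : β → ℝ) :
    ((l.flatMap g).map f).sum = (l.map fun a => ((g a).map f).sum).sum := by
  induction l with
  | nil => simp
  | cons a l ih => simp [List.flatMap_cons, ih]

theorem sum_map_range (D : ℕ) (f : ℕ → ℝ) :
    ((List.range D).map f).sum = ∑ m ∈ Finset.range D, f m := by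
  induction D with
  | zero => simp
  | succ D ih => simp [List.range_succ, Finset.sum_range_succ, ih]

theorem sum_map_stages (p : ℕ → Prop) [DecidablePred p] (f : ℕ → ℝ) :
    (([1, 2, 3, 4, 5].filter fun k => decide (p k)).map f).sum =
      ∑ k ∈ Finset.Ico 1 6, if p k then f k else 0 := by
  have h : ∀ l : List ℕ, ((l.filter fun k => decide (p k)).map f).sum =
      (l.map fun k => if p k then f k else 0).sum := by
    intro l
    induction l with
    | nil => simp
    | cons a l ih => by_cases ha : p a <;> simp [ha, ih]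
  rw [h, show Finset.Ico 1 6 = ({1, 2, 3, 4, 5} : Finset ℕ) by decide]
  simp

theorem eval_loadT (q : ℚ) (ν t : ℝ) (x : V) :
    (loadT q).eval ν t x = 144 / P113B.kappa * P113B.bumpR 0 1 12 1 t * q := by
  have h : (Bump.der 0 1 12 1).fn t = P113B.bumpR 0 1 12 1 t := by
    show _ = P113B.bumpR 0 1 12 1 t
    have : (Bump.der 0 1 12 1).fn t = P113B.bumpR 0 1 ((12 : ℚ) : ℝ) ((1 : ℚ) : ℝ) t := rfl
    rw [this]; push_cast; rfl
  have hk : kappa = P113B.kappa := rfl
  simp only [loadT, Term.eval, List.map_nil, List.prod_nil, List.map_cons, List.prod_cons, h, hk,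
    Finset.prod_const_one, zpow_neg, zpow_one]
  push_cast
  ring

theorem eval_pTerm (q : ℚ) (mν j k : ℕ) (i : Fin 3) (gu gv : Bump) (ν t : ℝ) (x : V) :
    (pTerm q mν j k i gu gv).eval ν t x =
      q * ν ^ mν / P113B.kappa ^ 3 * P113B.per (P113B.bumpR 0 j 12 (2 * k + 1)) t *
        (per gu.fn (x (i + 1)) * per gv.fn (x (i + 2))) := by
  have h : per (Bump.der 0 j 12 (2 * k + 1)).fn t =
      P113B.per (P113B.bumpR 0 j 12 (2 * k + 1)) t := by
    have : per (Bump.der 0 j 12 (2 * k + 1)).fn t =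
      P113B.per (P113B.bumpR 0 j ((12 : ℚ) : ℝ) ((2 * k + 1 : ℚ) : ℝ)) t := rfl
    rw [this]; push_cast; rfl
  have hk : kappa = P113B.kappa := rfl
  have hp : (∏ l : Fin 3, ((if l = i + 1 then [gu] else if l = i + 2 then [gv] else []).map
      fun b : Bump => per b.fn (x l)).prod) = per gu.fn (x (i + 1)) * per gv.fn (x (i + 2)) := by
    rw [Fin.prod_univ_three]
    fin_cases i <;> simp [mul_comm]
  simp only [pTerm, Term.eval, List.map_nil, List.prod_nil, List.map_cons, List.prod_cons, h, hk,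
    hp]
  rw [show (-3 : ℤ) = -((3 : ℕ) : ℤ) by norm_num, zpow_neg, zpow_natCast]
  ring

theorem per_cellB (e D m : ℕ) : per (cellB e D m).fn = cP D e m := by
  have : per (cellB e D m).fn =
    P113B.per (P113B.bumpP e ((6 : ℚ) : ℝ) ((8 * D : ℚ) : ℝ) ((8 * m - 1 : ℚ) : ℝ)) := rfl
  rw [this]; push_cast; rfl

theorem per_left (e j D m : ℕ) : per (Bump.der e j (8 * D) (8 * m - 1)).fn = cL D e j m := by
  have : per (Bump.der e j (8 * D) (8 * m - 1)).fn =
    P113B.per (P113B.bumpR e j ((8 * D : ℚ) : ℝ) ((8 * m - 1 : ℚ) : ℝ)) := rfl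
  rw [this]; push_cast; rfl

theorem per_right (e j D m : ℕ) : per (Bump.der e j (8 * D) (8 * m + 5)).fn = cR D e j m := by
  have : per (Bump.der e j (8 * D) (8 * m + 5)).fn =
    P113B.per (P113B.bumpR e j ((8 * D : ℚ) : ℝ) ((8 * m + 5 : ℚ) : ℝ)) := rfl
  rw [this]; push_cast; rfl

/-- The second derivative of `cP D e m` for `e ≤ 1`, divided by `D`. -/
noncomputable def dd (D e m : ℕ) (s : ℝ) : ℝ :=
  16 * e * (cL D 0 0 m s - cR D 0 0 m s) + 64 * D * (cL D e 1 m s - cR D e 1 m s)

theorem sum_monoTerms (D k : ℕ) (i : Fin 3) (m n : ℕ) (z : ℤ) (e e' : ℕ) (ν t : ℝ) (x : V) :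
    ((monoTerms D k i m n z e e').map fun τ => τ.eval ν t x).sum =
      144 / P113B.kappa ^ 3 * P113B.per (P113B.bumpR 0 1 12 (2 * k + 1)) t *
          (z / D * (cP D e m (x (i + 1)) * cP D e' n (x (i + 2)))) -
        ν * (12 / P113B.kappa ^ 3 * P113B.per (P113B.bumpR 0 0 12 (2 * k + 1)) t *
          (z * (dd D e m (x (i + 1)) * cP D e' n (x (i + 2))) +
            z * (cP D e m (x (i + 1)) * dd D e' n (x (i + 2))))) := by
  simp only [monoTerms, cellD2, List.map_cons, List.map_nil, List.cons_append, List.nil_append,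
    List.sum_cons, List.sum_nil, eval_pTerm, per_cellB, per_left, per_right, dd]
  push_cast
  ring

theorem sum_perTerms {D : ℕ} (hD : 0 < D) (cf : ℕ → ℕ → ℕ → ℤ × ℤ × ℤ) (i : Fin 3) (ν t : ℝ)
    (x : V) :
    ((perTerms D cf i).map fun τ => τ.eval ν t x).sum =
      ∑ k ∈ Finset.Ico 1 6, if axis k = i then
        (144 / P113B.kappa * P113B.per (P113B.bumpR 0 1 12 (2 * k + 1)) t *
            look D cf k (x (i + 1)) (x (i + 2)) -
          ν * (12 / P113B.kappa ^ 3 * P113B.per (P113B.bumpR 0 0 12 (2 * k + 1)) t *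
            (genK D cf k (ddA D) (ddB D) (cP D 0) (cP D 1) (x (i + 1)) (x (i + 2)) +
              genK D cf k (cP D 0) (cP D 1) (ddA D) (ddB D) (x (i + 1)) (x (i + 2))))) else 0 := by
  unfold perTerms
  rw [sum_map_flatMap, sum_map_stages (fun k => axis k = i)]
  refine Finset.sum_congr rfl fun k _ => ?_
  split_ifs
  · rw [look_eq_genK, sum_map_flatMap, sum_map_range]
    simp only [sum_map_flatMap, sum_map_range, genK, gen, Finset.sum_div, Finset.mul_sum,
      ← Finset.sum_add_distrib, ← Finset.sum_sub_distrib]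
    refine Finset.sum_congr rfl fun m _ => Finset.sum_congr rfl fun n _ => ?_
    simp only [cellTerms, List.map_append, List.sum_append, sum_monoTerms, dd, ddA, ddB]
    have h1 := P113B.kappa_ne
    have h2 : (D : ℝ) ≠ 0 := by positivity
    push_cast
    field_simp
    ring
  · rfl

theorem cGrid_pos (c : MachineCode) : 0 < cGrid c := by
  unfold cGrid grid base nDig
  positivity

theorem force_proof : ForceStmt := by
  intro z ν t x i
  unfold force compile vel
  rw [List.map_cons, List.sum_cons, eval_loadT, sum_perTerms (cGrid_pos z.1), deriv_velH,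
    lap_velH (cGrid_pos z.1), Finset.mul_sum, add_sub_assoc, ← Finset.sum_sub_distrib]
  congr 1
  refine Finset.sum_congr rfl fun k _ => ?_
  split_ifs
  · rfl
  · simp

theorem pTerm_valid (q : ℚ) (mν j k : ℕ) (i : Fin 3) {gu gv : Bump} (hu : gu.Valid)
    (hv : gv.Valid) : (pTerm q mν j k i gu gv).Valid := by
  refine ⟨by simp [pTerm], by simp [pTerm], by simp [pTerm, Bump.Valid], fun l b hb => ?_⟩
  simp only [pTerm] at hb
  split_ifs at hb
  · rw [List.mem_singleton.1 hb]; exact hu
  · rw [List.mem_singleton.1 hb]; exact hv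
  · simp at hb

theorem mem_perTerms {D : ℕ} (hD : 0 < D) (cf : ℕ → ℕ → ℕ → ℤ × ℤ × ℤ) (i : Fin 3) :
    ∀ τ ∈ perTerms D cf i, τ.Valid ∧ τ.isPeriodic = true := by
  have ha : (8 * (D : ℚ)) ≠ 0 := by positivity
  have hB : ∀ e m, (cellB e D m).Valid := fun e m => ⟨ha, by norm_num⟩
  have hD2 : ∀ e m, ∀ p ∈ cellD2 e D m, p.2.Valid := by
    intro e m p hp
    simp only [cellD2, List.mem_cons, List.not_mem_nil, or_false] at hp
    rcases hp with rfl | rfl | rfl | rfl <;> exact ha
  have hmono : ∀ k m n z e e', ∀ τ ∈ monoTerms D k i m n z e e', τ.Valid ∧ τ.isPeriodic = true := by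
    intro k m n z e e' τ hτ
    simp only [monoTerms, List.mem_cons, List.mem_append, List.mem_map] at hτ
    rcases hτ with rfl | ⟨p, hp, rfl⟩ | ⟨p, hp, rfl⟩
    · exact ⟨pTerm_valid _ _ _ _ _ (hB _ _) (hB _ _), rfl⟩
    · exact ⟨pTerm_valid _ _ _ _ _ (hD2 _ _ p hp) (hB _ _), rfl⟩
    · exact ⟨pTerm_valid _ _ _ _ _ (hB _ _) (hD2 _ _ p hp), rfl⟩
  intro τ hτ
  simp only [perTerms, List.mem_flatMap, cellTerms, List.mem_append] at hτ
  obtain ⟨k, -, m, -, n, -, (h | h) | h⟩ := hτ <;> exact hmono _ _ _ _ _ _ τ h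

theorem compileRest_proof : CompileRestStmt := by
  refine ⟨fun z i τ hτ => ?_, fun z i τ hτ hp ν t x ht => ?_, fun c w w' i => ?_⟩
  · rcases List.mem_cons.1 hτ with rfl | h
    · exact ⟨by simp [loadT], by simp [loadT, Bump.Valid], by simp [loadT], by simp [loadT]⟩
    · exact (mem_perTerms (cGrid_pos z.1) _ i τ h).1
  · rcases List.mem_cons.1 hτ with rfl | h
    · rw [eval_loadT]
      unfold P113B.bumpR
      rw [P113B.rhoD_eq_zero 1 (le_trans (by linarith) (le_abs_self _))]
      simp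
    · rw [(mem_perTerms (cGrid_pos z.1) _ i τ h).2] at hp
      exact absurd hp (by simp)
  · have h : ∀ q, (loadT q).isPeriodic = false := fun _ => rfl
    simp only [compile, List.filter_cons, h]
    rfl

end Vale.Agent.P113
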