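import Vale.Agent.P113.Spec
import Vale.Agent.P113.Compile
import Vale.Agent.P113.Classical
import Vale.Agent.P113.VelSmooth
import Vale.Agent.P113.Code

/-!
# P113: assembly
-/

open Set
open scoped ContDiff

namespace Vale.Agent.P113

open P113S P113D

theorem orbit_vel (M : Machine) (w : List (Fin (M.k + 1))) :
    (¬ M.Halts w → ∀ n, orbit (stage (fun i => (loadQ (M.code, w.map Fin.val) i : ℝ)) P113F.axis
        (look (cGrid M.code) (cCoef M.code))) 0 n 2 ∈ Icc (0 : ℝ) (1 / 2)) ∧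
    (M.Halts w → ∃ n, orbit (stage (fun i => (loadQ (M.code, w.map Fin.val) i : ℝ)) P113F.axis
        (look (cGrid M.code) (cCoef M.code))) 0 n 2 = 3 / 4 ∧
      orbit (stage (fun i => (loadQ (M.code, w.map Fin.val) i : ℝ)) P113F.axis
        (look (cGrid M.code) (cCoef M.code))) 0 n 0 ∈ Icc (0 : ℝ) (1 / 2) ∧
      orbit (stage (fun i => (loadQ (M.code, w.map Fin.val) i : ℝ)) P113F.axis
        (look (cGrid M.code) (cCoef M.code))) 0 n 1 ∈ Icc (0 : ℝ) (1 / 2)) := by
  obtain ⟨h0, h1, hidle, hstep⟩ := orbit_stage (fun i => (loadQ (M.code, w.map Fin.val) i : ℝ))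
    P113F.axis (look (cGrid M.code) (cCoef M.code))
  refine P113F.sim_machine_small M w (H := look (cGrid M.code) (cCoef M.code)) ?_ _ ?_ ?_ ?_ hidle
  · intro k m n u v hu hv
    exact look_eq _ _ k hu.1 hv.1 hu.2.1 hu.2.2 hv.2.1 hv.2.2
  · rw [h0]; rfl
  · rw [h1]
    funext i
    fin_cases i
    · rfl
    · rfl
    · simp [loadQ]
  · intro n k hk1 hk5
    rw [hstep n k hk1 hk5]
    funext i
    by_cases hi : i = P113F.axis k
    · subst hi; simp [P113F.shear]
    · simp [P113F.shear, Function.update_of_ne hi, Pi.single_eq_of_ne hi]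

theorem final_of (e1 : CompileComputableStmt) (e2 : CompileRestStmt) (e3 : ForceStmt) : Final := by
  refine ⟨0, ![-1 / 8, -1 / 8, 5 / 8], ![5 / 8, 5 / 8, 7 / 8], compile, ?_,
    ⟨e1, e2.1, ⟨1, e2.2.1⟩, e2.2.2⟩, fun ν hν M w => ?_⟩
  · intro i; fin_cases i <;> simp <;> norm_num
  have hsm : ContDiff ℝ ∞ fun y : ℝ × V => vel (M.code, w.map Fin.val) y.1 y.2 :=
    P113V.vel_contDiff _ _ _ _
  have hcl : ∀ T, 0 < T → IsClassical ν (force (compile (M.code, w.map Fin.val)) ν) T
      (vel (M.code, w.map Fin.val)) fun _ _ => 0 := by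
    refine smoothClassical_proof ν _ _ hsm (fun t x j => P113V.vel_periodic _ _ _ _ t x j)
      (fun t x => P113V.velH_div _ _ _ t x) (fun x => velH_zero _ _ _ x) fun t ht x i => ?_
    have hc : ∑ j, vel (M.code, w.map Fin.val) t x j *
        dx j (comp (vel (M.code, w.map Fin.val)) i) t x = 0 := P113V.velH_convect _ _ _ ht x i
    rw [e3, hc, add_zero]
  have F := shearFlow_velH (fun i => (loadQ (M.code, w.map Fin.val) i : ℝ)) P113F.axis
    (look (cGrid M.code) (cCoef M.code))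
  obtain ⟨X, hX0, hX⟩ := F.exists_traj 0
  have hz : (fun i => ((0 : Fin 3 → ℚ) i : ℝ)) = (0 : V) := by funext i; simp
  refine ⟨vel (M.code, w.map Fin.val), fun _ _ => 0, hsm.contDiffOn, contDiffOn_const, hcl,
    fun T hT v q hv => unique_proof ν _ T _ v _ q hν hT (hcl T hT) hv, X, ?_, ?_, ?_⟩
  · rw [hz]; exact ⟨hX0, hX⟩
  · rw [hz]
    intro Y hY t ht
    have a := weak_of_strong hX
    have b := weak_of_strong hY.2
    rw [F.eq_traj a.1 a.2 ht, F.eq_traj b.1 b.2 ht, hX0, hY.1]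
  · have a := weak_of_strong hX
    have h := orbit_vel M w
    rw [← hits_smallbox _ _ _ h.1 h.2 hX0 a.1 a.2]
    refine exists_congr fun t => and_congr_right fun _ => exists_congr fun m =>
      forall_congr' fun i => ?_
    fin_cases i <;> simp

end Vale.Agent.P113
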