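import Mathlib.Data.List.GetD
import Mathlib.Logic.Function.Iterate
import Mathlib.Data.Int.Cast.Lemmas
import Mathlib.Tactic.Ring
import Mathlib.Tactic.Linarith

/-! A reversible two-stack machine on natural number digits that simulates a Turing machine
given on natural number codes.  Digits below `G` are tape symbols, digits from `G` on are control
digits; an old control digit stays in the stacks as garbage. -/

namespace P113E

/-- transition function on codes: new state, written symbol, move code -/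
abbrev Delta := ℕ → ℕ → ℕ × ℕ × ℕ

/-- move code: 0 left, 1 right, anything else stay -/
def mvZ (m : ℕ) : ℤ := if m = 0 then -1 else if m = 1 then 1 else 0

/-- total step (halting is ignored) on state, tape, head position -/
def tstep (δ : Delta) (c : ℕ × (ℤ → ℕ) × ℤ) : ℕ × (ℤ → ℕ) × ℤ :=
  ((δ c.1 (c.2.1 c.2.2)).1, Function.update c.2.1 c.2.2 (δ c.1 (c.2.1 c.2.2)).2.1,
    c.2.2 + mvZ (δ c.1 (c.2.1 c.2.2)).2.2)

/-- initial configuration -/
def tinit (q0 : ℕ) (w : List ℕ) : ℕ × (ℤ → ℕ) × ℤ :=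
  (q0, fun i => if 0 ≤ i then w.getD i.toNat 0 else 0, 0)

/-- the total run meets a halting state -/
def Hits (δ : Delta) (halt : ℕ → Bool) (q0 : ℕ) (w : List ℕ) : Prop :=
  ∃ k, halt ((tstep δ)^[k] (tinit q0 w)).1 = true

def oOf (G e : ℕ) : ℕ := (e - G) % (G + 1)
def cOf (G e : ℕ) : ℕ := (e - G) / (G + 1)
def dig (G c o : ℕ) : ℕ := G + (o + (G + 1) * c)

/-- number of digits -/
def nDig (nQ G : ℕ) : ℕ := G + (G + 1) * (4 * nQ)

/-- control (4 * state + 2 * turn mode + direction) that is current after the control digit `e` -/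
def ctl (G : ℕ) (δ : Delta) (e : ℕ) : ℕ :=
  if oOf G e = 0 then
    (if cOf G e % 4 < 2 then cOf G e else 4 * (cOf G e / 4) + (1 - cOf G e % 2))
  else
    (if (δ (cOf G e / 4) (oOf G e - 1)).2.2 ≤ 1 then
      4 * (δ (cOf G e / 4) (oOf G e - 1)).1 + (δ (cOf G e / 4) (oOf G e - 1)).2.2
    else 4 * (δ (cOf G e / 4) (oOf G e - 1)).1 + 2 + cOf G e % 2)

/-- new control digit -/
def ruleE (G : ℕ) (δ : Delta) (tx ty : ℕ) : ℕ :=
  if 2 ≤ ctl G δ tx % 4 ∨ G ≤ ty then dig G (ctl G δ tx) 0 else dig G (ctl G δ tx) (ty + 1)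

/-- digit pushed under the new control digit -/
def ruleS (G : ℕ) (δ : Delta) (tx ty : ℕ) : ℕ :=
  if 2 ≤ ctl G δ tx % 4 ∨ G ≤ ty then ty else (δ (ctl G δ tx / 4) ty).2.1

/-- the popped digit, recovered from the two pushed digits -/
def src (G e s : ℕ) : ℕ := if oOf G e = 0 then s else oOf G e - 1

/-- 1 if the two stacks are exchanged, else 0 -/
def rev (G : ℕ) (δ : Delta) (e : ℕ) : ℕ :=
  if oOf G e = 0 then (if cOf G e % 4 < 2 then 0 else 1)
  else (if (δ (cOf G e / 4) (oOf G e - 1)).2.2 ≤ 1 ∧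
      (δ (cOf G e / 4) (oOf G e - 1)).2.2 ≠ cOf G e % 2 then 1 else 0)

/-- one step of the two-stack machine: first stack behind the head, second stack ahead -/
def micro (G : ℕ) (δ : Delta) (c : List ℕ × List ℕ) : List ℕ × List ℕ :=
  if rev G δ (ruleE G δ (c.1.headD 0) (c.2.headD 0)) = 0 then
    (ruleE G δ (c.1.headD 0) (c.2.headD 0) :: ruleS G δ (c.1.headD 0) (c.2.headD 0) :: c.1,
      c.2.tail)
  else
    (ruleE G δ (c.1.headD 0) (c.2.headD 0) :: ruleS G δ (c.1.headD 0) (c.2.headD 0) :: c.2.tail,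
      c.1)

def minit (G q0 : ℕ) (w : List ℕ) : List ℕ × List ℕ := ([dig G (4 * q0 + 1) 0], w)

theorem oOf_dig {G c o : ℕ} (ho : o ≤ G) : oOf G (dig G c o) = o := by
  unfold oOf dig
  rw [Nat.add_sub_cancel_left, Nat.add_mul_mod_self_left, Nat.mod_eq_of_lt (by omega)]

theorem cOf_dig {G c o : ℕ} (ho : o ≤ G) : cOf G (dig G c o) = c := by
  unfold cOf dig
  rw [Nat.add_sub_cancel_left, Nat.add_mul_div_left _ _ (by omega), Nat.div_eq_of_lt (by omega),
    Nat.zero_add]

theorem le_dig (G c o : ℕ) : G ≤ dig G c o := Nat.le_add_right _ _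

theorem dig_lt {nQ G c o : ℕ} (ho : o ≤ G) (hc : c < 4 * nQ) : dig G c o < nDig nQ G := by
  unfold dig nDig
  have : (G + 1) * (c + 1) ≤ (G + 1) * (4 * nQ) := Nat.mul_le_mul_left _ hc
  have e : (G + 1) * (c + 1) = (G + 1) * c + (G + 1) := by ring
  omega

theorem src_rule (G : ℕ) (δ : Delta) (tx ty : ℕ) :
    src G (ruleE G δ tx ty) (ruleS G δ tx ty) = ty := by
  unfold src ruleE ruleS
  split_ifs with h h1 h2
  · rfl
  · exact absurd (oOf_dig (Nat.zero_le _)) h1
  · rw [oOf_dig (by omega)] at h2; omega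
  · rw [oOf_dig (by omega)]; omega

/-- the `k`-th tape symbol of a stack -/
def rs (G : ℕ) (l : List ℕ) (k : ℕ) : ℕ := (l.filter (fun d => decide (d < G))).getD k 0

theorem rs_ctl {G s : ℕ} (h : G ≤ s) (l : List ℕ) : rs G (s :: l) = rs G l := by
  funext k
  unfold rs
  rw [List.filter_cons_of_neg (by simpa using h)]

theorem rs_zero {G a : ℕ} (h : a < G) (l : List ℕ) : rs G (a :: l) 0 = a := by
  unfold rs
  rw [List.filter_cons_of_pos (by simpa using h)]
  rfl

theorem rs_succ {G a : ℕ} (h : a < G) (l : List ℕ) (k : ℕ) : rs G (a :: l) (k + 1) = rs G l k := by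
  unfold rs
  rw [List.filter_cons_of_pos (by simpa using h)]
  rfl

theorem rs_nil (G k : ℕ) : rs G [] k = 0 := rfl

theorem rs_head_tail {G : ℕ} (hG : 0 < G) (l : List ℕ) : rs G (l.headD 0 :: l.tail) = rs G l := by
  cases l with
  | nil =>
    funext k
    cases k with
    | zero => exact rs_zero hG _
    | succ k => exact rs_succ hG _ _
  | cons a l => rfl

theorem rs_real {G : ℕ} {w : List ℕ} (hw : ∀ a ∈ w, a < G) (k : ℕ) : rs G w k = w.getD k 0 := by
  unfold rs
  rw [List.filter_eq_self.2 (by simpa using hw)]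

/-- sign of a direction -/
def sg (d : ℕ) : ℤ := if d = 1 then 1 else -1

/-- stacks `X` (behind) and `Y` (ahead, in direction `d`) carry the tape `T` seen from `i` -/
def RepN (G d : ℕ) (X Y : List ℕ) (T : ℤ → ℕ) (i : ℤ) : Prop :=
  ∀ k : ℕ, T (i + sg d * k) = rs G Y k ∧ T (i - sg d * (k + 1)) = rs G X k

/-- all digits are below `nDig`, and the current control has a legal state -/
def Wf (nQ G : ℕ) (δ : Delta) (c : List ℕ × List ℕ) : Prop :=
  (∀ d ∈ c.1, d < nDig nQ G) ∧ (∀ d ∈ c.2, d < nDig nQ G) ∧ ctl G δ (c.1.headD 0) < 4 * nQ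

def Rep (G : ℕ) (δ : Delta) (c : List ℕ × List ℕ) (t : ℕ × (ℤ → ℕ) × ℤ) : Prop :=
  ctl G δ (c.1.headD 0) / 4 = t.1 ∧
    (if ctl G δ (c.1.headD 0) % 4 < 2 then RepN G (ctl G δ (c.1.headD 0) % 2) c.1 c.2 t.2.1 t.2.2
     else RepN G (1 - ctl G δ (c.1.headD 0) % 2) c.2 c.1 t.2.1 t.2.2)

section

variable {nQ G : ℕ} {δ : Delta}

theorem headD_lt {N : ℕ} (hN : 0 < N) {l : List ℕ} (h : ∀ d ∈ l, d < N) : l.headD 0 < N := by
  cases l with
  | nil => exact hN
  | cons a l => exact h a (by simp)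

theorem G_le_nDig (nQ G : ℕ) : G ≤ nDig nQ G := Nat.le_add_right _ _

theorem ruleE_lt {tx ty : ℕ} (hc : ctl G δ tx < 4 * nQ) : ruleE G δ tx ty < nDig nQ G := by
  unfold ruleE
  split_ifs with h
  · exact dig_lt (Nat.zero_le _) hc
  · exact dig_lt (by omega) hc

theorem ruleS_lt (hδ : ∀ q < nQ, ∀ a < G, (δ q a).1 < nQ ∧ (δ q a).2.1 < G) {tx ty : ℕ}
    (hc : ctl G δ tx < 4 * nQ) (hy : ty < nDig nQ G) : ruleS G δ tx ty < nDig nQ G := by
  unfold ruleS
  split_ifs with h
  · exact hy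
  · exact lt_of_lt_of_le (hδ _ (by omega) _ (by omega)).2 (G_le_nDig _ _)

theorem ctl_ruleE_lt (hδ : ∀ q < nQ, ∀ a < G, (δ q a).1 < nQ ∧ (δ q a).2.1 < G) {tx ty : ℕ}
    (hc : ctl G δ tx < 4 * nQ) : ctl G δ (ruleE G δ tx ty) < 4 * nQ := by
  unfold ruleE
  generalize ctl G δ tx = c at *
  split_ifs with h
  · unfold ctl
    rw [oOf_dig (Nat.zero_le _), cOf_dig (Nat.zero_le _), if_pos rfl]
    split_ifs <;> omega
  · unfold ctl
    rw [oOf_dig (by omega), cOf_dig (by omega), if_neg (by omega), Nat.add_sub_cancel]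
    have := (hδ (c / 4) (by omega) ty (by omega)).1
    split_ifs <;> omega

theorem wf_micro (hG : 0 < G) (hδ : ∀ q < nQ, ∀ a < G, (δ q a).1 < nQ ∧ (δ q a).2.1 < G)
    {c : List ℕ × List ℕ} (h : Wf nQ G δ c) : Wf nQ G δ (micro G δ c) := by
  obtain ⟨h1, h2, h3⟩ := h
  have hN : 0 < nDig nQ G := lt_of_lt_of_le hG (G_le_nDig _ _)
  have hy := headD_lt hN h2
  have hE : ruleE G δ (c.1.headD 0) (c.2.headD 0) < nDig nQ G := ruleE_lt h3
  have hS : ruleS G δ (c.1.headD 0) (c.2.headD 0) < nDig nQ G := ruleS_lt hδ h3 hy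
  have ht : ∀ d ∈ c.2.tail, d < nDig nQ G := fun d hd => h2 d (List.mem_of_mem_tail hd)
  unfold micro
  split_ifs
  · refine ⟨?_, ht, ctl_ruleE_lt hδ h3⟩
    intro d hd
    simp only [List.mem_cons] at hd
    rcases hd with rfl | rfl | hd
    exacts [hE, hS, h1 d hd]
  · refine ⟨?_, h1, ctl_ruleE_lt hδ h3⟩
    intro d hd
    simp only [List.mem_cons] at hd
    rcases hd with rfl | rfl | hd
    exacts [hE, hS, ht d hd]

theorem ctl_minit (G : ℕ) (δ : Delta) (q0 : ℕ) : ctl G δ (dig G (4 * q0 + 1) 0) = 4 * q0 + 1 := by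
  unfold ctl
  rw [oOf_dig (Nat.zero_le _), cOf_dig (Nat.zero_le _), if_pos rfl, if_pos (by omega)]

theorem wf_minit {q0 : ℕ} {w : List ℕ} (hq : q0 < nQ) (hw : ∀ a ∈ w, a < G) :
    Wf nQ G δ (minit G q0 w) := by
  refine ⟨?_, fun d hd => lt_of_lt_of_le (hw d hd) (G_le_nDig _ _), ?_⟩
  · intro d hd
    simp only [minit, List.mem_singleton] at hd
    subst hd
    exact dig_lt (Nat.zero_le _) (by omega)
  · show ctl G δ (dig G (4 * q0 + 1) 0) < _
    rw [ctl_minit]; omega

theorem wf_iter (hG : 0 < G) (hδ : ∀ q < nQ, ∀ a < G, (δ q a).1 < nQ ∧ (δ q a).2.1 < G)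
    {q0 : ℕ} {w : List ℕ} (hq : q0 < nQ) (hw : ∀ a ∈ w, a < G) (n : ℕ) :
    Wf nQ G δ ((micro G δ)^[n] (minit G q0 w)) := by
  induction n with
  | zero => exact wf_minit hq hw
  | succ n ih => rw [Function.iterate_succ_apply']; exact wf_micro hG hδ ih

theorem rep_minit {q0 : ℕ} {w : List ℕ} (hw : ∀ a ∈ w, a < G) :
    Rep G δ (minit G q0 w) (tinit q0 w) := by
  have e : ctl G δ ((minit G q0 w).1.headD 0) = 4 * q0 + 1 := ctl_minit G δ q0
  unfold Rep
  rw [e, if_pos (by omega)]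
  refine ⟨by show _ = q0; omega, fun k => ?_⟩
  have e1 : (4 * q0 + 1) % 2 = 1 := by omega
  rw [e1]
  simp only [tinit, minit, sg, if_true]
  rw [rs_real hw, rs_ctl (le_dig _ _ _), rs_nil, if_pos (by omega), if_neg (by omega)]
  simp

/-- a step in turn mode keeps the represented configuration and leaves turn mode -/
theorem rep_turn (hG : 0 < G) {c : List ℕ × List ℕ} {t : ℕ × (ℤ → ℕ) × ℤ} (h : Rep G δ c t)
    (hm : 2 ≤ ctl G δ (c.1.headD 0) % 4) :
    Rep G δ (micro G δ c) t ∧ ctl G δ ((micro G δ c).1.headD 0) % 4 < 2 := by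
  obtain ⟨h1, h2⟩ := h
  rw [if_neg (by omega)] at h2
  have eE : ruleE G δ (c.1.headD 0) (c.2.headD 0) = dig G (ctl G δ (c.1.headD 0)) 0 := by
    unfold ruleE; rw [if_pos (Or.inl hm)]
  have eS : ruleS G δ (c.1.headD 0) (c.2.headD 0) = c.2.headD 0 := by
    unfold ruleS; rw [if_pos (Or.inl hm)]
  generalize hc : ctl G δ (c.1.headD 0) = k at *
  have er : rev G δ (dig G k 0) = 1 := by
    unfold rev
    rw [oOf_dig (Nat.zero_le _), cOf_dig (Nat.zero_le _), if_pos rfl, if_neg (by omega)]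
  have ec : ctl G δ (dig G k 0) = 4 * (k / 4) + (1 - k % 2) := by
    unfold ctl
    rw [oOf_dig (Nat.zero_le _), cOf_dig (Nat.zero_le _), if_pos rfl, if_neg (by omega)]
  have em : micro G δ c = (dig G k 0 :: c.2.headD 0 :: c.2.tail, c.1) := by
    unfold micro; rw [eE, eS, er, if_neg (by omega)]
  rw [em]
  unfold Rep
  simp only [List.headD_cons, ec]
  refine ⟨⟨by omega, ?_⟩, by omega⟩
  rw [if_pos (by omega)]
  have e2 : (4 * (k / 4) + (1 - k % 2)) % 2 = 1 - k % 2 := by omega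
  rw [e2]
  intro j
  rw [rs_ctl (le_dig _ _ _), rs_head_tail hG]
  exact h2 j

/-- a scanning step keeps the represented configuration and shortens the stack ahead -/
theorem rep_scan (hG : 0 < G) {c : List ℕ × List ℕ} {t : ℕ × (ℤ → ℕ) × ℤ} (h : Rep G δ c t)
    (hm : ctl G δ (c.1.headD 0) % 4 < 2) (hy : G ≤ c.2.headD 0) :
    Rep G δ (micro G δ c) t ∧ ctl G δ ((micro G δ c).1.headD 0) % 4 < 2 ∧
      (micro G δ c).2.length < c.2.length := by
  obtain ⟨h1, h2⟩ := h
  rw [if_pos hm] at h2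
  have eE : ruleE G δ (c.1.headD 0) (c.2.headD 0) = dig G (ctl G δ (c.1.headD 0)) 0 := by
    unfold ruleE; rw [if_pos (Or.inr hy)]
  have eS : ruleS G δ (c.1.headD 0) (c.2.headD 0) = c.2.headD 0 := by
    unfold ruleS; rw [if_pos (Or.inr hy)]
  generalize hc : ctl G δ (c.1.headD 0) = k at *
  have er : rev G δ (dig G k 0) = 0 := by
    unfold rev
    rw [oOf_dig (Nat.zero_le _), cOf_dig (Nat.zero_le _), if_pos rfl, if_pos hm]
  have ec : ctl G δ (dig G k 0) = k := by
    unfold ctl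
    rw [oOf_dig (Nat.zero_le _), cOf_dig (Nat.zero_le _), if_pos rfl, if_pos hm]
  have em : micro G δ c = (dig G k 0 :: c.2.headD 0 :: c.1, c.2.tail) := by
    unfold micro; rw [eE, eS, er, if_pos rfl]
  rw [em]
  unfold Rep
  simp only [List.headD_cons, ec]
  obtain ⟨X, Y⟩ := c
  cases Y with
  | nil => simp at hy; omega
  | cons s A =>
    simp only [List.headD_cons, List.tail_cons] at *
    refine ⟨⟨h1, ?_⟩, hm, by simp⟩
    rw [if_pos hm]
    intro j
    rw [rs_ctl (le_dig _ _ _), rs_ctl hy, ← rs_ctl hy A]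
    exact h2 j

theorem sg_cases (d : ℕ) : sg d = 1 ∨ sg d = -1 := by
  unfold sg; split_ifs <;> simp

/-- a writing step performs one step of the Turing machine -/
theorem rep_write (hG : 0 < G) (hδ : ∀ q < nQ, ∀ a < G, (δ q a).1 < nQ ∧ (δ q a).2.1 < G)
    {c : List ℕ × List ℕ} {t : ℕ × (ℤ → ℕ) × ℤ} (hw : Wf nQ G δ c) (h : Rep G δ c t)
    (hm : ctl G δ (c.1.headD 0) % 4 < 2) (hy : c.2.headD 0 < G) :
    Rep G δ (micro G δ c) (tstep δ t) := by
  obtain ⟨h1, h2⟩ := h
  obtain ⟨-, -, hw3⟩ := hw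
  rw [if_pos hm] at h2
  have eE : ruleE G δ (c.1.headD 0) (c.2.headD 0) =
      dig G (ctl G δ (c.1.headD 0)) (c.2.headD 0 + 1) := by
    unfold ruleE; rw [if_neg (by omega)]
  have eS : ruleS G δ (c.1.headD 0) (c.2.headD 0) =
      (δ (ctl G δ (c.1.headD 0) / 4) (c.2.headD 0)).2.1 := by
    unfold ruleS; rw [if_neg (by omega)]
  generalize hc : ctl G δ (c.1.headD 0) = k at *
  obtain ⟨q, T, i⟩ := t
  simp only at h1 h2
  subst h1
  have hY : rs G c.2 = rs G (c.2.headD 0 :: c.2.tail) := (rs_head_tail hG _).symm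
  have hTi : T i = c.2.headD 0 := by
    have := (h2 0).1
    rw [hY, rs_zero hy] at this
    simpa using this
  have hA : ∀ j : ℕ, T (i + sg (k % 2) * (j + 1)) = rs G c.2.tail j := by
    intro j
    have := (h2 (j + 1)).1
    rw [hY, rs_succ hy] at this
    simpa using this
  have hX : ∀ j : ℕ, T (i - sg (k % 2) * (j + 1)) = rs G c.1 j := fun j => (h2 j).2
  generalize ha : c.2.headD 0 = a at *
  have hb : (δ (k / 4) a).2.1 < G := (hδ _ (by omega) _ hy).2
  have eo : oOf G (dig G k (a + 1)) = a + 1 := oOf_dig (by omega)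
  have ecc : cOf G (dig G k (a + 1)) = k := cOf_dig (by omega)
  have hs := sg_cases (k % 2)
  have hup : ∀ (l : List ℕ) (ε : ℤ), (ε = 1 ∨ ε = -1) → (∀ j : ℕ, T (i + ε * (j + 1)) = rs G l j) →
      (∀ j : ℕ, Function.update T i (δ (k / 4) a).2.1 (i + ε * (j + 1)) = rs G l j) ∧
      ∀ j : ℕ, Function.update T i (δ (k / 4) a).2.1 (i + ε * j) =
        rs G (dig G k (a + 1) :: (δ (k / 4) a).2.1 :: l) j := by
    intro l ε hε hl
    have h1 : ∀ j : ℕ, Function.update T i (δ (k / 4) a).2.1 (i + ε * (j + 1)) = rs G l j := by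
      intro j
      rw [Function.update_of_ne (by rcases hε with rfl | rfl <;> omega)]
      exact hl j
    refine ⟨h1, fun j => ?_⟩
    rw [rs_ctl (le_dig _ _ _)]
    cases j with
    | zero => rw [rs_zero hb]; simp
    | succ j => rw [rs_succ hb]; exact_mod_cast h1 j
  have uA := hup c.2.tail (sg (k % 2)) hs hA
  have uX := hup c.1 (-sg (k % 2)) (by omega) (fun j => by rw [← hX j]; congr 1; ring)
  unfold tstep Rep
  simp only [hTi]
  by_cases hmv : (δ (k / 4) a).2.2 ≤ 1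
  · have ec : ctl G δ (dig G k (a + 1)) = 4 * (δ (k / 4) a).1 + (δ (k / 4) a).2.2 := by
      unfold ctl
      rw [eo, ecc, if_neg (by omega), Nat.add_sub_cancel, if_pos hmv]
    by_cases hd : (δ (k / 4) a).2.2 = k % 2
    · have er : rev G δ (dig G k (a + 1)) = 0 := by
        unfold rev
        rw [eo, ecc, if_neg (by omega), Nat.add_sub_cancel, if_neg (by omega)]
      have em : micro G δ c = (dig G k (a + 1) :: (δ (k / 4) a).2.1 :: c.1, c.2.tail) := by
        unfold micro; rw [ha, eE, eS, er, if_pos rfl]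
      rw [em]
      simp only [List.headD_cons, ec]
      refine ⟨by omega, ?_⟩
      rw [if_pos (by omega)]
      have e2 : (4 * (δ (k / 4) a).1 + (δ (k / 4) a).2.2) % 2 = k % 2 := by omega
      have e3 : mvZ (δ (k / 4) a).2.2 = sg (k % 2) := by
        rw [hd]; unfold mvZ sg; split_ifs <;> omega
      rw [e2, e3]
      intro j
      constructor
      · rw [← uA.1 j]; congr 1; ring
      · rw [← uX.2 j]; congr 1; ring
    · have er : rev G δ (dig G k (a + 1)) = 1 := by
        unfold rev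
        rw [eo, ecc, if_neg (by omega), Nat.add_sub_cancel, if_pos ⟨hmv, hd⟩]
      have em : micro G δ c = (dig G k (a + 1) :: (δ (k / 4) a).2.1 :: c.2.tail, c.1) := by
        unfold micro; rw [ha, eE, eS, er, if_neg (by omega)]
      rw [em]
      simp only [List.headD_cons, ec]
      refine ⟨by omega, ?_⟩
      rw [if_pos (by omega)]
      have e2 : sg ((4 * (δ (k / 4) a).1 + (δ (k / 4) a).2.2) % 2) = -sg (k % 2) := by
        unfold sg; split_ifs <;> omega
      have e3 : mvZ (δ (k / 4) a).2.2 = -sg (k % 2) := by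
        unfold mvZ sg; split_ifs <;> omega
      unfold RepN
      rw [e2, e3]
      intro j
      constructor
      · rw [← uX.1 j]; congr 1; ring
      · rw [← uA.2 j]; congr 1; ring
  · have ec : ctl G δ (dig G k (a + 1)) = 4 * (δ (k / 4) a).1 + 2 + k % 2 := by
      unfold ctl
      rw [eo, ecc, if_neg (by omega), Nat.add_sub_cancel, if_neg hmv]
    have er : rev G δ (dig G k (a + 1)) = 0 := by
      unfold rev
      rw [eo, ecc, if_neg (by omega), Nat.add_sub_cancel, if_neg (by omega)]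
    have em : micro G δ c = (dig G k (a + 1) :: (δ (k / 4) a).2.1 :: c.1, c.2.tail) := by
      unfold micro; rw [ha, eE, eS, er, if_pos rfl]
    rw [em]
    simp only [List.headD_cons, ec]
    refine ⟨by omega, ?_⟩
    rw [if_neg (by omega)]
    have e2 : sg (1 - (4 * (δ (k / 4) a).1 + 2 + k % 2) % 2) = -sg (k % 2) := by
      unfold sg; split_ifs <;> omega
    have e3 : mvZ (δ (k / 4) a).2.2 = 0 := by
      unfold mvZ; split_ifs <;> omega
    unfold RepN
    rw [e2, e3]
    intro j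
    constructor
    · rw [← uX.2 j]; congr 1; ring
    · rw [← uA.1 j]; congr 1; ring

theorem rep_step (hG : 0 < G) (hδ : ∀ q < nQ, ∀ a < G, (δ q a).1 < nQ ∧ (δ q a).2.1 < G)
    {c : List ℕ × List ℕ} {t : ℕ × (ℤ → ℕ) × ℤ} (hw : Wf nQ G δ c) (h : Rep G δ c t) :
    Rep G δ (micro G δ c) t ∨ Rep G δ (micro G δ c) (tstep δ t) := by
  by_cases hm : ctl G δ (c.1.headD 0) % 4 < 2
  · by_cases hy : c.2.headD 0 < G
    · exact Or.inr (rep_write hG hδ hw h hm hy)
    · exact Or.inl (rep_scan hG h hm (by omega)).1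
  · exact Or.inl (rep_turn hG h (by omega)).1

theorem progress_norm (hG : 0 < G) (hδ : ∀ q < nQ, ∀ a < G, (δ q a).1 < nQ ∧ (δ q a).2.1 < G)
    {t : ℕ × (ℤ → ℕ) × ℤ} (L : ℕ) : ∀ c : List ℕ × List ℕ, c.2.length ≤ L → Wf nQ G δ c →
      Rep G δ c t → ctl G δ (c.1.headD 0) % 4 < 2 →
      ∃ n, Rep G δ ((micro G δ)^[n] c) (tstep δ t) := by
  induction L with
  | zero =>
    intro c hL hw h hm
    by_cases hy : c.2.headD 0 < G
    · exact ⟨1, rep_write hG hδ hw h hm hy⟩
    · have := (rep_scan hG h hm (by omega)).2.2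
      omega
  | succ L ih =>
    intro c hL hw h hm
    by_cases hy : c.2.headD 0 < G
    · exact ⟨1, rep_write hG hδ hw h hm hy⟩
    · obtain ⟨s1, s2, s3⟩ := rep_scan hG h hm (by omega)
      obtain ⟨n, hn⟩ := ih _ (by omega) (wf_micro hG hδ hw) s1 s2
      exact ⟨n + 1, hn⟩

theorem progress (hG : 0 < G) (hδ : ∀ q < nQ, ∀ a < G, (δ q a).1 < nQ ∧ (δ q a).2.1 < G)
    {t : ℕ × (ℤ → ℕ) × ℤ} {c : List ℕ × List ℕ} (hw : Wf nQ G δ c) (h : Rep G δ c t) :
    ∃ n, Rep G δ ((micro G δ)^[n] c) (tstep δ t) := by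
  by_cases hm : ctl G δ (c.1.headD 0) % 4 < 2
  · exact progress_norm hG hδ _ c le_rfl hw h hm
  · obtain ⟨s1, s2⟩ := rep_turn hG h (by omega)
    obtain ⟨n, hn⟩ := progress_norm hG hδ _ _ le_rfl (wf_micro hG hδ hw) s1 s2
    exact ⟨n + 1, hn⟩

/-- the two-stack machine meets a halting control iff the Turing machine meets a halting state -/
theorem hits_iff (hG : 0 < G) (hδ : ∀ q < nQ, ∀ a < G, (δ q a).1 < nQ ∧ (δ q a).2.1 < G)
    (halt : ℕ → Bool) {q0 : ℕ} {w : List ℕ} (hq : q0 < nQ) (hw : ∀ a ∈ w, a < G) :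
    Hits δ halt q0 w ↔
      ∃ n, halt (ctl G δ (((micro G δ)^[n] (minit G q0 w)).1.headD 0) / 4) = true := by
  constructor
  · rintro ⟨k, hk⟩
    have key : ∀ k, ∃ n, Rep G δ ((micro G δ)^[n] (minit G q0 w)) ((tstep δ)^[k] (tinit q0 w)) := by
      intro k
      induction k with
      | zero => exact ⟨0, rep_minit hw⟩
      | succ k ih =>
        obtain ⟨n, hn⟩ := ih
        obtain ⟨m, hm⟩ := progress hG hδ (wf_iter hG hδ hq hw n) hn
        refine ⟨m + n, ?_⟩
        rw [Function.iterate_add_apply, Function.iterate_succ_apply']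
        exact hm
    obtain ⟨n, hn⟩ := key k
    exact ⟨n, by rw [hn.1]; exact hk⟩
  · rintro ⟨n, hn⟩
    have key : ∀ n, ∃ k, Rep G δ ((micro G δ)^[n] (minit G q0 w)) ((tstep δ)^[k] (tinit q0 w)) := by
      intro n
      induction n with
      | zero => exact ⟨0, rep_minit hw⟩
      | succ n ih =>
        obtain ⟨k, hk⟩ := ih
        rcases rep_step hG hδ (wf_iter hG hδ hq hw n) hk with h | h
        · exact ⟨k, by rw [Function.iterate_succ_apply']; exact h⟩
        · exact ⟨k + 1, by rw [Function.iterate_succ_apply', Function.iterate_succ_apply']; exact h⟩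
    obtain ⟨k, hk⟩ := key n
    exact ⟨k, by rw [← hk.1]; exact hn⟩

end

end P113E
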