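import Mathlib.MeasureTheory.Integral.IntervalIntegral.FundThmCalculus
import Mathlib.Analysis.Calculus.Deriv.Pi
import Mathlib.Analysis.Calculus.Deriv.Mul
import Mathlib.Analysis.Calculus.Deriv.Comp
import Mathlib.Analysis.Calculus.Deriv.Prod
import Mathlib.Analysis.Calculus.FDeriv.Pi

/-!
Block C: flows that are, in each time window, a shear.
-/

namespace P113S

open Set

/-- `V` moves only the coordinates in `S` and depends only on the coordinates outside `S`. -/
structure IsShear {ι : Type} (S : Set ι) (V : (ι → ℝ) → (ι → ℝ)) : Prop where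
  zero : ∀ x i, i ∉ S → V x i = 0
  dep : ∀ x y, (∀ i, i ∉ S → x i = y i) → V x = V y

theorem isShear_const {ι : Type} (c : ι → ℝ) : IsShear univ (fun _ => c) :=
  ⟨fun _ i hi => absurd (mem_univ i) hi, fun _ _ _ => rfl⟩

theorem isShear_zero {ι : Type} (S : Set ι) : IsShear S (fun _ => 0) :=
  ⟨fun _ _ _ => rfl, fun _ _ _ => rfl⟩

theorem isShear_single {ι : Type} [DecidableEq ι] (k : ι) (h : (ι → ℝ) → ℝ)
    (hh : ∀ x y, (∀ i, i ≠ k → x i = y i) → h x = h y) :
    IsShear {k} (fun x => Pi.single k (h x)) :=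
  ⟨fun x i hi => Pi.single_eq_of_ne (by simpa using hi) _, fun x y hxy => by
    rw [hh x y (fun i hi => hxy i (by simpa using hi))]⟩

theorem IsShear.smul {ι : Type} {S : Set ι} {V : (ι → ℝ) → (ι → ℝ)} (hV : IsShear S V) (c : ℝ) :
    IsShear S (fun x => c • V x) :=
  ⟨fun x i hi => by simp [hV.zero x i hi], fun x y hxy => by rw [hV.dep x y hxy]⟩

theorem IsShear.add {ι : Type} {S : Set ι} {V W : (ι → ℝ) → (ι → ℝ)} (hV : IsShear S V)
    (hW : IsShear S W) : IsShear S (fun x => V x + W x) :=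
  ⟨fun x i hi => by simp [hV.zero x i hi, hW.zero x i hi], fun x y hxy => by
    rw [hV.dep x y hxy, hW.dep x y hxy]⟩

theorem IsShear.along {ι : Type} {S : Set ι} {V : (ι → ℝ) → (ι → ℝ)} (hV : IsShear S V)
    (x : ι → ℝ) (s : ℝ) : V (x + s • V x) = V x :=
  hV.dep _ _ (fun i hi => by simp [hV.zero x i hi])

/-! ### The PDE side -/

section PDE
variable {ι : Type} [DecidableEq ι] {S : Set ι} {V : (ι → ℝ) → (ι → ℝ)}

theorem IsShear.update_eq (hV : IsShear S V) (x : ι → ℝ) {i : ι} (hi : i ∈ S) (s : ℝ) :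
    V (Function.update x i s) = V x :=
  hV.dep _ _ (fun j hj => Function.update_of_ne (fun h : j = i => hj (h ▸ hi)) _ _)

theorem IsShear.add_single_eq (hV : IsShear S V) (x : ι → ℝ) {i : ι} (hi : i ∈ S) (s : ℝ) :
    V (x + Pi.single i s) = V x :=
  hV.dep _ _ (fun j hj => by
    have : j ≠ i := fun h => hj (h ▸ hi)
    simp [Pi.single_eq_of_ne this])

theorem IsShear.add_smul_single_eq (hV : IsShear S V) (x : ι → ℝ) {i : ι} (hi : i ∈ S) (s : ℝ) :
    V (x + s • (Pi.single i (1 : ℝ) : ι → ℝ)) = V x :=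
  hV.dep _ _ (fun j hj => by
    have : j ≠ i := fun h => hj (h ▸ hi)
    simp [Pi.single_eq_of_ne this])

/-- partial derivatives written with `Function.update`: the diagonal ones vanish. -/
theorem IsShear.deriv_update_diag (hV : IsShear S V) (x : ι → ℝ) (i : ι) (r : ℝ) :
    deriv (fun s => V (Function.update x i s) i) r = 0 := by
  by_cases hi : i ∈ S
  · simp [hV.update_eq x hi]
  · simp [hV.zero _ i hi]

theorem IsShear.mul_deriv_update (hV : IsShear S V) (x : ι → ℝ) (i j : ι) (r : ℝ) :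
    V x i * deriv (fun s => V (Function.update x i s) j) r = 0 := by
  by_cases hi : i ∈ S
  · simp [hV.update_eq x hi]
  · simp [hV.zero _ i hi]

/-- partial derivatives written with `x + s • e_i`. -/
theorem IsShear.deriv_line_diag (hV : IsShear S V) (x : ι → ℝ) (i : ι) (r : ℝ) :
    deriv (fun s : ℝ => V (x + s • (Pi.single i (1 : ℝ) : ι → ℝ)) i) r = 0 := by
  by_cases hi : i ∈ S
  · simp only [hV.add_smul_single_eq x hi]; simp
  · simp [hV.zero _ i hi]

theorem IsShear.mul_deriv_line (hV : IsShear S V) (x : ι → ℝ) (i j : ι) (r : ℝ) :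
    V x i * deriv (fun s : ℝ => V (x + s • (Pi.single i (1 : ℝ) : ι → ℝ)) j) r = 0 := by
  by_cases hi : i ∈ S
  · simp only [hV.add_smul_single_eq x hi]; simp
  · simp [hV.zero _ i hi]

variable [Fintype ι]

theorem fderiv_single_eq_zero {F : Type} [NormedAddCommGroup F] [NormedSpace ℝ F]
    (g : (ι → ℝ) → F) (x : ι → ℝ) (i : ι)
    (hg : ∀ s : ℝ, g (x + s • (Pi.single i (1 : ℝ) : ι → ℝ)) = g x) :
    fderiv ℝ g x (Pi.single i 1) = 0 := by
  by_cases hd : DifferentiableAt ℝ g x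
  · have h1 : HasDerivAt (fun s : ℝ => x + s • (Pi.single i (1 : ℝ) : ι → ℝ))
        (Pi.single i (1 : ℝ) : ι → ℝ) 0 := by
      simpa using ((hasDerivAt_id (0 : ℝ)).smul_const (Pi.single i (1 : ℝ) : ι → ℝ)).const_add x
    have h2 : HasFDerivAt g (fderiv ℝ g x) (x + (0 : ℝ) • (Pi.single i (1 : ℝ) : ι → ℝ)) := by
      simpa using hd.hasFDerivAt
    have h3 := h2.comp_hasDerivAt (0 : ℝ) h1
    have h4 : HasDerivAt (g ∘ fun s : ℝ => x + s • (Pi.single i (1 : ℝ) : ι → ℝ)) 0 0 := by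
      have : (g ∘ fun s : ℝ => x + s • (Pi.single i (1 : ℝ) : ι → ℝ)) = fun _ => g x := by
        funext s; exact hg s
      rw [this]; exact hasDerivAt_const _ _
    exact h3.unique h4
  · simp [fderiv_zero_of_not_differentiableAt hd]

/-- partial derivatives written with `fderiv`, component by component. -/
theorem IsShear.fderiv_diag (hV : IsShear S V) (x : ι → ℝ) (i : ι) :
    fderiv ℝ (fun y => V y i) x (Pi.single i 1) = 0 := by
  by_cases hi : i ∈ S
  · exact fderiv_single_eq_zero _ x i (fun s => by rw [hV.add_smul_single_eq x hi])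
  · simp [hV.zero _ i hi]

theorem IsShear.mul_fderiv (hV : IsShear S V) (x : ι → ℝ) (i j : ι) :
    V x i * fderiv ℝ (fun y => V y j) x (Pi.single i 1) = 0 := by
  by_cases hi : i ∈ S
  · rw [fderiv_single_eq_zero _ x i (fun s => by rw [hV.add_smul_single_eq x hi]), mul_zero]
  · simp [hV.zero _ i hi]

/-- partial derivatives written with `fderiv` of the vector field. -/
theorem IsShear.fderiv_vec_diag (hV : IsShear S V) (x : ι → ℝ) (i : ι) :
    fderiv ℝ V x (Pi.single i 1) i = 0 := by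
  by_cases hi : i ∈ S
  · rw [fderiv_single_eq_zero _ x i (fun s => hV.add_smul_single_eq x hi s)]; rfl
  · by_cases hd : DifferentiableAt ℝ V x
    · have h1 := (hasFDerivAt_pi'.1 hd.hasFDerivAt) i
      have h2 : HasFDerivAt (fun y => V y i) (0 : (ι → ℝ) →L[ℝ] ℝ) x := by
        have : (fun y => V y i) = fun _ => (0 : ℝ) := funext fun y => hV.zero y i hi
        rw [this]; exact hasFDerivAt_const _ _
      have h3 := h1.unique h2
      have := congrArg (fun L : (ι → ℝ) →L[ℝ] ℝ => L (Pi.single i 1)) h3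
      simpa using this
    · simp [fderiv_zero_of_not_differentiableAt hd]

theorem IsShear.fderiv_apply_self (hV : IsShear S V) (x : ι → ℝ) :
    fderiv ℝ V x (V x) = 0 := by
  have h : V x = ∑ i, V x i • (Pi.single i (1 : ℝ) : ι → ℝ) := by
    funext j; simp [Finset.sum_apply, Pi.single_apply]
  rw [h, map_sum]
  refine Finset.sum_eq_zero fun i _ => ?_
  rw [map_smul]
  by_cases hi : i ∈ S
  · rw [fderiv_single_eq_zero _ x i (fun s => hV.add_smul_single_eq x hi s), smul_zero]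
  · rw [hV.zero x i hi, zero_smul]

end PDE

/-! ### The trajectory -/

section ODE
variable {ι : Type} [Fintype ι]

theorem const_of_hasDerivAt_zero {F : Type} [NormedAddCommGroup F] [NormedSpace ℝ F]
    [CompleteSpace F] {g : ℝ → F} {a b : ℝ} (hab : a ≤ b) (hc : ContinuousOn g (Icc a b))
    (hd : ∀ t ∈ Ioo a b, HasDerivAt g 0 t) : g b = g a := by
  have h := intervalIntegral.integral_eq_sub_of_hasDerivAt_of_le (f' := fun _ => (0 : F)) hab hc hd
    intervalIntegrable_const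
  simp only [intervalIntegral.integral_zero] at h
  exact (sub_eq_zero.1 h.symm)

/-- One window: every solution is the straight shear motion. -/
theorem window_unique {S : Set ι} {V : (ι → ℝ) → (ι → ℝ)} (hV : IsShear S V) {a b : ℝ}
    {θ Θ : ℝ → ℝ} (hΘ : ∀ t, HasDerivAt Θ (θ t) t) {X : ℝ → ι → ℝ}
    (hc : ContinuousOn X (Icc a b)) (hd : ∀ t ∈ Ioo a b, HasDerivAt X (θ t • V (X t)) t)
    {t : ℝ} (ht : t ∈ Icc a b) : X t = X a + (Θ t - Θ a) • V (X a) := by
  have hfix : ∀ s ∈ Icc a b, V (X s) = V (X a) := by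
    intro s hs
    refine hV.dep _ _ fun i hi => ?_
    refine const_of_hasDerivAt_zero (g := fun r => X r i) hs.1 ?_ ?_
    · exact (continuous_apply i).comp_continuousOn (hc.mono (Icc_subset_Icc_right hs.2))
    · intro r hr
      have := (hasDerivAt_pi.1 (hd r ⟨hr.1, hr.2.trans_le hs.2⟩)) i
      simpa [hV.zero _ i hi] using this
  have hΘc : Continuous Θ := continuous_iff_continuousAt.2 fun s => (hΘ s).continuousAt
  have key := const_of_hasDerivAt_zero (g := fun r => X r - Θ r • V (X a)) ht.1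
    ((hc.mono (Icc_subset_Icc_right ht.2)).sub (hΘc.smul continuous_const).continuousOn)
    (fun r hr => by
      have h1 := hd r ⟨hr.1, hr.2.trans_le ht.2⟩
      rw [hfix r ⟨hr.1.le, hr.2.le.trans ht.2⟩] at h1
      have h2 := (hΘ r).smul_const (V (X a))
      simpa using h1.fun_sub h2)
  have : X t = X a - Θ a • V (X a) + Θ t • V (X a) := by
    rw [← key]; abel
  rw [this, sub_smul]; abel

/-- The discrete orbit: position at the start of window `n`. -/
noncomputable def orbit (V : ℕ → (ι → ℝ) → (ι → ℝ)) (a : ι → ℝ) : ℕ → ι → ℝ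
  | 0 => a
  | n + 1 => orbit V a n + V n (orbit V a n)

/-- `u` is, in the window `[n τ, (n+1) τ]`, the shear `θ n t • V n x`, where `θ n` has the
primitive `Θ n` rising from `0` to `1` inside `[0,1]`. -/
structure ShearFlow (τ : ℝ) (u : ℝ → (ι → ℝ) → (ι → ℝ)) (V : ℕ → (ι → ℝ) → (ι → ℝ))
    (θ Θ : ℕ → ℝ → ℝ) : Prop where
  pos : 0 < τ
  shear : ∀ n, ∃ S, IsShear S (V n)
  prim : ∀ n t, HasDerivAt (Θ n) (θ n t) t
  start : ∀ n : ℕ, Θ n (n * τ) = 0
  stop : ∀ n : ℕ, Θ n ((n + 1) * τ) = 1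
  range : ∀ n : ℕ, ∀ t ∈ Icc (n * τ) ((n + 1) * τ), Θ n t ∈ Icc (0 : ℝ) 1
  eq : ∀ n : ℕ, ∀ t ∈ Icc (n * τ) ((n + 1) * τ), ∀ x, u t x = θ n t • V n x

variable {τ : ℝ} {u : ℝ → (ι → ℝ) → (ι → ℝ)} {V : ℕ → (ι → ℝ) → (ι → ℝ)} {θ Θ : ℕ → ℝ → ℝ}

theorem mem_window (hτ : 0 < τ) {t : ℝ} (ht : 0 ≤ t) :
    t ∈ Ico ((⌊t / τ⌋₊ : ℝ) * τ) (((⌊t / τ⌋₊ : ℝ) + 1) * τ) := by
  have h0 : 0 ≤ t / τ := div_nonneg ht hτ.le
  constructor
  · have := Nat.floor_le h0
    rwa [le_div_iff₀ hτ] at this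
  · have := Nat.lt_floor_add_one (t / τ)
    rwa [div_lt_iff₀ hτ] at this

omit [Fintype ι] in
/-- at every time `t ≥ 0` the field is a shear. -/
theorem ShearFlow.isShear (H : ShearFlow τ u V θ Θ) {t : ℝ} (ht : 0 ≤ t) :
    ∃ S, IsShear S (u t) := by
  obtain ⟨S, hS⟩ := H.shear ⌊t / τ⌋₊
  have hw := mem_window H.pos ht
  refine ⟨S, ?_⟩
  have : u t = fun x => θ ⌊t / τ⌋₊ t • V ⌊t / τ⌋₊ x :=
    funext fun x => H.eq _ t ⟨hw.1, hw.2.le⟩ x
  rw [this]; exact hS.smul _

/-- Uniqueness and exact formula, under the weakest notion of a trajectory. -/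
theorem ShearFlow.formula (H : ShearFlow τ u V θ Θ) {X : ℝ → ι → ℝ}
    (hc : ContinuousOn X (Ici 0)) (hd : ∀ t, 0 < t → HasDerivAt X (u t (X t)) t) (n : ℕ) :
    X (n * τ) = orbit V (X 0) n ∧ ∀ t ∈ Icc (n * τ) ((n + 1) * τ),
      X t = orbit V (X 0) n + Θ n t • V n (orbit V (X 0) n) := by
  have step : ∀ n : ℕ, ∀ t ∈ Icc (n * τ) ((n + 1) * τ),
      X t = X (n * τ) + Θ n t • V n (X (n * τ)) := by
    intro n t ht
    obtain ⟨S, hS⟩ := H.shear n
    have h0 : (0 : ℝ) ≤ n * τ := mul_nonneg (Nat.cast_nonneg n) H.pos.le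
    have := window_unique hS (a := n * τ) (b := (n + 1) * τ) (H.prim n) (X := X)
      (hc.mono fun s hs => h0.trans hs.1)
      (fun s hs => by
        have := hd s (h0.trans_lt hs.1)
        rwa [H.eq n s ⟨hs.1.le, hs.2.le⟩] at this) ht
    simpa [H.start n] using this
  have base : ∀ n : ℕ, X (n * τ) = orbit V (X 0) n := by
    intro n
    induction n with
    | zero => simp [orbit]
    | succ n ih =>
      have hle : (n : ℝ) * τ ≤ (n + 1) * τ := by nlinarith [H.pos]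
      have := step n ((n + 1) * τ) ⟨hle, le_rfl⟩
      rw [H.stop n, one_smul, ih] at this
      push_cast
      rw [this]; rfl
  refine ⟨base n, fun t ht => ?_⟩
  rw [step n t ht, base n]

/-- The trajectory itself. -/
noncomputable def traj (τ : ℝ) (V : ℕ → (ι → ℝ) → (ι → ℝ)) (Θ : ℕ → ℝ → ℝ) (a : ι → ℝ) (t : ℝ) :
    ι → ℝ :=
  orbit V a ⌊t / τ⌋₊ + Θ ⌊t / τ⌋₊ t • V ⌊t / τ⌋₊ (orbit V a ⌊t / τ⌋₊)

omit [Fintype ι] in
theorem ShearFlow.traj_eq (H : ShearFlow τ u V θ Θ) (a : ι → ℝ) (n : ℕ) {t : ℝ}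
    (ht : t ∈ Icc (n * τ) ((n + 1) * τ)) :
    traj τ V Θ a t = orbit V a n + Θ n t • V n (orbit V a n) := by
  have hτ := H.pos
  rcases ht.2.eq_or_lt with h | h
  · have hf : ⌊t / τ⌋₊ = n + 1 := by
      rw [h, mul_div_cancel_right₀ _ hτ.ne']
      exact_mod_cast Nat.floor_natCast (R := ℝ) (n + 1)
    have h1 : Θ (n + 1) t = 0 := by
      rw [h]; exact_mod_cast H.start (n + 1)
    have h2 : Θ n t = 1 := by rw [h]; exact H.stop n
    simp [traj, hf, h1, h2, orbit]
  · have hf : ⌊t / τ⌋₊ = n := by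
      have h0 : (0 : ℝ) ≤ n * τ := mul_nonneg (Nat.cast_nonneg n) hτ.le
      rw [Nat.floor_eq_iff (div_nonneg (h0.trans ht.1) hτ.le)]
      exact ⟨(le_div_iff₀ hτ).2 ht.1, (div_lt_iff₀ hτ).2 h⟩
    simp [traj, hf]

omit [Fintype ι] in
theorem ShearFlow.traj_zero (H : ShearFlow τ u V θ Θ) (a : ι → ℝ) : traj τ V Θ a 0 = a := by
  have := H.start 0
  simp only [Nat.cast_zero, zero_mul] at this
  simp [traj, orbit, this]

theorem ShearFlow.traj_window (H : ShearFlow τ u V θ Θ) (a : ι → ℝ) (n : ℕ) {t : ℝ}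
    (ht : t ∈ Icc (n * τ) ((n + 1) * τ)) :
    HasDerivWithinAt (traj τ V Θ a) (u t (traj τ V Θ a t)) (Icc (n * τ) ((n + 1) * τ)) t := by
  obtain ⟨S, hS⟩ := H.shear n
  have h1 : HasDerivAt (fun s => orbit V a n + Θ n s • V n (orbit V a n))
      (θ n t • V n (orbit V a n)) t := ((H.prim n t).smul_const _).const_add _
  rw [H.eq n t ht, H.traj_eq a n ht, hS.along]
  exact h1.hasDerivWithinAt.congr (fun s hs => H.traj_eq a n hs) (H.traj_eq a n ht)

/-- Existence, under the strongest notion of a trajectory on `[0,∞)`. -/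
theorem ShearFlow.traj_hasDerivWithinAt (H : ShearFlow τ u V θ Θ) (a : ι → ℝ) {t : ℝ}
    (ht : 0 ≤ t) : HasDerivWithinAt (traj τ V Θ a) (u t (traj τ V Θ a t)) (Ici 0) t := by
  have hτ := H.pos
  have hw := mem_window hτ ht
  generalize ⌊t / τ⌋₊ = n at hw
  have hR := H.traj_window a n ⟨hw.1, hw.2.le⟩
  cases n with
  | zero =>
    refine hR.mono_of_mem_nhdsWithin ?_
    simp only [Nat.cast_zero, zero_mul, zero_add, one_mul] at hw ⊢
    exact mem_nhdsWithin.2 ⟨Iio τ, isOpen_Iio, hw.2, fun s hs => ⟨hs.2, le_of_lt hs.1⟩⟩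
  | succ n =>
    rcases hw.1.eq_or_lt with h | h
    · have hL := H.traj_window a n (t := t) ⟨by rw [← h]; push_cast; nlinarith, by
        rw [← h]; push_cast; exact le_rfl⟩
      have hU := hL.union hR
      refine (hU.hasDerivAt ?_).hasDerivWithinAt
      have h1 : (n : ℝ) * τ < t := by rw [← h]; push_cast; nlinarith
      refine Filter.mem_of_superset (Ioo_mem_nhds h1 hw.2) fun s hs => ?_
      rcases le_total s t with h2 | h2
      · left; refine ⟨hs.1.le, ?_⟩
        rw [← h] at h2; push_cast at h2; exact h2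
      · right; exact ⟨h.le.trans h2, hs.2.le⟩
    · exact (hR.hasDerivAt (Icc_mem_nhds h hw.2)).hasDerivWithinAt

theorem ShearFlow.exists_traj (H : ShearFlow τ u V θ Θ) (a : ι → ℝ) :
    ∃ X : ℝ → ι → ℝ, X 0 = a ∧ ∀ t, 0 ≤ t → HasDerivWithinAt X (u t (X t)) (Ici 0) t :=
  ⟨traj τ V Θ a, H.traj_zero a, fun _ ht => H.traj_hasDerivWithinAt a ht⟩

/-- the strong notion of a trajectory implies the weak one. -/
theorem weak_of_strong {X : ℝ → ι → ℝ} {F : ℝ → ι → ℝ}
    (h : ∀ t, 0 ≤ t → HasDerivWithinAt X (F t) (Ici 0) t) :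
    ContinuousOn X (Ici 0) ∧ ∀ t, 0 < t → HasDerivAt X (F t) t :=
  ⟨fun t ht => (h t ht).continuousWithinAt, fun t ht => (h t ht.le).hasDerivAt (Ici_mem_nhds ht)⟩

theorem ShearFlow.eq_traj (H : ShearFlow τ u V θ Θ) {X : ℝ → ι → ℝ}
    (hc : ContinuousOn X (Ici 0)) (hd : ∀ t, 0 < t → HasDerivAt X (u t (X t)) t) {t : ℝ}
    (ht : 0 ≤ t) : X t = traj τ V Θ (X 0) t := by
  have hw := mem_window H.pos ht
  exact (H.formula hc hd _).2 t ⟨hw.1, hw.2.le⟩

/-- Which sets the trajectory meets: exactly those met by the polygon through the orbit. -/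
theorem ShearFlow.hits_iff (H : ShearFlow τ u V θ Θ) {X : ℝ → ι → ℝ}
    (hc : ContinuousOn X (Ici 0)) (hd : ∀ t, 0 < t → HasDerivAt X (u t (X t)) t)
    (O : Set (ι → ℝ)) :
    (∃ t, 0 ≤ t ∧ X t ∈ O) ↔
      ∃ n : ℕ, ∃ s ∈ Icc (0 : ℝ) 1, orbit V (X 0) n + s • V n (orbit V (X 0) n) ∈ O := by
  have hτ := H.pos
  constructor
  · rintro ⟨t, ht, hO⟩
    have hw := mem_window hτ ht
    refine ⟨⌊t / τ⌋₊, Θ _ t, H.range _ t ⟨hw.1, hw.2.le⟩, ?_⟩
    rwa [← (H.formula hc hd _).2 t ⟨hw.1, hw.2.le⟩]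
  · rintro ⟨n, s, hs, hO⟩
    have hle : (n : ℝ) * τ ≤ (n + 1) * τ := by nlinarith
    have hΘc : Continuous (Θ n) := continuous_iff_continuousAt.2 fun r => (H.prim n r).continuousAt
    have := intermediate_value_Icc hle hΘc.continuousOn
    rw [H.start n, H.stop n] at this
    obtain ⟨t, ht, hts⟩ := this hs
    refine ⟨t, (mul_nonneg (Nat.cast_nonneg n) hτ.le).trans ht.1, ?_⟩
    rwa [(H.formula hc hd n).2 t ht, hts]

omit [Fintype ι] in
/-- Building a `ShearFlow` from continuous nonnegative profiles of integral one. -/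
theorem shearFlow_of_integral (hτ : 0 < τ) (hV : ∀ n, ∃ S, IsShear S (V n))
    (hθc : ∀ n, Continuous (θ n)) (hθ0 : ∀ n t, 0 ≤ θ n t)
    (hθ1 : ∀ n : ℕ, ∫ s in (n * τ)..((n + 1) * τ), θ n s = 1)
    (heq : ∀ n : ℕ, ∀ t ∈ Icc (n * τ) ((n + 1) * τ), ∀ x, u t x = θ n t • V n x) :
    ShearFlow τ u V θ (fun n t => ∫ s in (n * τ)..t, θ n s) where
  pos := hτ
  shear := hV
  prim := fun n t => ((hθc n).integral_hasStrictDerivAt _ t).hasDerivAt
  start := fun n => by simp
  stop := hθ1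
  range := fun n t ht => by
    refine ⟨intervalIntegral.integral_nonneg ht.1 fun s _ => hθ0 n s, ?_⟩
    rw [← hθ1 n, ← intervalIntegral.integral_add_adjacent_intervals
      ((hθc n).intervalIntegrable (n * τ) t) ((hθc n).intervalIntegrable t ((n + 1) * τ))]
    have := intervalIntegral.integral_nonneg (μ := MeasureTheory.volume) ht.2
      fun s _ => hθ0 n s
    linarith
  eq := heq

end ODE

end P113S
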