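import Vale.Agent.P113.Defs
import Mathlib.Computability.RE
import Mathlib.Computability.TuringMachine.PostTuringMachine
import Mathlib.Analysis.Calculus.ContDiff.Defs

/-!
# P113: the blocks of the proof, as propositions

Every block is a `Prop`; each block is proved in its own file, from the blocks it needs as
hypotheses. `Final` is the statement of the hand-in.
-/

open Set
open scoped ContDiff

namespace Vale.Agent.P113

noncomputable section

/-- The statement to be proved. -/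
def Final : Prop :=
  ∃ (a lo hi : Fin 3 → ℚ) (C : MachineCode × List ℕ → Fin 3 → List Term),
    (∀ i, lo i < hi i) ∧ IsForceCompiler C ∧
    ∀ ν : ℝ, 0 < ν → ∀ (M : Machine) (w : List (Fin (M.k + 1))),
      ∃ (u : ℝ → V → V) (p : ℝ → V → ℝ),
        ContDiffOn ℝ ∞ (fun z : ℝ × V => u z.1 z.2) (Ici 0 ×ˢ univ) ∧
        ContDiffOn ℝ ∞ (fun z : ℝ × V => p z.1 z.2) (Ici 0 ×ˢ univ) ∧
        (∀ T, 0 < T → IsClassical ν (force (C (M.code, w.map Fin.val)) ν) T u p) ∧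
        (∀ T, 0 < T → ∀ v q, IsClassical ν (force (C (M.code, w.map Fin.val)) ν) T v q →
          ∀ t ∈ Icc 0 T, ∀ x, v t x = u t x ∧ q t x = p t x) ∧
        ∃ X : ℝ → V, IsTrajectory u (fun i => a i) X ∧
          (∀ Y, IsTrajectory u (fun i => a i) Y → ∀ t, 0 ≤ t → Y t = X t) ∧
          ((∃ t, 0 ≤ t ∧ X t ∈ boxImage lo hi) ↔ M.Halts w)

/-! ### Block A: bump calculus -/

/-- A1. Elementary facts on `ρ`, `κ`, `σ`. -/
def BasicStmt : Prop :=
  ContDiff ℝ ∞ rho ∧ (∀ s, 0 ≤ rho s) ∧ (∀ s, 1 ≤ |s| → rho s = 0) ∧ 0 < kappa ∧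
    (∀ s, HasDerivAt sigma (rho s) s) ∧ (∀ s, s ≤ -1 → sigma s = 0) ∧
    (∀ s, 1 ≤ s → sigma s = kappa) ∧ (∀ s, 0 ≤ sigma s ∧ sigma s ≤ kappa)

/-- A2. A function which vanishes outside `(c, c+1)` agrees with its periodization on `[c, c+1]`. -/
def PerEvalStmt : Prop :=
  ∀ (g : ℝ → ℝ) (c : ℝ), (∀ s, s ≤ c ∨ c + 1 ≤ s → g s = 0) → ∀ y ∈ Icc c (c + 1), per g y = g y

/-- Periodic admissible functions of one variable (with admissible constant coefficients). -/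
inductive Adm1 : (ℝ → ℝ) → Prop
  | rat (q : ℚ) : Adm1 fun _ => (q : ℝ)
  | kappaInv : Adm1 fun _ => kappa⁻¹
  | log (r : ℚ) (hr : 0 < r) : Adm1 fun _ => Real.log r
  | per (b : Bump) (hb : b.Valid) : Adm1 (per b.fn)
  | add {f g : ℝ → ℝ} : Adm1 f → Adm1 g → Adm1 fun s => f s + g s
  | mul {f g : ℝ → ℝ} : Adm1 f → Adm1 g → Adm1 fun s => f s * g s

/-- A3. They are smooth, of period one, and closed under differentiation. -/
def Adm1Stmt : Prop :=
  ∀ h, Adm1 h → ContDiff ℝ ∞ h ∧ (∀ s, h (s + 1) = h s) ∧ Adm1 (deriv h)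

/-- A4. Cutoffs: `χ = 1` and `ψ(s) = s` on `[e, e']`, both zero on `[0,1]` off `(e - δ, e' + δ)`. -/
def CutoffStmt : Prop :=
  ∀ e e' δ : ℚ, 0 < δ → e ≤ e' → 0 ≤ e - δ → e' + δ ≤ 1 →
    ∃ χ ψ : ℝ → ℝ, Adm1 χ ∧ Adm1 ψ ∧ (∀ s ∈ Icc (e : ℝ) e', χ s = 1 ∧ ψ s = s) ∧
      ∀ s ∈ Icc (0 : ℝ) 1, s ≤ (e : ℝ) - δ ∨ (e' : ℝ) + δ ≤ s → χ s = 0 ∧ ψ s = 0

/-- Time-periodic admissible functions of `(ν, t, x)`. -/
inductive Adm : (ℝ → ℝ → V → ℝ) → Prop
  | nu : Adm fun ν _ _ => ν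
  | time (h : ℝ → ℝ) : Adm1 h → Adm fun _ t _ => h t
  | space (i : Fin 3) (h : ℝ → ℝ) : Adm1 h → Adm fun _ _ x => h (x i)
  | add {F G : ℝ → ℝ → V → ℝ} : Adm F → Adm G → Adm fun ν t x => F ν t x + G ν t x
  | mul {F G : ℝ → ℝ → V → ℝ} : Adm F → Adm G → Adm fun ν t x => F ν t x * G ν t x

/-- A5. They are smooth, periodic, and closed under `∂_t` and `∂_j`. (From A3.) -/
def AdmStmt : Prop :=
  ∀ F, Adm F → (∀ ν, ContDiff ℝ ∞ fun z : ℝ × V => F ν z.1 z.2) ∧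
    (∀ ν t x, F ν (t + 1) x = F ν t x) ∧ (∀ ν t x j, F ν t (x + Pi.single j 1) = F ν t x) ∧
    (Adm fun ν t x => deriv (fun s => F ν s x) t) ∧ ∀ j, Adm fun ν => dx j (F ν)

/-- A6. They are sums of finite lists of valid periodic terms. (Needs only `kappa ≠ 0`.) -/
def AdmListStmt : Prop :=
  ∀ F, Adm F → ∃ L : List Term, (∀ τ ∈ L, τ.Valid ∧ τ.isPeriodic = true) ∧
    ∀ ν t x, F ν t x = (L.map fun τ => τ.eval ν t x).sum

/-! ### Block B: Navier-Stokes -/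

/-- B1. Uniqueness of classical solutions (energy estimate). -/
def UniqueStmt : Prop :=
  ∀ (ν : ℝ) (f : ℝ → V → V) (T : ℝ) (u v : ℝ → V → V) (p q : ℝ → V → ℝ), 0 < ν → 0 < T →
    IsClassical ν f T u p → IsClassical ν f T v q →
    ∀ t ∈ Icc 0 T, ∀ x, v t x = u t x ∧ q t x = p t x

/-- B2. A smooth periodic divergence-free field which vanishes at `t = 0` is a classical solution
with zero pressure for the force `∂_t u + (u·∇)u - ν Δu`. -/
def SmoothClassicalStmt : Prop :=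
  ∀ (ν : ℝ) (f u : ℝ → V → V), ContDiff ℝ ∞ (fun z : ℝ × V => u z.1 z.2) →
    (∀ t x j, u t (x + Pi.single j 1) = u t x) →
    (∀ t x, ∑ i, dx i (comp u i) t x = 0) → (∀ x, u 0 x = 0) →
    (∀ t, 0 ≤ t → ∀ x i, f t x i = deriv (fun s => u s x i) t +
      ∑ j, u t x j * dx j (comp u i) t x - ν * ∑ j, dx j (dx j (comp u i)) t x) →
    ∀ T, 0 < T → IsClassical ν f T u fun _ _ => 0

/-- B3. Trajectories of a smooth spatially periodic field: global existence, and uniqueness on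
compact intervals. -/
def ODEStmt : Prop :=
  ∀ u : ℝ → V → V, ContDiff ℝ ∞ (fun z : ℝ × V => u z.1 z.2) →
    (∀ t x j, u t (x + Pi.single j 1) = u t x) →
    (∀ a, ∃ X, IsTrajectory u a X) ∧
    ∀ (a b : ℝ) (X Y : ℝ → V), (∀ t ∈ Icc a b, HasDerivWithinAt X (u t (X t)) (Icc a b) t) →
      (∀ t ∈ Icc a b, HasDerivWithinAt Y (u t (Y t)) (Icc a b) t) → X a = Y a →
      ∀ t ∈ Icc a b, X t = Y t

/-! ### Block C: machines -/

/-- C1. Halting is recursively enumerable. -/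
def HaltREStmt : Prop :=
  ∃ S : MachineCode × List ℕ → Prop, REPred S ∧
    ∀ (M : Machine) (w : List (Fin (M.k + 1))), S (M.code, w.map Fin.val) ↔ M.Halts w

/-- C2. Every r.e. set of numbers is the halting set of a finite Post-Turing machine, under a
computable coding of the input. -/
def TM0Stmt : Prop :=
  ∀ S : ℕ → Prop, REPred S →
    ∃ (Γ Λ : Type) (_ : Fintype Γ) (_ : Fintype Λ) (_ : Inhabited Γ) (_ : Inhabited Λ)
      (M : Turing.TM0.Machine Γ Λ) (inp : ℕ → List Γ),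
      (∀ d : Γ → ℕ, Computable fun n => (inp n).map d) ∧
      ∀ n, S n ↔ (Turing.TM0.eval M (inp n)).Dom

/-- The number `0.d₁d₂…` in base `K`. -/
def cantor (K : ℕ) (ds : List ℕ) : ℚ := ds.foldr (fun d y => (d + y) / K) 0

/-- C3. Numerator and denominator of `c (1 + 0.d₁d₂…)` are computable from the digits. -/
def RatCompStmt : Prop :=
  ∀ K c : ℕ, 0 < K → Computable fun ds : List ℕ => ratCode (c * (1 + cantor K ds))

/-- A rule maps the rectangle `[a, a+α] × [b, b+β]` affinely onto `[a', a'+α'] × [b', b'+β']`;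
if `halt` is true only the source rectangle matters. -/
structure Rule where
  a : ℚ
  α : ℚ
  b : ℚ
  β : ℚ
  a' : ℚ
  α' : ℚ
  b' : ℚ
  β' : ℚ
  halt : Bool

def Rule.src (r : Rule) : Set (ℝ × ℝ) := Icc (r.a : ℝ) (r.a + r.α) ×ˢ Icc (r.b : ℝ) (r.b + r.β)

def Rule.tgt (r : Rule) : Set (ℝ × ℝ) :=
  Icc (r.a' : ℝ) (r.a' + r.α') ×ˢ Icc (r.b' : ℝ) (r.b' + r.β')

def Rule.map (r : Rule) (p : ℝ × ℝ) : ℝ × ℝ :=
  (r.a' + r.α' / r.α * (p.1 - r.a), r.b' + r.β' / r.β * (p.2 - r.b))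

/-- Both rectangles are nondegenerate and lie in the unit square. -/
def Rule.Good (r : Rule) : Prop :=
  (0 < r.α ∧ 0 ≤ r.a ∧ r.a + r.α ≤ 1) ∧ (0 < r.β ∧ 0 ≤ r.b ∧ r.b + r.β ≤ 1) ∧
    (0 < r.α' ∧ 0 ≤ r.a' ∧ r.a' + r.α' ≤ 1) ∧ (0 < r.β' ∧ 0 ≤ r.b' ∧ r.b' + r.β' ≤ 1)

/-- A deterministic and reversible system of rules. -/
structure IsRectSys {ι : Type} (R : ι → Rule) : Prop where
  good : ∀ i, (R i).Good
  src_disj : ∀ i j, i ≠ j → Disjoint (R i).src (R j).src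
  tgt_disj : ∀ i j, i ≠ j → (R i).halt = false → (R j).halt = false →
    Disjoint (R i).tgt (R j).tgt

def Step {ι : Type} (R : ι → Rule) (p p' : ℝ × ℝ) : Prop :=
  ∃ i, (R i).halt = false ∧ p ∈ (R i).src ∧ p' = (R i).map p

def HaltsAt {ι : Type} (R : ι → Rule) (p : ℝ × ℝ) : Prop :=
  ∃ i, (R i).halt = true ∧ p ∈ (R i).src

/-- The orbit of `p` reaches a halting rectangle. -/
def OrbitHalts {ι : Type} (R : ι → Rule) (p : ℝ × ℝ) : Prop :=
  ∃ (s : ℕ → ℝ × ℝ) (N : ℕ), s 0 = p ∧ (∀ n < N, Step R (s n) (s (n + 1))) ∧ HaltsAt R (s N)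

/-- The orbit of `p` goes on forever through rules which are not halting. -/
def OrbitRuns {ι : Type} (R : ι → Rule) (p : ℝ × ℝ) : Prop :=
  ∃ s : ℕ → ℝ × ℝ, s 0 = p ∧ ∀ n, Step R (s n) (s (n + 1))

/-- C4. Reversible simulation of a finite Post-Turing machine by a system of rules. -/
def RectStmt : Prop :=
  ∀ (Γ Λ : Type) [Fintype Γ] [Fintype Λ] [Inhabited Γ] [Inhabited Λ]
    (M : Turing.TM0.Machine Γ Λ),
    ∃ (ι : Type) (_ : Fintype ι) (R : ι → Rule) (x₀ : ℚ) (K : ℕ) (d : Γ → ℕ),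
      IsRectSys R ∧ 0 < K ∧ ∀ l : List Γ,
        ((Turing.TM0.eval M l).Dom → OrbitHalts R (x₀, cantor K (l.map d))) ∧
        (¬ (Turing.TM0.eval M l).Dom → OrbitRuns R (x₀, cantor K (l.map d)))

/-- The term `q κ⁻¹ ρ'(8 t - 1)`, which loads the input. -/
def loadTerm (q : ℚ) : Term := ⟨q, 0, -1, [], [Bump.der 0 1 8 1], [], fun _ => []⟩

/-- C5. Fixed periodic lists together with the two loading terms form a force compiler. (From A1.) -/
def CompilerStmt : Prop :=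
  ∀ (L : Fin 3 → List Term) (q₀ : ℚ) (y : MachineCode × List ℕ → ℚ),
    (∀ i, ∀ τ ∈ L i, τ.Valid ∧ τ.isPeriodic = true) → (Computable fun z => ratCode (y z)) →
    IsForceCompiler fun z => ![loadTerm q₀ :: L 0, loadTerm (y z) :: L 1, L 2]

/-! ### Block D: the flow -/

/-- The point of `ℝ³` at height `z` which represents the point `p` of the unit square. -/
def emb (p : ℝ × ℝ) (z : ℝ) : V := ![(1 + p.1) / 4, (1 + p.2) / 4, z]

/-- D1. A periodic admissible divergence-free field, zero for `0 ≤ t ≤ 1/4`, whose trajectories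
perform one step of the system during `[1/4, 5/4]` at heights in `[0, 1/2]`, and lift the points
of halting rectangles to height `3/4`. -/
def FlowStmt : Prop :=
  ∀ (ι : Type) [Fintype ι] (R : ι → Rule), IsRectSys R → ∃ U : ℝ → V → V,
    (∀ i, Adm fun _ => comp U i) ∧ (∀ t x, ∑ i, dx i (comp U i) t x = 0) ∧
    (∀ t ∈ Icc (0 : ℝ) (1 / 4), ∀ x, U t x = 0) ∧
    (∀ p p', Step R p p' → ∃ X : ℝ → V, X (1 / 4) = emb p 0 ∧ X (5 / 4) = emb p' 0 ∧
      ∀ t ∈ Icc (1 / 4 : ℝ) (5 / 4), HasDerivAt X (U t (X t)) t ∧ X t 2 ∈ Icc (0 : ℝ) (1 / 2)) ∧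
    ∀ p, HaltsAt R p → ∃ (X : ℝ → V) (t₁ : ℝ), 1 / 4 ≤ t₁ ∧ X (1 / 4) = emb p 0 ∧
      X t₁ = emb p (3 / 4) ∧ ∀ t ∈ Icc (1 / 4 : ℝ) t₁, HasDerivAt X (U t (X t)) t

end

end Vale.Agent.P113
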